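import Vale.Agent.P281Z.Gt.DefsB
import Vale.Agent.P281Z.Sc.Ord
import Vale.Agent.P281Z.Mf.Adj
import Vale.Agent.P281Z.Lf.Polar
import Vale.Agent.P277Z.Lo.Jac

/-!
# P281Z, block III, part B: tools for the restriction to the diagonal
-/

open scoped Manifold ContDiff Topology
open Set Filter Function
open Vale.Agent.P272.K Vale.Agent.P285.H281.FD
open Vale.Agent.P277Z (Hol Mer Nz gen jd at_chart gen_of_nhds)
open Vale.Agent.P277Z.Slc (Ind LEq Snc dd ind_iff_surj)
open Vale.Agent.P277Z.Lo (mer_congr mer_of_hol)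
open Vale.Agent.P281Z.Md (Bnd)

noncomputable section

namespace Vale.Agent.P281Z.Gt.Fnl

section sec

variable {n : ℕ} {V : Mf n} {κ : Type} [Fintype κ] {G : κ → Set V.X} {L : Bd V.X}
  {s σ : L.ι → V.X → ℂ} {c c' : κ → ℝ} {S : Set V.X} {R : κ → Prop}

/-- a meromorphic section which is holomorphic off `G` has poles of bounded order -/
theorem secP_mer (hG : Snc n G) (hL : IsLB n L)
    (h1 : ∀ a, ∀ x ∈ L.U a, x ∈ off G → Hol n (s a) x)
    (h2 : ∀ a b, ∀ x ∈ L.U a, x ∈ L.U b → x ∈ off G → s a x = L.g a b x * s b x)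
    (h3 : ∀ a, ∀ x ∈ L.U a, Mer n (s a) x) : ∃ K : ℕ, SecP n n id univ L G (fun _ => K) s := by
  have k : ∀ x, ∃ K : ℕ, ∀ᶠ y in 𝓝 x, ∃ a, y ∈ L.U a ∧ BdP n id G (fun _ => K) (s a) y := fun x => by
    obtain ⟨a, ha⟩ := hL.cover x
    obtain ⟨ζ, hζ⟩ := Hyp.of_snc hG x
    obtain ⟨C, A, k1⟩ := (Lf.mon n V κ G x ζ (s a) hG hζ (h3 a x ha)
      ((lb_near hL ha).mono fun y => h1 a y)).1
    have k2 : BdP n id G (fun _ => A) (s a) x := bdP_of_one continuousAt_id hζ (C := C) (by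
      simpa only [Real.rpow_natCast, id] using k1)
    exact ⟨A, ((k2.near (.of_snc hG) (.of_forall fun _ => continuousAt_id)).and
      (lb_near hL ha)).mono fun y k => ⟨a, k.2, k.1⟩⟩
  choose K hK using k
  obtain ⟨t, ht⟩ := CompactSpace.elim_nhds_subcover _ hK
  refine ⟨t.sup K, secP_of_loc hL isOpen_univ (fun a x _ => h1 a x) (fun a b x _ => h2 a b x)
    fun x _ => ?_⟩
  obtain ⟨y, hy, a, k1, k2⟩ := mem_iUnion₂.1 (ht.ge (mem_univ x))
  exact ⟨a, k1, k2.mono continuousAt_id fun _ _ => Nat.cast_le.2 (Finset.le_sup hy)⟩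

/-- the bound can be checked at one point of each connected component -/
theorem secP_pts [PreconnectedSpace V.X] (hG : Snc n G) (hL : IsLB n L)
    (hc : ∀ l, IsPreconnected (G l)) (h : SecP n n id univ L G c' s)
    (hb : ∀ l, R l → ∃ x ∈ G l, ∃ a, x ∈ L.U a ∧ BdP n id G c (s a) x) :
    SecP n n id {x | ∀ l, x ∈ G l → R l} L G c s := by
  refine ⟨fun a x _ => h.hol a x trivial, fun a b x _ => h.chg a b x trivial, fun a x hx ha => ?_⟩
  by_cases h0 : ∃ x, x ∈ off G ∧ NZ L s x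
  · obtain ⟨k, hk⟩ := h.ord' hG hL hc h0
    refine (hk a x ha).bdP (.of_snc hG) fun l hl => ?_
    obtain ⟨y, k1, b, k2, k3⟩ := hb l (hx l hl)
    exact ((hk b y k2).bdP_iff hG).1 k3 l k1
  · exact bdP_zero.congr ((lb_near hL ha).mono fun y k1 k2 => by_contra fun k3 =>
      h0 ⟨y, k2, (h.nz_iff hL trivial k2 k1).2 k3⟩)

theorem leq_one {D : Set V.X} {x : V.X} (h : ∀ᶠ y in 𝓝 x, y ∉ D) : LEq n D x fun _ => 1 :=
  ⟨h.mono fun _ k => iff_of_false one_ne_zero k, fun _ _ =>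
    ⟨analyticAt_const, fun k => absurd k one_ne_zero⟩⟩

/-- extension of a meromorphic section across `S` -/
theorem secP_ext [PreconnectedSpace V.X] (hG : Snc n G) (hL : IsLB n L)
    (hc : ∀ l, IsPreconnected (G l)) (hS : Thin n S) (h : MS n S L σ)
    (h4 : ∀ x ∈ off G, ∀ a, x ∈ L.U a → ∀ ζ : κ → V.X → ℂ, (∀ l, LEq n (G l) x (ζ l)) →
      Bnd Sᶜ (fun y => ‖σ a y‖ * ∏ l, ‖ζ l y‖ ^ c l) x)
    (h5 : ∀ l, R l → ∃ x ∈ G l, ∃ a, x ∈ L.U a ∧ ∃ ζ : κ → V.X → ℂ, (∀ l, LEq n (G l) x (ζ l)) ∧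
      Bnd Sᶜ (fun y => ‖σ a y‖ * ∏ l, ‖ζ l y‖ ^ c l) x) :
    ∃ s, SecP n n id {x | ∀ l, x ∈ G l → R l} L G c s ∧
      ∀ a, ∀ x ∈ L.U a, x ∉ S → s a x = σ a x := by
  have k0 : ∀ a, ∀ x ∈ L.U a, x ∉ S → Md.ext Sᶜ (σ a) x = σ a x := fun a x ha hx =>
    Md.ext_eq (hS.freq x) (h.hol a x ha hx).cont (.of_forall fun _ _ => rfl)
  have k1 : ∀ a, ∀ x ∈ L.U a, x ∈ off G → Hol n (Md.ext Sᶜ (σ a)) x := fun a x ha hx => by
    obtain ⟨H, a1, a2⟩ := Md.riem (Md.gn_of_thin hS x) ((lb_near hL ha).mono fun y => h.hol a y)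
      (by simpa using (h4 x hx a ha (fun _ _ => 1) fun l =>
        leq_one (((Hyp.of_snc hG).closed l).isOpen_compl.mem_nhds (hx l))))
    exact a1.congr (Md.ext_ev (.of_forall hS.freq) a1 a2)
  obtain ⟨K, hK⟩ := secP_mer (s := fun a => Md.ext Sᶜ (σ a)) hG hL k1 (fun a b x ha hb hx => by
    refine P277Z.eq_of_gen (k1 a x ha hx).cont ((lb_hol hL ha hb).mul (k1 b x hb hx)).cont ?_
    filter_upwards [hS.gen x, gen_of_nhds (lb_near hL ha), gen_of_nhds (lb_near hL hb)]
      with y a1 a2 a3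
    rw [k0 a y a2 a1, k0 b y a3 a1, h.chg a b y a2 a3 a1]) fun a x ha =>
      mer_congr (h.mer a x ha) (by
        filter_upwards [hS.gen x, gen_of_nhds (lb_near hL ha)] with y a1 a2
          using (k0 a y a2 a1).symm)
  refine ⟨_, secP_pts hG hL hc hK fun l hl => ?_, k0⟩
  obtain ⟨x, a1, a, a2, ζ, a3, C, a4⟩ := h5 l hl
  refine ⟨x, a1, a, a2, bdP_of_one continuousAt_id a3 (C := C) ?_⟩
  filter_upwards [a4.eventually_nhds, (lb_near hL a2).eventually_nhds, off_iff a3,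
    eventually_all.2 fun l => (a3 l).hol.near] with y b1 b2 b3 b4 b5
  have b6 : ContinuousAt (fun z => ‖Md.ext Sᶜ (σ a) z‖ * ∏ l, ‖ζ l z‖ ^ c l) y :=
    (k1 a y b2.self_of_nhds b5).cont.norm.mul (tendsto_finsetProd _ fun l _ =>
      (b4 l).cont.norm.rpow_const (.inl (norm_ne_zero_iff.2 (b3.1 b5 l))))
  refine isClosed_Iic.mem_of_frequently_of_tendsto
    (((hS.freq y).and_eventually (b1.and b2)).mono fun z k => ?_) b6
  rw [k0 a z k.2.2 k.1]
  exact k.2.1 k.1

end sec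

section ind

variable {n p : ℕ} {X Y : Type} [TopologicalSpace X] [ChartedSpace (Cm n) X]
  [TopologicalSpace Y] [ChartedSpace (Cm p) Y] [IsManifold 𝓘(ℂ, Cm n) ω X]
  [IsManifold 𝓘(ℂ, Cm p) ω Y] {x : X} {f : X → Y} {e : Chart n X} {e' : Chart p Y}

theorem ind_jd {h : Fin n → X → ℂ} (he : At e x) (hh : ∀ i, Hol n (h i) x) (hj : jd h e x ≠ 0) :
    Ind n h x := by
  refine Ind.of_chart hh he ((ind_iff_surj _).2 ?_)
  rw [jd, fderiv_pi fun i => (hh i e he).differentiableAt] at hj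
  exact (LinearMap.equivOfDetNeZero _ hj).surjective

/-- functions which are independent along the fibre and independent functions on the base -/
theorem ind_app {a j : ℕ} {r : Fin a → X → ℂ} {ρ : Fin j → Y → ℂ} (hf : HolA n p f x)
    (he' : At e' (f x)) (h1 : Ind n (Fin.append (fun c y => e' (f y) c) r) x)
    (h2 : Ind p ρ (f x)) : Ind n (Fin.append r fun b y => ρ b (f y)) x := by
  have he := at_chart (n := n) x
  refine Ind.of_chart (Fin.addCases
    (fun i => by simpa only [Fin.append_left, Fin.append_right] using h1.1 (Fin.natAdd p i))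
    fun b => by simpa only [Fin.append_right] using hf.hol (h2.1 b)) he
      ((ind_iff_surj _).2 fun t => ?_)
  obtain ⟨v, hv⟩ := (ind_iff_surj _).1 (h2.2 e' he') fun b => t (Fin.natAdd a b)
  obtain ⟨u, hu⟩ := (ind_iff_surj _).1 (h1.2 _ he) (Fin.append v fun i => t (Fin.castAdd j i))
  have k : df f (chartAt (Cm n) x) e' x u = v := funext fun c => by
    simpa only [df_apply hf he he', ContinuousLinearMap.pi_apply, Fin.append_left]
      using congrFun hu (Fin.castAdd a c)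
  refine ⟨u, funext (Fin.addCases (fun i => ?_) fun b => ?_)⟩
  · simpa only [ContinuousLinearMap.pi_apply, Fin.append_left, Fin.append_right]
      using congrFun hu (Fin.natAdd p i)
  · simpa only [ContinuousLinearMap.pi_apply, Fin.append_right, dd_comp (h2.1 b) hf he he',
      ContinuousLinearMap.comp_apply, k] using congrFun hv b

/-- a coordinate is a local equation -/
theorem co_leq {E : Type} [NormedAddCommGroup E] [NormedSpace ℂ E] {Θ : OpenPartialHomeomorph X E}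
    (h : Co n Θ) (hx : x ∈ Θ.source) (T : E →L[ℂ] ℂ) (hT : T ≠ 0) {D : Set X}
    (hD : ∀ y ∈ Θ.source, T (Θ y) = 0 ↔ y ∈ D) : LEq n D x fun y => T (Θ y) := by
  have he := at_chart (n := n) x
  have k1 : Hol n (fun y => T (Θ y)) x := (h.an x hx).cmp (T.analyticAt _)
  refine LEq.of_chart ((Θ.open_source.eventually_mem hx).mono hD) k1 he fun _ k => hT ?_
  have k2 : At (chartAt (Cm n) x) (Θ.symm (Θ x)) := (Θ.left_inv hx).symm ▸ he
  have k3 := (h.inv _ (Θ.map_source hx) _ k2).differentiableAt.hasFDerivAt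
  have k4 := (k1 _ he).differentiableAt.hasFDerivAt
  rw [show fderiv ℂ _ _ = 0 from k] at k4
  have k5 := HasFDerivAt.comp (Θ x) (by rw [Θ.left_inv hx]; exact k4) k3
  refine (T.hasFDerivAt.unique (k5.congr_of_eventuallyEq ?_)).trans (ContinuousLinearMap.zero_comp _)
  filter_upwards [Θ.eventually_right_inverse' hx,
    (Θ.continuousAt_symm (Θ.map_source hx)).eventually (at_near k2)] with v a1 a2
  rw [comp_apply, a2.left_inv, a1]

end ind

section jdw

variable {p a : ℕ} {M : Fb (p + a) p} {w : Fin a → M.X.X → ℂ} {x : M.X.X}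
  {e e₁ : Chart (p + a) M.X.X} {e' e₁' : Chart p M.Y.X}

theorem hol_app (hf : HolA (p + a) p M.f x) (hw : ∀ i, Hol (p + a) (w i) x) (he' : At e' (M.f x)) :
    ∀ i, Hol (p + a) (Fin.append (fun c x => e' (M.f x) c) w i) x :=
  Fin.addCases (fun c => by simpa only [Fin.append_left] using hf.hol (hol_chart he' c))
    fun i => by simpa only [Fin.append_right] using hw i

theorem jdw_hol (hf : HolA (p + a) p M.f x) (hw : ∀ i, Hol (p + a) (w i) x) (he : At e x)
    (he' : At e' (M.f x)) : Hol (p + a) (jdw w e e') x :=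
  P277Z.Lo.Jc.jd_hol he (hol_app hf hw he')

theorem jdw_mer (hf : HolA (p + a) p M.f x) (hw : ∀ i, Mer (p + a) (w i) x) (he : At e x)
    (he' : At e' (M.f x)) : Mer (p + a) (jdw w e e') x :=
  P277Z.Lo.Jc.jd_mer he (Fin.addCases
    (fun c => by simpa only [Fin.append_left] using mer_of_hol (hf.hol (hol_chart he' c)))
    fun i => by simpa only [Fin.append_right] using hw i)

theorem jdw_eq (hf : HolA (p + a) p M.f x) (hw : ∀ i, Hol (p + a) (w i) x) (he : At e x)
    (he' : At e' (M.f x)) : jdw w e e' x = detR finSumFinEquiv (dfM M.f e e' x)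
      (dfM (fun y i => w i y) e (chartAt (Cm a) fun i => w i x) x) := by
  have hW : HolA (p + a) a (fun y i => w i y) x := .of_hol (AnV.pi hw).cont (at_chart _) hw
  rw [jdw, jd, fderiv_pi fun i => (hol_app hf hw he' i e he).differentiableAt,
    ← LinearMap.det_toMatrix', detR]
  refine congrArg Matrix.det (Matrix.ext (Fin.addCases (fun c b => ?_) fun i b => ?_))
  · simp [dfM_apply, df_apply hf he he', dd]
  · simp [dfM_apply, df_apply hW he (at_chart _), dd]
    rfl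

theorem jdw_chg (hf : HolA (p + a) p M.f x) (hw : ∀ i, Hol (p + a) (w i) x) (he : At e x)
    (he₁ : At e₁ x) (he' : At e' (M.f x)) :
    jdw w e e' x = (jacM e e₁ x).det * jdw w e₁ e' x := by
  have hW : HolA (p + a) a (fun y i => w i y) x := .of_hol (AnV.pi hw).cont (at_chart _) hw
  rw [jdw_eq hf hw he he', jdw_eq hf hw he₁ he', dfM_chg hf he₁ he he',
    dfM_chg hW he₁ he (at_chart _), detR_mul, mul_comm]

theorem jdw_chg' (hf : HolA (p + a) p M.f x) (hw : ∀ i, Hol (p + a) (w i) x) (he : At e x)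
    (he' : At e' (M.f x)) (he₁' : At e₁' (M.f x)) :
    jdw w e e₁' x = (jacM e' e₁' (M.f x)).det * jdw w e e' x := by
  rw [jdw_eq hf hw he he', jdw_eq hf hw he he₁', dfM_chg' hf he he' he₁', detR_left]

end jdw

end Vale.Agent.P281Z.Gt.Fnl
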