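import Vale.Agent.P281Z.Gt.SkB
import Vale.Agent.P281Z.Mf.Adj
import Vale.Agent.P277Z.Lbd.Can

/-!
# P281Z, block III, part B: Jacobian determinants on the fibre powers
-/

open scoped Manifold ContDiff Topology
open Set Filter Function Sum
open Vale.Agent.P272.K
open Vale.Agent.P277Z (Hol at_chart jd)
open Vale.Agent.P277Z.Slc (Ind dd dd_congr)
open Vale.Agent.P277Z.Lb (jd_chg hol_jd)

noncomputable section

namespace Vale.Agent.P281Z.Gt

namespace CfA

/-- block triangular determinants -/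
theorem det_blk {α β ι κ : Type} [Fintype α] [Fintype β] [Fintype ι] [Fintype κ] [DecidableEq α]
    [DecidableEq β] (σ : α ⊕ β × ι ≃ κ) {D D' : (κ → ℂ) →ₗ[ℂ] κ → ℂ} (J : Matrix α α ℂ)
    (P : ι → β → α → ℂ) (R : ι → Matrix β β ℂ)
    (h1 : ∀ v c, D v (σ (inl c)) = ∑ c', J c c' * D' v (σ (inl c')))
    (h2 : ∀ v j i, D v (σ (inr (i, j))) = ∑ c, P j i c * D' v (σ (inl c)) +
      ∑ l, R j i l * D' v (σ (inr (l, j)))) :
    LinearMap.det D = J.det * (∏ j, (R j).det) * LinearMap.det D' := by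
  classical
  have h : D = Matrix.toLin' ((Matrix.fromBlocks J 0 (.of fun i c => P i.2 i.1 c)
      (Matrix.blockDiagonal R)).submatrix σ.symm σ.symm) ∘ₗ D' := by
    refine LinearMap.ext fun v => funext (σ.surjective.forall.2 ?_)
    rintro (c | ⟨i, j⟩) <;> simp [Matrix.mulVec, dotProduct, h1, h2, Fintype.sum_prod_type,
      Matrix.blockDiagonal_apply]
  rw [h, LinearMap.det_comp, LinearMap.det_toLin', Matrix.det_submatrix_equiv_self,
    Matrix.det_fromBlocks_zero₁₂, Matrix.det_blockDiagonal]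

section mf

variable {k : ℕ} {T : Type} [TopologicalSpace T] [ChartedSpace (Cm k) T] {t : T} {e : Chart k T}
  {h h' : Fin k → T → ℂ}

theorem jl_apply (he : At e t) (hh : ∀ i, Hol k (h i) t) (v : Cm k) (i : Fin k) :
    (fderiv ℂ (fun z i => h i (e.symm z)) (e t) : Cm k →ₗ[ℂ] Cm k) v i = dd (h i) e t v := by
  rw [fderiv_pi fun i => (hh i e he).differentiableAt]
  rfl

theorem jd_blk {α β ι : Type} [Fintype α] [Fintype β] [Fintype ι] [DecidableEq α] [DecidableEq β]
    (σ : α ⊕ β × ι ≃ Fin k) (he : At e t) (hh : ∀ i, Hol k (h i) t) (hh' : ∀ i, Hol k (h' i) t)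
    (J : Matrix α α ℂ) (P : ι → β → α → ℂ) (R : ι → Matrix β β ℂ)
    (h1 : ∀ v c, dd (h (σ (inl c))) e t v = ∑ c', J c c' * dd (h' (σ (inl c'))) e t v)
    (h2 : ∀ v j i, dd (h (σ (inr (i, j)))) e t v = ∑ c, P j i c * dd (h' (σ (inl c))) e t v +
      ∑ l, R j i l * dd (h' (σ (inr (l, j)))) e t v) :
    jd h e t = J.det * (∏ j, (R j).det) * jd h' e t :=
  det_blk σ J P R (by simpa only [jl_apply he hh, jl_apply he hh'] using h1)
    (by simpa only [jl_apply he hh, jl_apply he hh'] using h2)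

/-- the differentials of coordinates generate the dual space -/
theorem dd_span (he : At e t) (hh : ∀ i, Hol k (h i) t) (hj : jd h e t ≠ 0) (L : Cm k →L[ℂ] ℂ) :
    ∃ c : Fin k → ℂ, ∀ v, L v = ∑ l, c l * dd (h l) e t v := by
  let S := LinearMap.equivOfDetNeZero _ hj
  refine ⟨fun l => L (S.symm fun j => if l = j then 1 else 0), fun v => ?_⟩
  have k1 := ((L : Cm k →ₗ[ℂ] ℂ) ∘ₗ S.symm.toLinearMap).pi_apply_eq_sum_univ (S v)
  refine ((congrArg L (S.symm_apply_apply v)).symm.trans k1).trans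
    (Finset.sum_congr rfl fun l _ => ?_)
  rw [← jl_apply he hh, mul_comm]
  rfl

theorem anV_of {E : Type} [NormedAddCommGroup E] [NormedSpace ℂ E] {g : Cm k → E} {o : Cm k}
    (h : AnalyticAt ℂ g o) : AnV k g o := by
  rintro e ⟨rfl, -⟩
  exact h

theorem anV_sel {α : Type} [Fintype α] (σ : α → Fin k) (o : Cm k) :
    AnV k (fun (o : Cm k) c => o (σ c)) o :=
  anV_of (.pi fun c => (ContinuousLinearMap.proj (R := ℂ) (φ := fun _ => ℂ) (σ c)).analyticAt o)

/-- functions with a right inverse are coordinates -/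
theorem jd_ne [IsManifold 𝓘(ℂ, Cm k) ω T] (he : At e t) (hh : ∀ i, Hol k (h i) t) {l : Cm k → T}
    {o : Cm k} (hl : HolA k k l o) (h0 : l o = t)
    (h1 : ∀ᶠ o' in 𝓝 o, (fun i => h i (l o')) = o') : jd h e t ≠ 0 := by
  subst h0
  have h2 : HolA k k (fun s i => h i s) (l o) :=
    holA_symm (F := fun s i => h i s) hh (chart_mem_atlas _ o) trivial
  have h3 := (imm_iff_det h2 he (at_chart _)).1 (imm_iff_sbm.2
    (Sbm.of_comp h2 hl ((sbm_id o).cng (h1.mono fun _ => Eq.symm))))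
  rwa [dfM, LinearMap.det_toMatrix'] at h3

end mf

variable {p a n k : ℕ} {M : Fb (p + a) p} {g g' : Fin n → Fin a → M.X.X → ℂ}
  {e' e₁ : Chart p M.Y.X} {q : Pt M n}

/-- the coordinates of the fibre power given by the functions `g j` in the slot `j` -/
def cog (g : Fin n → Fin a → M.X.X → ℂ) (e' : Chart p M.Y.X) (q : Pt M n) : Cm (p + n * a) :=
  Fin.append (e' q.1) fun k => g (finProdFinEquiv.symm k).1 (finProdFinEquiv.symm k).2
    (q.2 (finProdFinEquiv.symm k).1)

/-- the Jacobian determinant of these coordinates along `γ` -/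
def jng {T : Type} [TopologicalSpace T] (g : Fin n → Fin a → M.X.X → ℂ) (e' : Chart p M.Y.X)
    (γ : T → Pt M n) (e : Chart (p + n * a) T) (t : T) : ℂ := jd (fun i s => cog g e' (γ s) i) e t

/-- the indices -/
def sg (p a n : ℕ) : Fin p ⊕ Fin a × Fin n ≃ Fin (p + n * a) :=
  ((Equiv.refl _).sumCongr ((Equiv.prodComm _ _).trans finProdFinEquiv)).trans finSumFinEquiv

theorem cog_inl (c : Fin p) : cog g e' q (sg p a n (inl c)) = e' q.1 c := Fin.append_left _ _ c

theorem cog_inr (i : Fin a) (j : Fin n) : cog g e' q (sg p a n (inr (i, j))) = g j i (q.2 j) :=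
  (Fin.append_right _ _ (finProdFinEquiv (j, i))).trans (by rw [Equiv.symm_apply_apply])

theorem hol_fw (hf : HolM (p + a) p M.f) {x : M.X.X} (he : At e' (M.f x)) {w : Fin a → M.X.X → ℂ}
    (hw : ∀ i, Hol (p + a) (w i) x) :
    ∀ i, Hol (p + a) (Fin.append (fun c x => e' (M.f x) c) w i) x :=
  Fin.addCases (fun c => by simpa only [Fin.append_left] using hf.hol (hol_chart he c))
    fun c => by simpa only [Fin.append_right] using hw c

theorem hol_jdw (hf : HolM (p + a) p M.f) {x : M.X.X} {c : Chart (p + a) M.X.X} (hc : At c x)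
    (he : At e' (M.f x)) {w : Fin a → M.X.X → ℂ} (hw : ∀ i, Hol (p + a) (w i) x) :
    Hol (p + a) (jdw w c e') x := hol_jd (hol_fw hf he hw) hc

section tm

variable {T : Type} [TopologicalSpace T] [ChartedSpace (Cm k) T] [IsManifold 𝓘(ℂ, Cm k) ω T]
  {γ : T → Pt M n} {t : T}

theorem tm_near (h : Tm k γ t) : ∀ᶠ s in 𝓝 t, Tm k γ s := by
  filter_upwards [h.b.near, eventually_all.2 fun j => (h.x j).near, h.fp.eventually_nhds]
    with s k1 k2 k3 using ⟨k1, k2, k3⟩

theorem hol_cog (h : Tm k γ t) (he' : At e' (γ t).1)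
    (hg : ∀ j i, Hol (p + a) (g j i) ((γ t).2 j)) : ∀ i, Hol k (fun s => cog g e' (γ s) i) t := by
  refine (sg p a n).surjective.forall.2 ?_
  rintro (c | ⟨i, j⟩)
  · simpa only [cog_inl] using h.b.hol (hol_chart he' c)
  · simpa only [cog_inr] using (h.x j).hol (hg j i)

end tm

variable {T : Type} [TopologicalSpace T] [ChartedSpace (Cm (p + n * a)) T]
  [IsManifold 𝓘(ℂ, Cm (p + n * a)) ω T] {γ : T → Pt M n} {t : T} {e : Chart (p + n * a) T}

/-- the change of the chart of the base -/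
theorem jng_base (h : Tm (p + n * a) γ t) (he : At e t) (he' : At e' (γ t).1) (he₁ : At e₁ (γ t).1)
    (hg : ∀ j i, Hol (p + a) (g j i) ((γ t).2 j)) :
    jng g e₁ γ e t = (jacM e' e₁ (γ t).1).det * jng g e' γ e t := by
  refine (jd_blk (sg p a n) he (hol_cog h he₁ hg) (hol_cog h he' hg) (jacM e' e₁ (γ t).1) 0 1
    (fun v c => ?_) fun v j i => by simp [cog_inr, Matrix.one_apply]).trans (by simp [jng])
  simp only [cog_inl, ← df_apply h.b he he', ← df_apply h.b he he₁, ← dfM_mulVec,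
    dfM_chg' h.b he he' he₁, ← Matrix.mulVec_mulVec]
  rfl

/-- the change of the coordinates on the fibres -/
theorem jng_mul (hf : HolM (p + a) p M.f) (h : Tm (p + n * a) γ t) (he : At e t)
    (he' : At e' (γ t).1) {c : Fin n → Chart (p + a) M.X.X} (hc : ∀ j, At (c j) ((γ t).2 j))
    (hg : ∀ j i, Hol (p + a) (g j i) ((γ t).2 j)) (hg' : ∀ j i, Hol (p + a) (g' j i) ((γ t).2 j))
    (h0 : ∀ j, jdw (g' j) (c j) e' ((γ t).2 j) ≠ 0) :
    jng g e' γ e t * ∏ j, jdw (g' j) (c j) e' ((γ t).2 j) =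
      jng g' e' γ e t * ∏ j, jdw (g j) (c j) e' ((γ t).2 j) := by
  have h1 : ∀ j, At e' (M.f ((γ t).2 j)) := fun j => (h.fp.self_of_nhds j).symm ▸ he'
  choose S hS using fun j i =>
    dd_span (hc j) (hol_fw hf (h1 j) (hg' j)) (h0 j) (dd (g j i) (c j) ((γ t).2 j))
  simp only [Fin.sum_univ_add, Fin.append_left, Fin.append_right] at hS
  have h2 : ∀ j, jdw (g j) (c j) e' ((γ t).2 j) =
      (Matrix.of fun i l => S j i (.natAdd p l)).det * jdw (g' j) (c j) e' ((γ t).2 j) := fun j =>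
    (jd_blk (((Equiv.refl _).sumCongr (Equiv.prodUnique _ Unit)).trans finSumFinEquiv) (hc j)
      (hol_fw hf (h1 j) (hg j)) (hol_fw hf (h1 j) (hg' j)) 1 (fun _ i c => S j i (.castAdd a c))
      (fun _ => .of fun i l => S j i (.natAdd p l)) (fun v c => by simp [Matrix.one_apply])
      fun v _ i => by simpa using hS j i v).trans (by simp [jdw])
  have h3 : ∀ j b, dd (fun s => e' (γ s).1 b) e t =
      (dd (fun x => e' (M.f x) b) (c j) ((γ t).2 j)).comp (df (fun s => (γ s).2 j) e (c j) t) :=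
    fun j b => (dd_congr (h.fp.mono fun s hs => congrArg (e' · b) (hs j).symm) he).trans
      (dd_comp (f := fun s => (γ s).2 j) (hf.hol (hol_chart (h1 j) b)) (h.x j) he (hc j))
  have h5 := fun j {u} hu => dd_comp (a := u) (f := fun s => (γ s).2 j) hu (h.x j) he (hc j)
  have h4 : jng g e' γ e t =
      (∏ j, (Matrix.of fun i l => S j i (.natAdd p l)).det) * jng g' e' γ e t :=
    (jd_blk (sg p a n) he (hol_cog h he' hg) (hol_cog h he' hg') 1
      (fun j i c => S j i (.castAdd a c)) (fun j => .of fun i l => S j i (.natAdd p l))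
      (fun v c => by simp [cog_inl, Matrix.one_apply]) fun v j i => by
        simp only [cog_inl, cog_inr, h3 j, h5 j (hg j _), h5 j (hg' j _)]
        exact hS j i _).trans (by simp [jng])
  rw [h4, Finset.prod_congr rfl fun j _ => h2 j, Finset.prod_mul_distrib]
  ring

/-- coordinates on the fibres at a point where `f` is a submersion -/
theorem ex_co (hf : HolM (p + a) p M.f) {x : M.X.X} (hs : Sbm (p + a) p M.f x)
    (he : At e' (M.f x)) : ∃ Θ : OpenPartialHomeomorph M.X.X (Cm p × Cm a), Co (p + a) Θ ∧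
      x ∈ Θ.source ∧ (∀ y ∈ Θ.source, At e' (M.f y) ∧ (Θ y).1 = e' (M.f y)) ∧
      ∀ y ∈ Θ.source, ∀ c, At c y → jdw (fun i y => (Θ y).2 i) c e' y ≠ 0 := by
  obtain ⟨Θ, h1, h2, h3, h4⟩ := exists_co ((sbm_iff_ind (hf.at x) he).1 hs) (d := a) (by simp)
    (hf.cont.continuousAt.eventually (at_near he))
  refine ⟨Θ, h1, h2, fun y hy => ⟨h3 hy, h4 y hy⟩, fun y hy c hc => ?_⟩
  let G : Cm (p + a) → Cm p × Cm a := fun o => (fun c => o (.castAdd a c), fun i => o (.natAdd p i))
  have h5 : G (Fin.append (Θ y).1 (Θ y).2) = Θ y := by simp [G]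
  have h6 : AnV (p + a) G (Fin.append (Θ y).1 (Θ y).2) := (anV_sel _ _).prod (anV_sel _ _)
  have h7 : G (Fin.append (Θ y).1 (Θ y).2) ∈ Θ.target := h5.symm ▸ Θ.map_source hy
  refine jd_ne hc (hol_fw hf (h3 hy) ((h1.an y hy).cmp analyticAt_snd).hol) (h1.holA h6 h7)
    ((congrArg Θ.symm h5).trans (Θ.left_inv hy)) ?_
  filter_upwards [h6.cont.eventually_mem (Θ.open_target.mem_nhds h7)] with o ho
  refine funext (Fin.addCases (fun c => ?_) fun i => ?_)
  · rw [Fin.append_left]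
    exact (congrFun (h4 _ (Θ.map_target ho)) c).symm.trans (by rw [Θ.right_inv ho])
  · rw [Fin.append_right, Θ.right_inv ho]

end CfA

open CfA

/-- **CF** -/
theorem cf : CF := by
  intro p a n M C hM T _ _ _ _ _ γ t ht hN
  have A : ∀ s, Tm (p + n * a) γ s → γ s ∈ C.N n → ∀ k F, C.PF k F → ∀ e, At e s → ∀ e',
      At e' (γ s).1 → C.cf k F γ e s = F e' (γ s) * C.jn e' γ e s ^ k :=
    fun s hs hN k F hF e he e' he' => by
      rw [NS.cf, hF.chg e' _ _ hN he' (at_chart _), show C.jn _ γ e s = _ from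
        jng_base (g := fun _ => C.w) hs he he' (at_chart _) fun j i => (C.mr i).hol _ (hN.2.2 j),
        mul_pow, mul_left_comm, mul_assoc]
      rfl
  have hw : ∀ j i, Hol (p + a) (C.w i) ((γ t).2 j) := fun j i => (C.mr i).hol _ (hN.2.2 j)
  have h1 : ∀ᶠ s in 𝓝 t, γ s ∈ C.N n ∧ Tm (p + n * a) γ s := by
    filter_upwards [tm_near ht, ht.b.cont.eventually_mem
      (C.thinQ.closed.isOpen_compl.mem_nhds hN.2.1), eventually_all.2 fun j =>
        (ht.x j).cont.eventually_mem (C.thinS.closed.isOpen_compl.mem_nhds (hN.2.2 j))]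
      with s k1 k2 k3 using ⟨⟨k1.fp.self_of_nhds, k2, k3⟩, k1⟩
  have h2 : ∀ e e', At e t → At e' (γ t).1 → Hol (p + n * a) (C.jn e' γ e) t :=
    fun e e' he he' => hol_jd (hol_cog (g := fun _ => C.w) ht he' hw) he
  refine ⟨h1, h2, fun e e₁ e' he he₁ _ => jd_chg _ he he₁, fun e e' e₁ he he' he₁ =>
    jng_base (g := fun _ => C.w) ht he he' he₁ hw, fun k F hF e he => ⟨A t ht hN k F hF e he,
      ((hF.hol _ _ hN (at_chart _) _ T γ t ht rfl).mul ((h2 e _ he (at_chart _)).pow k)).congr ?_,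
      fun e₁ he₁ => ?_⟩⟩
  · filter_upwards [h1, at_near he, ht.b.cont.eventually (at_near (at_chart (n := p) _))]
      with s k1 k2 k3 using (A s k1.2 k1.1 k F hF e k2 _ k3).symm
  · rw [NS.cf, NS.cf, NS.jn, jd_chg _ he he₁, mul_pow, mul_left_comm]
    rfl

/-- **JDV** -/
theorem jdv : JDV := by
  intro p a n M C hM W v e e' c hQ he he' hc
  have hf := hM.fibn.hol
  have hp := (W.tm v).fp.self_of_nhds
  choose Θ h1 h2 h3 h4 using fun j =>
    ex_co hf ((C.reg _ hQ).sbm hf hM.snc (hp j)) ((hp j).symm ▸ he')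
  let g : Fin n → Fin a → M.X.X → ℂ := fun j i y => (Θ j y).2 i
  have hg : ∀ j, ∀ y ∈ (Θ j).source, ∀ i, Hol (p + a) (g j i) y := fun j y hy =>
    (((h1 j).an y hy).cmp analyticAt_snd).hol
  let b : Cm (p + n * a) → Cm p := fun o c => o (sg p a n (inl c))
  let G : Fin n → Cm (p + n * a) → Cm p × Cm a := fun j o =>
    (b o, fun i => o (sg p a n (inr (i, j))))
  let Γ : Cm (p + n * a) → Pt M n := fun o => (e'.symm (b o), fun j => (Θ j).symm (G j o))
  set o := cog g e' (W.γ v) with ho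
  have k1 : b o = e' (W.γ v).1 := funext cog_inl
  have k2 : ∀ j, G j o = Θ j ((W.γ v).2 j) := fun j =>
    Prod.ext (by rw [(h3 j _ (h2 j)).2, hp j, ← k1]) (funext fun i => cog_inr (g := g) i j)
  have k3 : Γ o = W.γ v := Prod.ext ((congrArg e'.symm k1).trans he'.left_inv)
    (funext fun j => (congrArg (Θ j).symm (k2 j)).trans ((Θ j).left_inv (h2 j)))
  have k4 : ∀ j, AnV _ (G j) o := fun j => (anV_sel _ _).prod (anV_sel _ _)
  have k5 : ∀ᶠ o' in 𝓝 o, b o' ∈ e'.target ∧ ∀ j, G j o' ∈ (Θ j).target :=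
    ((anV_sel _ o).cont.eventually_mem (e'.open_target.mem_nhds
      (k1.symm ▸ he'.mem_target : b o ∈ _))).and
      (eventually_all.2 fun j => (k4 j).cont.eventually_mem
        ((Θ j).open_target.mem_nhds ((k2 j).symm ▸ (Θ j).map_source (h2 j))))
  have k6 : Tm _ Γ o := ⟨(co_chart he'.1).holA (anV_sel _ o) k5.self_of_nhds.1,
    fun j => (h1 j).holA (k4 j) (k5.self_of_nhds.2 j), k5.mono fun o' k j => by
      have l1 := h3 j _ ((Θ j).map_target (k.2 j))
      rw [(Θ j).right_inv (k.2 j)] at l1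
      exact l1.1.left_inv.symm.trans (congrArg e'.symm l1.2.symm)⟩
  obtain ⟨l, l1, l2⟩ := W.lift _ _ Γ o k6 (k3.symm ▸ hQ)
  have hn : jng g e' W.γ e v ≠ 0 := by
    refine jd_ne he (hol_cog (W.tm v) he' fun j => hg j _ (h2 j)) l1
      ((W.bij _ hp hQ).unique (l2.self_of_nhds.trans k3) rfl) ?_
    filter_upwards [l2, k5] with o' m1 m2
    rw [m1]
    refine funext ((sg p a n).surjective.forall.2 ?_)
    rintro (c | ⟨i, j⟩)
    · exact (cog_inl c).trans (congrFun (e'.right_inv m2.1) c)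
    · exact (cog_inr i j).trans (congrFun (congrArg Prod.snd ((Θ j).right_inv (m2.2 j))) i)
  have hd := Finset.prod_ne_zero_iff.2 fun j (_ : j ∈ Finset.univ) => h4 j _ (h2 j) _ (hc j)
  refine ⟨fun v' => jng g e' W.γ e v' / ∏ j, jdw (g j) (c j) e' ((W.γ v').2 j),
    ((hol_jd (hol_cog (W.tm v) he' fun j => hg j _ (h2 j)) he).div (.prod _ fun j _ =>
      ((W.tm v).x j).hol (hol_jdw hf (hc j) ((hp j).symm ▸ he') (hg j _ (h2 j)))) hd).cont,
    div_ne_zero hn hd, ?_⟩
  filter_upwards [at_near he, (W.tm v).b.cont.eventually (at_near he'), eventually_all.2 fun j =>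
    ((W.tm v).x j).cont.eventually ((at_near (hc j)).and ((Θ j).open_source.mem_nhds (h2 j)))]
    with s m1 m2 m3 hN
  have m4 := fun j => h4 j _ (m3 j).2 _ (m3 j).1
  rw [div_mul_eq_mul_div, eq_div_iff (Finset.prod_ne_zero_iff.2 fun j _ => m4 j)]
  exact jng_mul (g := fun _ => C.w) hf (W.tm s) m1 m2 (fun j => (m3 j).1)
    (fun j i => (C.mr i).hol _ (hN.2.2 j)) (fun j => hg j _ (m3 j).2) m4

end Vale.Agent.P281Z.Gt
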