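import Vale.Agent.P281Z.Gt.Tbx
import Vale.Agent.P281Z.Md.Bir

/-!
# P281Z, block III: a common weight; fibres of dimension zero
-/

open scoped Manifold ContDiff Topology ENNReal Matrix
open Set Filter
open Vale.Agent.P272.K Vale.Agent.P285.H281.FD
open Vale.Agent.P277Z (Hol Mer Nz gen at_chart gen_of_nhds)
open Vale.Agent.P277Z.Slc (Ind LEq Snc isLB_can)
open Vale.Agent.P281Z.Md (Bnd bnd_cont gn_of_thin gn_off ext_ev ext_eq Ten pb pb_ev rk_pb)

set_option linter.unusedSectionVars false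

noncomputable section

namespace Vale.Agent.P281Z.Gt

namespace Pk2

variable {n p : ℕ} {X Y : Type} [TopologicalSpace X] [ChartedSpace (Cm n) X]
  [TopologicalSpace Y] [ChartedSpace (Cm p) Y] [IsManifold 𝓘(ℂ, Cm n) ω X]
  [IsManifold 𝓘(ℂ, Cm p) ω Y] {f : X → Y} {κ : Type} [Fintype κ] {G : κ → Set X} {c c' : κ → ℝ}
  {m m' : ℕ} {Q : Set Y} {τ τ' : Chart p Y → Y → ℂ}

theorem tb_mul (h : TB n p f G c m Q τ) (h' : TB n p f G c' m' Q τ') :
    TB n p f G (fun l => c l + c' l) (m + m') Q fun e y => τ e y * τ' e y := by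
  refine ⟨fun e y a b => (h.hol e y a b).mul (h'.hol e y a b),
    fun e y a => P277Z.Lo.mer_mul (h.mer e y a) (h'.mer e y a), fun e e' y a a' b => ?_,
    fun x e e' he he' ζ hζ I => ?_⟩
  · rw [h.chg e e' y a a' b, h'.chg e e' y a a' b]
    ring
  · obtain ⟨C, hC⟩ := h.bd x e e' he he' ζ hζ I
    obtain ⟨C', hC'⟩ := h'.bd x e e' he he' ζ hζ I
    refine ⟨C * C', ?_⟩
    filter_upwards [hC, hC', Md.ne_off hζ] with y a a' k b b'
    refine le_trans (le_of_eq ?_) (mul_le_mul (a b b') (a' b b') (by positivity)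
      (le_trans (by positivity) (a b b')))
    rw [Finset.prod_congr rfl fun l _ => Real.rpow_add (norm_pos_iff.2 (k b' l)) (c l) (c' l),
      Finset.prod_mul_distrib, norm_mul]
    ring

theorem tb_pow {δ : κ → ℝ} (h : TB n p f G (fun l => m * δ l) m Q τ)
    (h' : TB n p f G (fun l => m * δ l) m Q τ') (j : ℕ) :
    TB n p f G (fun l => (m * (j + 1) : ℕ) * δ l) (m * (j + 1)) Q fun e y => τ e y ^ j * τ' e y := by
  induction j with
  | zero => simpa using h'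
  | succ j ih =>
    have k := tb_mul h ih
    have e1 : (fun l => m * δ l + (m * (j + 1) : ℕ) * δ l) =
        fun l => (m * (j + 1 + 1) : ℕ) * δ l := funext fun l => by push_cast; ring
    have e2 : (fun e y => τ e y * (τ e y ^ j * τ' e y)) = fun e y => τ e y ^ (j + 1) * τ' e y :=
      funext fun e => funext fun y => by ring
    rwa [e1, e2, show m + m * (j + 1) = m * (j + 1 + 1) by ring] at k

theorem tauM_mul {M : Fb n p} {k j : ℕ} (h : TauM M m k) (hj : 0 < j) : TauM M (m * j) k := by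
  obtain ⟨j, rfl⟩ := Nat.exists_eq_succ_of_ne_zero hj.ne'
  obtain ⟨Q, τ, hQ, hτ, x, hx, a, ha, h0, hI⟩ := h
  exact ⟨Q, fun b e y => τ 0 e y ^ j * τ b e y, hQ, fun b => tb_pow (hτ 0) (hτ b) j, x, hx,
    rkAt_of (L := (Bd.can p M.Y.X).pow m) (L' := (Bd.can p M.Y.X).pow (m * (j + 1))) (s := τ)
      (s' := fun b e y => τ 0 e y ^ j * τ b e y) (a := a) (a' := a) h0 hI ha (w := fun y => τ 0 a y ^ j)
      ((((hτ 0).hol a x ha hx).ne_near h0).mono fun y k => ⟨pow_ne_zero j k, fun _ => rfl⟩)⟩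

end Pk2

open Pk2 in
theorem pick' : PICK := by
  rintro n p d a k M hM hX hY hV hF ⟨m₂, Q, τ, h2, hT⟩
  obtain ⟨m₁, h1⟩ := Oft.exists (P := fun m F i => 0 < m ∧
    KapM d n i (Bd.can d F.X) M.G (fun l => M.δ l) m a) hF
  obtain ⟨_, -, _, _, -, h0, -⟩ := h1.ex neg_empty
  have hD : 0 < ∏ l, (M.δ l).den := Finset.prod_pos fun l _ => (M.δ l).den_pos
  refine ⟨m₁ * (m₂ * (2 * ∏ l, (M.δ l).den)), ⟨hM, hX, hY, hV, fun l => ?_, ?_⟩,
    h1.mono' neg_empty fun y _ F i hi k => k.2.mul_right (.of_snc hM.snc) hi.hol.cont isLB_can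
      (by positivity), ?_⟩
  · obtain ⟨r, hr⟩ := Finset.dvd_prod_of_mem (fun l => (M.δ l).den) (Finset.mem_univ l)
    refine ⟨m₁ * (m₂ * (2 * r)) * (M.δ l).num.toNat, ?_⟩
    have e : (((M.δ l).num.toNat : ℕ) : ℚ) = M.δ l * (M.δ l).den := by
      rw [Rat.mul_den_eq_num, ← Int.cast_natCast,
        Int.toNat_of_nonneg (Rat.num_nonneg.2 (hM.bdry l).1)]
    rw [hr]
    push_cast
    rw [e]
    ring
  · calc 2 = 1 * (1 * (2 * 1)) := rfl
      _ ≤ _ := Nat.mul_le_mul h0 (Nat.mul_le_mul h2 (Nat.mul_le_mul le_rfl hD))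
  · rw [mul_left_comm]
    exact tauM_mul ⟨Q, τ, hT⟩ (by positivity)

theorem az' (hG : GEN) : AZ := by
  rintro p k M hM ⟨m, Q, τ, hm, hQ, hτ, y₀, hy₀, a, ha, h0, hI⟩
  have := hM.conn
  have hf := hM.fibn.hol
  have hH := Hyp.of_snc hM.snc
  have hT := hQ.pre_surj hf hM.fibn.surj
  let S : Set M.X.X := (M.f ⁻¹' Q)ᶜ ∩ off M.G
  have gS : ∀ x, Md.Gn p S x := fun x => (gn_of_thin hT x).inter (gn_off hM.snc x)
  have s2 := fun x => (gS x).freq
  have t0 : ∀ b, Ten m Qᶜ (τ b) := fun b => ⟨(hτ b).hol, (hτ b).chg⟩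
  have t1 := fun b => (t0 b).pb (O₁ := S) hQ.closed.isOpen_compl fun x k => ⟨k.1, hf.at x⟩
  have t2 : ∀ b e x, At e x → ∀ ζ : M.κ → M.X.X → ℂ, (∀ l, LEq p (M.G l) x (ζ l)) →
      Bnd S (fun y => ‖pb M.f m (τ b) e y‖ * ∏ l, ‖ζ l y‖ ^ (m * (M.δ l : ℝ))) x := by
    intro b e x he ζ hζ
    have hc := at_chart (n := p) (M.f x)
    refine ((hτ b).bd x e _ he hc ζ hζ id).imp fun C hC => ?_
    filter_upwards [hC, pb_ev (t0 b) (hf.at x) he hc] with y a1 a2 a3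
    rw [a2 a3.1, norm_mul, norm_pow]
    exact a1 a3.1 a3.2
  have t3 : ∀ b e x, At e x → x ∈ S → Md.ext S (pb M.f m (τ b) e) x = pb M.f m (τ b) e x :=
    fun b e x he k => ext_eq (s2 x) ((t1 b).hol e x he k).cont (.of_forall fun _ _ => rfl)
  have t4 : ∀ b e x, At e x → x ∈ off M.G → Hol p (Md.ext S (pb M.f m (τ b) e)) x := by
    intro b e x he k
    obtain ⟨ζ, hζ⟩ := hH x
    obtain ⟨H, b1, b2⟩ := Md.riem (gS x) ((at_near he).mono ((t1 b).hol e)) (by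
      simpa using (t2 b e x he ζ hζ).wt (c' := fun _ => 0) (fun _ => norm_nonneg _)
        (fun l => (hζ l).hol.cont) ((Md.ne_off hζ).mono fun z d1 d2 => d1 d2.2)
        fun l => .inl (mt (hζ l).mem.1 (k l)))
    exact b1.congr (ext_ev (.of_forall s2) b1 b2)
  have hL' := lb_pow (isLB_can (n := p) (W := M.X.X)) m
  obtain ⟨Q', hQ', hR⟩ := hG p p M.X M.Y M.f M.κ M.G hf hM.snc
  obtain ⟨y, k1, k2, k3, k4, k5⟩ := ((hQ'.freq y₀).and_eventually
    ((hQ.closed.isOpen_compl.eventually_mem hy₀).and ((at_near ha).and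
      ((((hτ 0).hol a y₀ ha hy₀).ne_near h0).and hI.near)))).exists
  obtain ⟨x₁, rfl⟩ := hM.fibn.surj y
  obtain ⟨x, hx, e₀⟩ := Tb.reg_ex hf hM.snc (hR _ k1)
  rw [← e₀] at k1 k2 k3 k4 k5
  refine ⟨m, hm, fun b e => Md.ext S (pb M.f m (τ b) e), fun b => ⟨fun e x _ => t4 b e x,
    fun e e' x _ he he' k => tendsto_nhds_unique_of_frequently_eq (t4 b e x he k).cont
      ((lb_hol hL' he he').mul (t4 b e' x he' k)).cont (((s2 x).and_eventually
        ((at_near he).and (at_near he'))).mono fun z a => ?_), fun e x _ he ζ hζ => ?_⟩, x, hx, ?_⟩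
  · rw [t3 b e z a.2.1 a.1, t3 b e' z a.2.2 a.1]
    exact (t1 b).chg e e' z a.2.1 a.2.2 a.1
  · refine Md.Bnd.dense (S := S) ((t2 b e x he ζ hζ).mono ((at_near he).mono fun z a hz =>
      ⟨hz, by rw [← t3 b e z a hz]; rfl⟩)) (fun z => mem_closure_iff_frequently.2 (s2 z)) ?_
    filter_upwards [at_near he, eventually_all.2 fun l => (hζ l).near] with z a1 a2 a3 using
      (t4 b e z a1 a3).cont.norm.mul (tendsto_finsetProd _ fun l _ => (a2 l).hol.cont.norm.rpow_const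
        (.inl (norm_ne_zero_iff.2 (mt (a2 l).mem.1 (a3 l)))))
  · obtain ⟨a', b1, b2, b3⟩ := rk_pb t0 (hQ.closed.isOpen_compl.mem_nhds k2) (hf.at x)
      (imm_iff_sbm.2 ((hR _ k1).sbm hf hM.snc rfl)) ⟨a, k3, k4, k5⟩
    refine rkAt_of (L := (Bd.can p M.X.X).pow m) (L' := (Bd.can p M.X.X).pow m)
      (s := fun b => pb M.f m (τ b)) (s' := fun b e => Md.ext S (pb M.f m (τ b) e)) (a := a')
      (a' := a') b2 b3 b1 (w := fun _ => 1) ?_
    filter_upwards [at_near b1, hT.closed.isOpen_compl.mem_nhds k2, hH.isOpen.mem_nhds hx]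
      with z c1 c2 c3 using ⟨one_ne_zero, fun b => (t3 b a' z c1 ⟨c2, c3⟩).trans (one_mul _).symm⟩

end Vale.Agent.P281Z.Gt
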