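import Vale.Agent.P281Z.Gt.All
import Vale.Agent.P281Z.Gt.Pick2
import Vale.Agent.P281Z.Ga.All
import Vale.Agent.P281Z.Bs.Ext1

/-!
# P281Z, block III without hypotheses
-/

namespace Vale.Agent.P281Z.Gt

/-- fibres of log general type -/
theorem iii : III := iii_ext Bs.ext1 Ga.parta pick' (az' genR)

end Vale.Agent.P281Z.Gt
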