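import Vale.Agent.P281Z.Gt.DefsB

/-!
# P281Z, block III, part B: statements of the rows
-/

open scoped Manifold ContDiff Topology ENNReal Matrix
open Set Filter MeasureTheory
open Vale.Agent.P272.K Vale.Agent.P285.H281.FD
open Vale.Agent.P277Z (Hol Mer Nz gen jd)
open Vale.Agent.P277Z.Slc (lin Ind LEq Snc ForW)

noncomputable section

namespace Vale.Agent.P281Z.Gt

/-! ### local analysis -/

/-- **TRIPLE**: the bound for the new form -/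
def TRIPLE : Prop := ForW fun n W _ _ => ∀ (ι : Type) [Fintype ι] (A : Set W)
  (ξ Θ ξ' : Chart n W → W → ℂ) (k k' : ℕ) (ε : ℝ) (t : ι → W → ℂ) (c θ c' : ι → ℤ) (w : ι → ℝ)
  (o : W → ℝ≥0∞) (x : W), Tn n A x → (∀ᶠ y in 𝓝 x, y ∉ A → ∀ᶠ y' in 𝓝 y, y' ∉ A) → 0 < ε →
  ε * k' = k - 1 → ML n k A ξ x → ML n k' A Θ x → ML n k A ξ' x →
  (∃ e, At e x ∧ ∃ᶠ y in 𝓝 x, y ∉ A ∧ Θ e y ≠ 0) → (∀ i, Hol n (t i) x ∧ Nz (t i) x) →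
  Bn n A ξ t c x → Bn n A Θ t θ x → (∀ i, ε * θ i + w i < c' i) →
  (∃ κ : ℝ, 0 < κ ∧ ∀ᶠ y in 𝓝 x, (∀ i, t i y ≠ 0) →
    ENNReal.ofReal (κ * ∏ i, ‖t i y‖ ^ (2 * w i)) ≤ o y) →
  KeepAt n (dens ξ Θ ε) (fun e y => dens ξ' Θ ε e y * o y) x →
  ∀ e, At e x → ∃ g, Hol n g x ∧ ∀ᶠ y in 𝓝 x, y ∉ A → (∀ i, t i y ≠ 0) →
    g y = ξ' e y * ∏ i, t i y ^ c' i

/-- **LIC**: integrability in one chart suffices -/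
def LIC : Prop := ForW fun n W _ _ => ∀ (A : Set W) (u : Chart n W → W → ℝ≥0∞) (x : W)
  (e : Chart n W), Tn n A x → At e x →
  (∀ᶠ y in 𝓝 x, y ∉ A → ∀ e₁ e₂, At e₁ y → At e₂ y →
    u e₁ y = u e₂ y * ‖(jacM e₁ e₂ y).det‖ₑ ^ 2) →
  (∃ U ∈ 𝓝 (e x), ∫⁻ z in U, u e (e.symm z) < ⊤) → ∀ᶠ y in 𝓝 x, LI n u y

/-- **HOLD**: the inequality of Hölder -/
def HOLD : Prop := ForW fun n W _ _ => ∀ (A : Set W) (ξ Θ ξ' : Chart n W → W → ℂ)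
  (k k' u₁ u₂ : ℕ) (ε : ℝ) (o : W → ℝ≥0∞) (x : W), Tn n A x → 0 ≤ ε → ε * u₁ < 1 →
  ε * (k * u₁ + k' * u₂) = k - 1 → ML n k A ξ x → ML n k' A Θ x → ML n k A ξ' x →
  (∀ᶠ y in 𝓝 x, y ∉ A → ∀ e, At e y → ξ e y ^ u₁ * Θ e y ^ u₂ ≠ 0) →
  (∃ κ : ℝ≥0∞, 0 < κ ∧ ∀ᶠ y in 𝓝 x, κ ≤ o y) →
  Lc n (dens ξ (fun e y => ξ e y ^ u₁ * Θ e y ^ u₂) ε) x →
  KeepAt n (dens ξ (fun e y => ξ e y ^ u₁ * Θ e y ^ u₂) ε)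
    (fun e y => dens ξ' (fun e y => ξ e y ^ u₁ * Θ e y ^ u₂) ε e y * o y) x →
  Lc n (dens ξ' (fun e y => ξ' e y ^ u₁ * Θ e y ^ u₂) ε) x

/-! ### forms on fibre powers -/

/-- a statement for all nice structures -/
def ForC (P : ∀ (p a _ : ℕ) (M : Fb (p + a) p), NS M → Prop) : Prop :=
  ∀ (p a n : ℕ) (M : Fb (p + a) p) (C : NS M), M.Ok → P p a n M C

/-- **CF**: pull backs of forms at the nice points -/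
def CF : Prop := ForC fun p a n M C => ∀ (T : Type) [TopologicalSpace T]
  [ChartedSpace (Cm (p + n * a)) T] [IsManifold 𝓘(ℂ, Cm (p + n * a)) ω T] [T2Space T]
  [SecondCountableTopology T] (γ : T → Pt M n) (t : T), Tm (p + n * a) γ t → γ t ∈ C.N n →
  (∀ᶠ s in 𝓝 t, γ s ∈ C.N n ∧ Tm (p + n * a) γ s) ∧
  (∀ e e', At e t → At e' (γ t).1 → Hol (p + n * a) (C.jn e' γ e) t) ∧
  (∀ e e₁ e', At e t → At e₁ t → At e' (γ t).1 →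
    C.jn e' γ e t = (jacM e e₁ t).det * C.jn e' γ e₁ t) ∧
  (∀ e e' e₁, At e t → At e' (γ t).1 → At e₁ (γ t).1 →
    C.jn e₁ γ e t = (jacM e' e₁ (γ t).1).det * C.jn e' γ e t) ∧
  ∀ k F, C.PF k F → ∀ e, At e t →
    (∀ e', At e' (γ t).1 → C.cf k F γ e t = F e' (γ t) * C.jn e' γ e t ^ k) ∧
    Hol (p + n * a) (C.cf k F γ e) t ∧
    ∀ e₁, At e₁ t → C.cf k F γ e t = (jacM e e₁ t).det ^ k * C.cf k F γ e₁ t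

/-- **MSCF**: forms on a model -/
def MSCF : Prop := ForC fun p a n M C => ∀ (W : Pw M n (p + n * a) C.Q) k F, C.AF k F →
  MS (p + n * a) {v | W.γ v ∉ C.N n} ((Bd.can (p + n * a) W.V.X).pow k) (C.cf k F W.γ) ∧
  (C.Ne F → Thin (p + n * a)
    {v | W.γ v ∉ C.N n ∨ F (chartAt (Cm p) (W.γ v).1) (W.γ v) = 0})

/-- **JDV**: the Jacobian determinant over the complement of `Q` -/
def JDV : Prop := ForC fun p a n M C => ∀ (W : Pw M n (p + n * a) C.Q) (v : W.V.X)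
  (e : Chart (p + n * a) W.V.X) (e' : Chart p M.Y.X) (c : Fin n → Chart (p + a) M.X.X),
  (W.γ v).1 ∉ C.Q → At e v → At e' (W.γ v).1 → (∀ j, At (c j) ((W.γ v).2 j)) →
  ∃ U : W.V.X → ℂ, ContinuousAt U v ∧ U v ≠ 0 ∧ ∀ᶠ v' in 𝓝 v, W.γ v' ∈ C.N n →
    C.jn e' W.γ e v' = U v' * ∏ j, jdw C.w (c j) e' ((W.γ v').2 j)

/-- **MERV**: meromorphic on a model implies meromorphic along all test maps -/
def MERV : Prop := ForC fun p a n M C => ∀ (W : Pw M n (p + n * a) C.Q) (F : Pt M n → ℂ)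
  (q : Pt M n), (∀ᶠ q' in 𝓝 q, q' ∈ C.N n → HolT F q') →
  (∀ v, W.γ v = q → Mer (p + n * a) (fun v' => F (W.γ v')) v) →
  ForW fun d T _ _ => ∀ (γ : T → Pt M n) (t : T), Tm d γ t → γ t = q →
    (∃ᶠ s in 𝓝 t, γ s ∈ C.N n) → Mer d (fun s => F (γ s)) t

/-- **KEEPB**: `Keep` passes from a model to a branch -/
def KEEPB : Prop := ForC fun p a n M C => ∀ (W : Pw M n (p + n * a) C.Q) (T : Type)
  [TopologicalSpace T] [ChartedSpace (Cm (p + n * a)) T] [IsManifold 𝓘(ℂ, Cm (p + n * a)) ω T]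
  [T2Space T] [SecondCountableTopology T] (γ : T → Pt M n) (t : T) (ρ : Pt M n → T) (k k' : ℕ)
  (ε : ℝ) (F Θ F' : Chart p M.Y.X → Pt M n → ℂ) (o : M.Y.X → ℝ≥0∞), Br C.Q γ t ρ →
  ε * k' = k - 1 → C.PF k F → C.PF k' Θ → C.PF k F' →
  Keep (p + n * a) (dens (C.cf k F W.γ) (C.cf k' Θ W.γ) ε)
    (fun e v => dens (C.cf k F' W.γ) (C.cf k' Θ W.γ) ε e v * o (W.γ v).1) →
  KeepAt (p + n * a) (dens (C.cf k F γ) (C.cf k' Θ γ) ε)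
    (fun e s => dens (C.cf k F' γ) (C.cf k' Θ γ) ε e s * o (γ s).1) t

/-- **ALGF**: the algebra of forms -/
def ALGF : Prop := ForC fun p a n M C =>
  (∀ k k' (F F' : Chart p M.Y.X → Pt M n → ℂ), C.AF k F → C.AF k' F' →
    C.AF (k + k') fun e q => F e q * F' e q) ∧
  (∀ k j (F : Chart p M.Y.X → Pt M n → ℂ), C.AF k F → C.AF (k * j) fun e q => F e q ^ j) ∧
  (∀ k (Γ : Type) [Fintype Γ] (c : Γ → ℂ) (σ : Γ → Equiv.Perm (Fin n))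
    (F : Chart p M.Y.X → Pt M n → ℂ), C.AF k F →
    C.AF k fun e q => ∑ g, c g * F e (sel (σ g) q)) ∧
  (∀ k β (R : Pt M n → ℂ), BF p k C.Q β → C.RF k R → C.AF k fun e q => β e q.1 * R q) ∧
  (∀ k g (F : Chart p M.Y.X → Pt M n → ℂ), Mr p C.Q g → C.AF k F →
    C.AF k fun e q => g q.1 * F e q) ∧
  (∀ k j (R : Pt M n → ℂ), C.RF k R → C.RF (k * j) fun q => R q ^ j) ∧
  (∀ k s (R : Fin s → Pt M n → ℂ), (∀ g, C.RF k (R g)) →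
    C.RF k fun q : Pt M (s * n) => ∏ g, R g (grp g q)) ∧
  (∀ k (R : Fin n → Pt M 1 → ℂ), (∀ j, C.RF k (R j)) →
    C.RF k fun q : Pt M n => ∏ j, R j (sel (fun _ => j) q)) ∧
  (∀ k (F F' : Chart p M.Y.X → Pt M n → ℂ), C.AF k F →
    (∀ q ∈ C.N n, ∀ e, At e q.1 → F' e q = F e q) → C.AF k F') ∧
  (∀ k k' (F F' : Chart p M.Y.X → Pt M n → ℂ), C.AF k F → C.AF k' F' → C.Ne F → C.Ne F' →
    Nonempty (Pw M n (p + n * a) C.Q) → C.Ne fun e q => F e q * F' e q) ∧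
  (∀ k j β, BF p k C.Q β → BF p (k * j) C.Q fun e y => β e y ^ j) ∧
  ∀ k β g, BF p k C.Q β → Mr p C.Q g → BF p k C.Q fun e y => g y * β e y

/-! ### fibre integrals -/

/-- **I1**: fibre integrals and local integrability on a model -/
def I1 : Prop := ForC fun p a n M C => ∀ (W : Pw M n (p + n * a) C.Q) (u : Pt M n → ℝ≥0∞)
  (y : M.Y.X) (e' : Chart p M.Y.X), At e' y → C.Ms u →
  ((∀ v, (W.γ v).1 = y → LI (p + n * a) (fun e v' => u (W.γ v') * ‖C.jn e' W.γ e v'‖ₑ ^ 2) v) ↔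
    ∃ U ∈ 𝓝 (e' y), ∫⁻ b in U, C.I u (e'.symm b) < ⊤)

/-- **ICALC**: the calculus of the fibre integrals -/
def ICALC : Prop := ForC fun _ _ n M C =>
  (∀ s (u : Fin s → Pt M n → ℝ≥0∞), (∀ g, C.Ms (u g)) → ∀ y ∉ C.Q,
    C.I (fun q : Pt M (s * n) => ∏ g, u g (grp g q)) y = ∏ g, C.I (u g) y) ∧
  (∀ (σ : Equiv.Perm (Fin n)) (u : Pt M n → ℝ≥0∞) y, C.I (fun q => u (sel σ q)) y = C.I u y) ∧
  (∀ (u u' : Pt M n → ℝ≥0∞), C.Ms u → C.Ms u' → ∀ y,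
    C.I (fun q => u q + u' q) y = C.I u y + C.I u' y) ∧
  (∀ (u : Pt M n → ℝ≥0∞) (c : M.Y.X → ℝ≥0∞), C.Ms u → ∀ y,
    C.I (fun q => c q.1 * u q) y = c y * C.I u y) ∧
  (∀ (u u' : Pt M n → ℝ≥0∞) y, (∀ x, (y, x) ∈ C.N n → u (y, x) ≤ u' (y, x)) → C.I u y ≤ C.I u' y) ∧
  (∀ (ι : Type) [Fintype ι] (F : ι → Pt M n → ℂ) (O : Set M.Y.X) (Φ : (ι → ℂ) → ℝ≥0∞), IsOpen O →
    Measurable Φ → (∀ i, ∀ q ∈ C.N n, q.1 ∈ O → HolT (F i) q) →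
    C.Ms fun q => O.indicator (fun _ => Φ fun i => F i q) q.1) ∧
  ∀ n' (σ : Fin n' → Fin n) (u : Pt M n' → ℝ≥0∞), C.Ms u → C.Ms fun q : Pt M n => u (sel σ q)

/-- **IPC**: the sub mean value inequality on the pieces -/
def IPC : Prop := ∀ (a n k : ℕ) (r r' : ℝ) (K : ℝ≥0∞), 0 < k → 0 < r' → r' < r → K < ⊤ →
  ∃ A : ℝ, ∀ (p : ℕ) (M : Fb (p + a) p) (C : NS M) (F : Pt M n → ℂ) (y : M.Y.X) ψ, M.Ok →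
    C.RF k F → y ∉ C.Q → Pc y r ψ → C.I (fun q => ‖F q‖ₑ ^ (2 / k : ℝ)) y ≤ K →
    C.Le k F y ψ r' A

/-! ### boxes -/

/-- **BXB**: the diagonal branch -/
def BXB : Prop := ForC fun p a n M C => ∀ l (B : Bx M C.Q l), 0 < n →
  (∃ ρ, Br C.Q (B.γ n) 0 ρ) ∧ B.γ n 0 = dg n B.x ∧
  (∃ r > 0, ∀ᶠ b in 𝓝 (0 : Cm p), b B.i₀ ≠ 0 → B.yb b ∉ C.Q ∧ Pc (B.yb b) r (B.ψ b) ∧
    ∀ r' > 0, r' ≤ r → Metric.ball 0 r' ⊆ closure {u ∈ Metric.ball 0 r' | B.ψ b u ∉ C.S}) ∧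
  (Tn (p + n * a) {o | B.γ n o ∉ C.N n} 0 ∧
    ∀ᶠ o in 𝓝 (0 : Cm (p + n * a)), (B.γ n o).1 ∈ C.Q ↔ o (Fin.castAdd _ B.i₀) = 0) ∧
  (∀ e', At e' (M.f B.x) → ∃ U : Cm p → ℂ, ContinuousAt U 0 ∧ U 0 ≠ 0 ∧
    ∀ᶠ o in 𝓝 (0 : Cm (p + n * a)), B.γ n o ∈ C.N n → C.jn e' (B.γ n) (chartAt _ o) o =
      U (fun c => o (Fin.castAdd _ c)) * o (Fin.castAdd _ B.i₀) ^ (B.A - 1) * ∏ j, jw C.w
        (B.ψ fun c => o (Fin.castAdd _ c)) fun i => o (Fin.natAdd p (finProdFinEquiv (j, i)))) ∧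
  ∀ e e', At e B.x → At e' (M.f B.x) → ∃ U : M.X.X → ℂ, ContinuousAt U B.x ∧ U B.x ≠ 0 ∧
    ∀ᶠ x in 𝓝 B.x, x ∉ C.S →
      jdw C.w e e' x = U x * (B.Θ x).1 B.i₀ ^ (B.A - 1) * jw C.w (B.ψ (B.Θ x).1) (B.Θ x).2

/-- **BOX**: boxes exist at the general points -/
def BOX : Prop := ∀ (p a m : ℕ) (Z : Nm p a m) (l : Z.M.κ), Rp Z.M l →
  (∀ x ∈ Z.M.G l, Z.M.f x ∈ Z.D.Q) → ∀ x ∈ Z.M.G l, ∀ U ∈ 𝓝 x, ∃ B : Bx Z.M Z.D.Q l, B.x ∈ U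

/-- **ONTO**: there is a component of large rank over each component of `Q` -/
def ONTO : Prop := ∀ (p a m : ℕ) (Z : Nm p a m) (j : Fin Z.r),
  ∃ l, Rp Z.M l ∧ ∀ x ∈ Z.M.G l, Z.M.f x ∈ Z.E j

/-- **BSEX**: systems of boxes exist -/
def BSEX : Prop := ∀ (p a m : ℕ) (Z : Nm p a m), Nonempty Z.Bs

/-- **OPENZ**: `z` is dominant -/
def OPENZ : Prop := ∀ (p a m : ℕ) (Z : Nm p a m) (U : Set Z.M.X.X), IsOpen U → Dense U →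
  ∃ O', IsOpen O' ∧ O'.Nonempty ∧ O' ⊆ Z.D.O ∧
    ∀ c ∈ O', ∃ x ∈ U, x ∉ Z.D.S ∧ (fun j => Z.D.z j (Z.M.f x)) = c

/-- a statement for all neat models -/
def ForN (P : ∀ (p a m : ℕ), Nm p a m → ℕ → Prop) : Prop :=
  ∀ (p a m : ℕ) (Z : Nm p a m) (n : ℕ), 0 < n → P p a m Z n

/-- **ALGB**: the algebra of the bounds -/
def ALGB : Prop := ForN fun p _ m Z n => ∀ l (B : Bx Z.M Z.D.Q l),
  (∀ k k' d d' (F F' : Chart p Z.M.Y.X → Pt Z.M n → ℂ), Z.BdB B k d F → Z.BdB B k' d' F' →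
    Z.BdB B (k + k') (d + d') fun e q => F e q * F' e q) ∧
  (∀ k d (j : ℕ) (F : Chart p Z.M.Y.X → Pt Z.M n → ℂ), Z.BdB B k d F →
    Z.BdB B (k * j) (d * j) fun e q => F e q ^ j) ∧
  (∀ k d (Γ : Type) [Fintype Γ] (c : Γ → ℂ) (σ : Γ → Equiv.Perm (Fin n))
    (F : Chart p Z.M.Y.X → Pt Z.M n → ℂ), Z.C.PF (m * k) F → Z.BdB B k d F →
    Z.BdB B k d fun e q => ∑ g, c g * F e (sel (σ g) q)) ∧
  (∀ k d d' (F F' : Chart p Z.M.Y.X → Pt Z.M n → ℂ), d ≤ d' → Z.BdB B k d F →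
    (∀ q ∈ Z.C.N n, ∀ e, At e q.1 → F' e q = F e q) → Z.BdB B k d' F') ∧
  ∀ k d (F : Chart p Z.M.Y.X → Pt Z.M n → ℂ), Z.C.PF (m * k) F → ∀ e', At e' (Z.M.f B.x) →
    (Z.BdB B k d F ↔ ∃ r > 0, ∃ K : ℝ, ∀ᶠ b in 𝓝 (0 : Cm p), b B.i₀ ≠ 0 →
      Z.C.Le (m * k) (F e') (B.yb b) (B.ψ b) r
        (K / (‖b B.i₀‖ ^ (k * (B.om m n + m * (B.A - 1))) * Z.S.hw (Z.φ (B.yb b)) ^ d)))

/-- **SIG**: the first bound -/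
def SIG : Prop := ForN fun p _ m Z n => ∀ (T : Z.Bs),
  let g : Z.M.Y.X → ℂ := fun y => MvPolynomial.eval (Fin.cons 1 fun j => Z.D.z j y) T.σ
  Mr p Z.D.Q g ∧ Thin p (Z.D.Q ∪ {y | g y = 0}) ∧
  (∀ y, Z.Ov y → ∃ K : ℝ, ∀ᶠ y' in 𝓝 y, y' ∉ Z.D.Q → ‖g y'‖ ≤ K) ∧
  ∀ k (F : Chart p Z.M.Y.X → Pt Z.M n → ℂ), Z.C.AF (m * k) F →
    (∀ i, Z.Ov (Z.M.f (T.B i).x) → Z.BdB (T.B i) k 0 F) →
    ∃ K₀ : ℕ, ∀ K ≥ K₀, ∀ i, Z.BdB (T.B i) k (K * (T.d + 1) : ℕ) fun e q => g q.1 ^ K * F e q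

/-! ### one step -/

/-- **NORMAL**: the new form is a good form -/
def NORMAL : Prop := ForN fun p a m Z n => ∀ (W : Z.W n) (k k' : ℕ) (ε : ℝ)
  (F Θ : Chart p Z.M.Y.X → Pt Z.M n → ℂ) (ξ' : Chart (p + n * a) W.V.X → W.V.X → ℂ)
  (A' : Set W.V.X), 0 < ε → ε * (m * k' : ℕ) = (m * k : ℕ) - 1 → Z.C.AF (m * k) F →
  Z.C.AF (m * k') Θ → Z.C.Ne Θ → {v | W.γ v ∉ Z.C.N n} ⊆ A' → Thin (p + n * a) A' →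
  MS (p + n * a) A' ((Bd.can (p + n * a) W.V.X).pow (m * k)) ξ' →
  Keep (p + n * a) (dens (Z.C.cf (m * k) F W.γ) (Z.C.cf (m * k') Θ W.γ) ε) (fun e v =>
    dens ξ' (Z.C.cf (m * k') Θ W.γ) ε e v *
      ENNReal.ofReal (Z.S.hw (Z.φ (W.γ v).1)) ^ (2 * (Z.D.v + 1) : ℕ)) →
  ∃ F', Z.C.AF (m * k) F' ∧ ∀ v ∉ A', ∀ e, At e v → Z.C.cf (m * k) F' W.γ e v = ξ' e v

/-- **STEP**: one extension step -/
def STEP : Prop := ForN fun p _ m Z n => ∀ (W : Z.W n) (k k' : ℕ) (ε : ℚ)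
  (F Θ : Chart p Z.M.Y.X → Pt Z.M n → ℂ), 0 < ε → ε * (m * k' : ℕ) = (m * k : ℕ) - 1 →
  Z.C.AF (m * k) F → Z.C.AF (m * k') Θ → Z.C.Ne Θ → Z.LV W (m * k) (m * k') ε F Θ →
  ∀ᵐ c : Cm Z.D.v, c ∈ Z.D.O → ∃ F', Z.C.AF (m * k) F' ∧
    (∀ q ∈ Z.C.N n, (fun j => Z.D.z j q.1) = c → ∀ e', At e' q.1 → F' e' q = F e' q) ∧
    Z.KV W (m * k) (m * k') ε F Θ F'

/-- **BOXS**: one step on a branch -/
def BOXS : Prop := ForN fun p _ m Z n => ∀ (W : Z.W n) l (B : Bx Z.M Z.D.Q l) (k k' : ℕ) (ε : ℝ)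
  (d d' d'' : ℤ) (F Θ F' : Chart p Z.M.Y.X → Pt Z.M n → ℂ), 0 < ε →
  ε * (m * k' : ℕ) = (m * k : ℕ) - 1 → Z.C.PF (m * k) F → Z.C.AF (m * k') Θ → Z.C.PF (m * k) F' →
  Z.C.Ne Θ → Z.BdB B k d F → Z.BdB B k' d' Θ → Z.KV W (m * k) (m * k') ε F Θ F' →
  ε * d' + (Z.D.v + 1) < d'' → Z.BdB B k d'' F'

/-! ### the first stage -/

/-- **ALT**: alternation -/
def ALT : Prop := ForN fun p _ m Z s => Nonempty (Z.W (s * (Z.D.c₀ * Z.D.ρ))) →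
  (∀ y ∉ Z.D.Q, ∃ x, (y, x) ∈ Z.C.N (s * (Z.D.c₀ * Z.D.ρ)) ∧ Z.Pb s (y, x) ≠ 0) ∧
  ∃ (Γ : Type) (_ : Fintype Γ) (σ : Γ → Equiv.Perm (Fin (s * (Z.D.c₀ * Z.D.ρ)))) (c : Γ → ℂ),
    Nonempty Γ ∧ (∀ g, ‖c g‖ = 1) ∧
    (∀ g, ∀ q ∈ Z.C.N _, c g * Z.Pb s (sel (σ g) q) = Z.Pb s q) ∧
    ∀ F : Chart p Z.M.Y.X → Pt Z.M (s * (Z.D.c₀ * Z.D.ρ)) → ℂ, Z.C.AF m F →
      ∃ β, BF p m Z.D.Q β ∧ ∀ q ∈ Z.C.N _, ∀ e', At e' q.1 →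
        Z.bp s β e' q = ∑ g, (Fintype.card Γ : ℂ)⁻¹ * c g * F e' (sel (σ g) q)

/-- **LV1**: log canonical over `O`, first stage -/
def LV1 : Prop := ForN fun p _ m Z s => ∀ (W : Z.W (s * (Z.D.c₀ * Z.D.ρ))) β, BF p m Z.D.Q β →
  Z.BL β → Z.LV W (m * 1) (m * (m - 1)) (1 / m) (Z.bp s β) fun e q => Z.bp s β e q ^ (m - 1)

/-- **KEEPY**: `Keep` on the base -/
def KEEPY : Prop := ForN fun p _ m Z s => ∀ (W : Z.W (s * (Z.D.c₀ * Z.D.ρ))) β β' F (Γ : Type)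
  [Fintype Γ] (σ : Γ → Equiv.Perm (Fin (s * (Z.D.c₀ * Z.D.ρ)))) (c c' : Γ → ℂ),
  BF p m Z.D.Q β → BF p m Z.D.Q β' → Z.C.PF (m * 1) F → (∀ g, ‖c g‖ = 1) →
  (∀ g, ∀ q ∈ Z.C.N _, c g * Z.Pb s (sel (σ g) q) = Z.Pb s q) →
  (∀ q ∈ Z.C.N _, ∀ e', At e' q.1 → Z.bp s β' e' q = ∑ g, c' g * F e' (sel (σ g) q)) →
  Z.KV W (m * 1) (m * (m - 1)) (1 / m) (Z.bp s β) (fun e q => Z.bp s β e q ^ (m - 1)) F →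
  ∀ y, Z.Ov y → KeepAt p (dens β (fun e y => β e y ^ (m - 1)) (1 / m))
    (dens β' (fun e y => β e y ^ (m - 1)) (1 / m)) y

/-- **BBD**: the bound on the base gives the bound on the branch, over `O` -/
def BBD : Prop := ForN fun p _ m Z n => ∀ l (B : Bx Z.M Z.D.Q l) (k : ℕ) β (R : Pt Z.M n → ℂ),
  0 < k → Z.Ov (Z.M.f B.x) → BF p m Z.D.Q β → B.BB m β → Z.C.RF (m * k) R →
  (∃ r > 0, ∃ K : ℝ, ∀ᶠ b in 𝓝 (0 : Cm p), b B.i₀ ≠ 0 → Z.C.Le (m * k) R (B.yb b) (B.ψ b) r K) →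
  Z.BdB B k 0 fun e q => β e q.1 ^ k * R q

/-- **TBB**: the bounds given by `TB` -/
def TBB : Prop := ∀ (p a m : ℕ) (Z : Nm p a m) (τ : Chart p Z.M.Y.X → Z.M.Y.X → ℂ),
  TB (p + a) p Z.M.f Z.M.G (fun l => m * Z.M.δ l) m Z.D.Q τ →
  (∀ l (B : Bx Z.M Z.D.Q l), B.BB m τ) ∧
    ∀ y, Lc p (dens τ (fun e y => τ e y ^ (m - 1)) (1 / m)) y

/-- **INIT1** -/
def INIT1 : Prop := ForN fun p a m Z s => ∀ (T : Z.Bs) (τ : Chart p Z.M.Y.X → Z.M.Y.X → ℂ),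
  TB (p + a) p Z.M.f Z.M.G (fun l => m * Z.M.δ l) m Z.D.Q τ →
  (∃ y ∉ Z.D.Q, ∃ e', At e' y ∧ τ e' y ≠ 0) → ∃ β d, Nm.S1 T s d β

/-- **ST1** -/
def ST1 : Prop := ForN fun _ _ m Z s => ∀ (T : Z.Bs) β (d : ℤ),
  Nonempty (Z.W (s * (Z.D.c₀ * Z.D.ρ))) → Nm.S1 T s d β → m * (Z.D.v + 2 : ℤ) < d →
  ∃ β', Nm.S1 T s (d - 1) β'

/-! ### the second stage -/

/-- **THETA** -/
def THETA : Prop := ForN fun _ _ m Z t => ∀ (T : Z.Bs) β (d : ℤ), Nm.S1 T (Z.D.c₁ * t) d β →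
  Nonempty (Z.W Z.D.n₁) → Z.C.AF (m * (Z.D.k₁ * t)) (Z.th t β) ∧ Z.C.Ne (Z.th t β) ∧
    ∀ i, Z.BdB (T.B i) (Z.D.k₁ * t) (Z.D.k₁ * t * (d - t)) (Z.th t β)

/-- **INIT2** -/
def INIT2 : Prop := ForN fun _ _ m Z t => ∀ (T : Z.Bs) β (W : Z.W (Z.D.k₁ * t * Z.D.n₁))
  (u₁ u₂ : ℕ) (ε : ℝ), Nm.S0 T β → 0 < ε →
  ε * u₁ = 1 - (1 + Z.D.η * (m * Z.D.k₁)) / (m * Z.D.i₁) → ε * u₂ = Z.D.η / t →
  ∃ F d, Nm.S2 T W (Z.D.k₁ * t) u₁ u₂ ε (Z.th t β) d F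

/-- **RKS**: the rank condition -/
def RKS : Prop := ForN fun p a _ Z n => ∀ k (F : Fin (a + 1) → Chart p Z.M.Y.X → Pt Z.M n → ℂ),
  (∀ j, Z.C.PF k (F j)) → Z.C.RK F → (∀ j, Z.C.Ne (F j)) ∧ ∀ T : Set (Cm Z.D.v),
    (∀ᵐ c : Cm Z.D.v, c ∈ Z.D.O → c ∈ T) → ∃ c ∈ T, c ∈ Z.D.O ∧
      ∀ F' : Fin (a + 1) → Chart p Z.M.Y.X → Pt Z.M n → ℂ, (∀ j, Z.C.PF k (F' j)) →
        (∀ j, ∀ q ∈ Z.C.N n, (fun j => Z.D.z j q.1) = c → ∀ e', At e' q.1 →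
          F' j e' q = F j e' q) → Z.C.RK F'

/-- **ST2** -/
def ST2 : Prop := ForN fun p a m Z n => ∀ (T : Z.Bs) (W : Z.W n) (k' u₁ u₂ : ℕ) (ε : ℚ)
  (Θ : Chart p Z.M.Y.X → Pt Z.M n → ℂ) (d d' : ℤ)
  (F : Fin (a + 1) → Chart p Z.M.Y.X → Pt Z.M n → ℂ), 0 < ε → ε * u₁ < 1 →
  ε * (m * (Z.D.i₁ * u₁ + k' * u₂) : ℕ) = (m * Z.D.i₁ : ℕ) - 1 → Z.C.AF (m * k') Θ → Z.C.Ne Θ →
  (∀ i, Z.BdB (T.B i) k' d' Θ) → ε * (d * u₁ + d' * u₂) + (Z.D.v + 1) < d - 1 →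
  Nm.S2 T W k' u₁ u₂ ε Θ d F → ∃ F', Nm.S2 T W k' u₁ u₂ ε Θ (d - 1) F'

/-- **FINAL**: restriction to the diagonal -/
def FINAL : Prop := ForN fun p a m Z n => ∀ (T : Z.Bs) (k j : ℕ)
  (F : Fin (a + 1) → Chart p Z.M.Y.X → Pt Z.M n → ℂ)
  (τ : Fin (j + 1) → Chart p Z.M.Y.X → Z.M.Y.X → ℂ), 2 ≤ n → 0 < k →
  (∀ i, Z.C.AF (m * k) (F i)) → (∀ i b, Z.BdB (T.B b) k 0 (F i)) → Z.C.RK F →
  (∀ b, TB (p + a) p Z.M.f Z.M.G (fun l => m * Z.M.δ l) m Z.D.Q (τ b)) →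
  Rk p Z.D.Qᶜ ((Bd.can p Z.M.Y.X).pow m) τ → KapO Z.M (a + j)

/-- **TBX**: no poles over the regular values -/
def TBX : Prop := ∀ (n p m k : ℕ) (M : Fb n p) (Q : Set M.Y.X), M.Ok → Thin p Q →
  (∀ y ∉ Q, RegAt n p M.f M.G y) → TauM M m k →
  ∃ τ : Fin (k + 1) → Chart p M.Y.X → M.Y.X → ℂ,
    (∀ b, TB n p M.f M.G (fun l => m * M.δ l) m Q (τ b)) ∧ Rk p Qᶜ ((Bd.can p M.Y.X).pow m) τ

/-- **PARTB** -/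
def PARTB : Prop := ∀ (p a m k : ℕ) (Z : Nm p a m), TauM Z.M m k → KapO Z.M (a + k)

/-! ### models -/

/-- **PICK**: the choice of the weight -/
def PICK : Prop := ∀ (n p d a k : ℕ) (M : Fb n p), M.Ok → M.X.Kah → M.Y.Kah → Vert M →
  M.Fib d a → M.Tau k → ∃ m, Std M m ∧ FibM M d m a ∧ TauM M m k

/-- **AZ**: fibres of dimension zero -/
def AZ : Prop := ∀ (p k : ℕ) (M : Fb p p), M.Ok → M.Tau k → M.Kap k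

/-- **TRF**: flat data pass to a model -/
def TRF : Prop := ∀ (p a m : ℕ) (M₁ M : Fb (p + a) p) u v Q₁ (D : FD M m) (Q' : Set M₁.Y.X),
  Std M m → Std M₁ m → Mv M₁ M u v Q₁ → Thin p Q' →
  (∀ y ∉ Q', y ∉ Q₁ ∧ v y ∉ D.Q ∧ RegAt (p + a) p M₁.f M₁.G y) →
  (∀ l, M₁.δ l = 1 → ∀ x ∈ M₁.G l, M₁.f x ∈ Q') →
  ∃ D₁ : FD M₁ m, D₁.Q = Q' ∧ ∀ (S : PS D.v) (φ : M₁.Y.X → S.P.X), HolM p D.v φ →
    (∀ y ∉ Q', φ y = S.pt (Fin.cons 1 fun j => D.z j (v y))) →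
    ∃ (S₁ : PS D₁.v) (φ₁ : M₁.Y.X → S₁.P.X), HolM p D₁.v φ₁ ∧
      ∀ y ∉ Q', φ₁ y = S₁.pt (Fin.cons 1 fun j => D₁.z j y)

/-- **NMEX**: neat models with flat data -/
def NMEX : Prop := ∀ (p a m : ℕ) (M : Fb (p + a) p), Std M m → FD M m →
  ∃ (M' : Fb (p + a) p) (Z : Nm p a m), M'.Ok ∧ (∃ u v, M'.Sq M u v) ∧ ∃ u v, Z.M.Sq M' u v ∧
    ∀ x, Imm (p + a) (p + a) u x → ∀ l, x ∈ Z.M.G l → Rp Z.M l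

end Vale.Agent.P281Z.Gt
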