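import Vale.Agent.P281Z.Gt.SkB

/-!
# P281Z, block III, part B: the algebra of the bounds on the diagonal branch
-/

open scoped Manifold ContDiff Topology ENNReal Matrix
open Set Filter MeasureTheory
open Vale.Agent.P272.K Vale.Agent.P285.H281.FD
open Vale.Agent.P277Z (Hol Mer Nz gen jd at_chart)

noncomputable section

namespace Vale.Agent.P281Z.Gt

namespace Algb

variable {p a n m : ℕ}

theorem hw_le {r : ℕ} (S : PS r) (q : S.P.X) : S.hw q ≤ 1 :=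
  div_le_one_of_le₀ (norm_le_pi_norm _ _) (norm_nonneg _)

theorem hw_pos (Z : Nm p a m) {y : Z.M.Y.X} (hy : y ∉ Z.D.Q) : 0 < Z.S.hw (Z.φ y) := by
  have hv : (Fin.cons 1 fun j => Z.D.z j y : Cm (Z.D.v + 1)) ≠ 0 := fun h =>
    one_ne_zero (congrFun h 0)
  have hm := (Z.S.lb.cover (Z.φ y)).choose_spec
  have hx : Z.S.hx (Z.φ y) ≠ 0 := Z.S.xnz _ _ hm
  obtain ⟨c, hc⟩ := Z.S.x_pt _ hv (Z.S.lb.cover (Z.φ y)).choose (by rwa [← Z.eq y hy])
  rw [← Z.eq y hy] at hc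
  have hc' : Z.S.hx (Z.φ y) = c • (Fin.cons 1 fun j => Z.D.z j y : Cm (Z.D.v + 1)) := hc
  refine div_pos (norm_pos_iff.2 ?_) (norm_pos_iff.2 hx)
  rw [hc'] at hx ⊢
  intro h
  have h0 : c = 0 := by simpa using h
  exact hx (by rw [h0, zero_smul])

/-- the coordinates of the base -/
def bo (o : Cm (p + n * a)) : Cm p := fun c => o (Fin.castAdd _ c)

/-- the coordinates of the fibres -/
def uo (o : Cm (p + n * a)) (j : Fin n) : Cm a :=
  fun i => o (Fin.natAdd p (finProdFinEquiv (j, i)))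

/-- the point with given coordinates -/
def mo (b : Cm p) (u : Fin n → Cm a) : Cm (p + n * a) :=
  Fin.append b fun k => u (finProdFinEquiv.symm k).1 (finProdFinEquiv.symm k).2

theorem bo_mo (b : Cm p) (u : Fin n → Cm a) : bo (mo b u) = b :=
  funext fun c => by rw [bo, mo, Fin.append_left]

theorem uo_mo (b : Cm p) (u : Fin n → Cm a) : uo (mo b u) = u := by
  funext j i
  rw [uo, mo, Fin.append_right, Equiv.symm_apply_apply]

theorem mo_mem {b : Cm p} {u : Fin n → Cm a} {r : ℝ} (hr : 0 < r) (hb : b ∈ Metric.ball 0 r)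
    (hu : ∀ j, u j ∈ Metric.ball 0 r) : mo b u ∈ Metric.ball 0 r := by
  rw [mem_ball_zero_iff, pi_norm_lt_iff hr] at hb ⊢
  intro k
  refine Fin.addCases (fun c => ?_) (fun c => ?_) k
  · rw [mo, Fin.append_left]
    exact hb c
  · rw [mo, Fin.append_right]
    exact (pi_norm_lt_iff hr).1 (mem_ball_zero_iff.1 (hu _)) _

theorem uo_mem {o : Cm (p + n * a)} {r : ℝ} (hr : 0 < r) (ho : o ∈ Metric.ball 0 r) (j : Fin n) :
    uo o j ∈ Metric.ball 0 r := by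
  rw [mem_ball_zero_iff, pi_norm_lt_iff hr] at ho ⊢
  exact fun i => ho _

theorem tendsto_bo : Tendsto (bo : Cm (p + n * a) → Cm p) (𝓝 0) (𝓝 0) :=
  (continuous_pi fun _ => continuous_apply _).tendsto' _ _ rfl

/-- the permutation of the slots -/
def po (σ : Equiv.Perm (Fin n)) (o : Cm (p + n * a)) : Cm (p + n * a) :=
  mo (bo o) fun j => uo o (σ j)

theorem tendsto_po (σ : Equiv.Perm (Fin n)) :
    Tendsto (po σ : Cm (p + n * a) → Cm (p + n * a)) (𝓝 0) (𝓝 0) := by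
  rw [Metric.nhds_basis_ball.tendsto_iff Metric.nhds_basis_ball]
  refine fun r hr => ⟨r, hr, fun o ho => mo_mem hr ?_ fun j => uo_mem hr ho _⟩
  rw [mem_ball_zero_iff, pi_norm_lt_iff hr] at ho ⊢
  exact fun i => ho _

section

variable {M : Fb (p + a) p} {Q : Set M.Y.X} {l : M.κ} (B : Bx M Q l)

theorem γ_eq (o : Cm (p + n * a)) :
    B.γ n o = (B.yb (bo o), fun j => B.ψ (bo o) (uo o j)) := rfl

theorem γ_po (σ : Equiv.Perm (Fin n)) (o : Cm (p + n * a)) :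
    B.γ n (po σ o) = sel σ (B.γ n o) := by
  rw [γ_eq, po, bo_mo, uo_mo]
  rfl

theorem tm_near {k : ℕ} {γ : Cm k → Pt M n} {t : Cm k} (h : Tm k γ t) : ∀ᶠ s in 𝓝 t, Tm k γ s := by
  filter_upwards [h.b.near, eventually_all.2 fun j => (h.x j).near, h.fp.eventually_nhds]
    with s h1 h2 h3 using ⟨h1, h2, h3⟩

theorem η_x : B.η (M.f B.x) = 0 := by
  rw [(B.map _ B.mem).2, B.zero]
  funext c
  by_cases h : c = B.i₀
  · subst h
    rw [Function.update_self]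
    exact zero_pow B.pos.ne'
  · rw [Function.update_of_ne h]
    rfl

theorem tendsto_up : Tendsto (fun b : Cm p => Function.update b B.i₀ (b B.i₀ ^ B.A)) (𝓝 0)
    (𝓝 (B.η (M.f B.x))) := by
  refine (continuous_id.update _ ((continuous_apply _).pow _)).tendsto' _ _ ?_
  rw [(B.map _ B.mem).2, B.zero]
  rfl

theorem tendsto_yb : Tendsto B.yb (𝓝 0) (𝓝 (M.f B.x)) :=
  (B.η.tendsto_symm (B.map _ B.mem).1).comp (tendsto_up B)

theorem η_yb : ∀ᶠ b in 𝓝 (0 : Cm p), B.yb b ∈ B.η.source ∧ B.η (B.yb b) B.i₀ = b B.i₀ ^ B.A := by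
  filter_upwards [tendsto_up B (B.η.open_target.mem_nhds (B.η.map_source (B.map _ B.mem).1))]
    with b hb
  refine ⟨B.η.map_target hb, ?_⟩
  rw [Bx.yb, B.η.right_inv hb]
  exact Function.update_self ..

theorem yb_notMem : ∀ᶠ b in 𝓝 (0 : Cm p), b B.i₀ ≠ 0 → B.yb b ∉ Q := by
  filter_upwards [η_yb B] with b hb h0
  rw [B.base _ hb.1, hb.2]
  exact pow_ne_zero _ h0

end

/-- the local description of the diagonal branch -/
theorem key (hX : BXB) {M : Fb (p + a) p} (C : NS M) (hM : M.Ok) {l : M.κ} (B : Bx M C.Q l)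
    (hn : 0 < n) {e' : Chart p M.Y.X} (he : At e' (M.f B.x)) :
    ∃ U : Cm p → ℂ, ContinuousAt U 0 ∧ U 0 ≠ 0 ∧ ∀ᶠ o in 𝓝 (0 : Cm (p + n * a)),
      Tm (p + n * a) (B.γ n) o ∧ At e' (B.γ n o).1 ∧ ((B.γ n o).1 ∈ C.Q ↔ bo o B.i₀ = 0) ∧
      (B.γ n o ∈ C.N n → C.jn e' (B.γ n) (chartAt _ o) o =
        U (bo o) * bo o B.i₀ ^ (B.A - 1) * ∏ j, jw C.w (B.ψ (bo o)) (uo o j)) := by
  obtain ⟨⟨ρ, hρ⟩, -, -, ⟨-, h4⟩, h5, -⟩ := hX p a n M C hM l B hn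
  obtain ⟨U, hU, hU0, h6⟩ := h5 e' he
  refine ⟨U, hU, hU0, ?_⟩
  filter_upwards [tm_near hρ.tm, ((tendsto_yb B).comp tendsto_bo).eventually (at_near he), h4, h6]
    with o h1 h2 h3 h7 using ⟨h1, h2, h3, h7⟩

theorem sel_mem {M : Fb (p + a) p} (C : NS M) {n' : ℕ} (σ : Fin n' → Fin n) {q : Pt M n}
    (h : q ∈ C.N n) : sel σ q ∈ C.N n' := ⟨fun j => h.1 (σ j), h.2.1, fun j => h.2.2 (σ j)⟩

/-- the Jacobian determinant does not change under a permutation of the slots -/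
theorem jn_po (hC : CF) (hX : BXB) {M : Fb (p + a) p} (C : NS M) (hM : M.Ok) {l : M.κ}
    (B : Bx M C.Q l) (hn : 0 < n) (σ : Equiv.Perm (Fin n)) :
    ∀ᶠ o in 𝓝 (0 : Cm (p + n * a)), B.γ n o ∈ C.N n →
      C.jn (chartAt _ (B.γ n o).1) (B.γ n) (chartAt _ (po σ o)) (po σ o) =
        C.jn (chartAt _ (B.γ n o).1) (B.γ n) (chartAt _ o) o := by
  obtain ⟨U, -, -, h⟩ := key hX C hM B hn (at_chart (M.f B.x))
  filter_upwards [h, (tendsto_po σ).eventually h] with o h1 h2 hN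
  have hN' : B.γ n (po σ o) ∈ C.N n := by
    rw [γ_po]
    exact sel_mem C σ hN
  have e1 : (B.γ n (po σ o)).1 = (B.γ n o).1 := by
    rw [γ_po]
    rfl
  have k1 := (hC p a n M C hM _ (B.γ n) o h1.1 hN).2.2.2.1 _ _ _ (at_chart o) h1.2.1 (at_chart _)
  have k2 := (hC p a n M C hM _ (B.γ n) _ h2.1 hN').2.2.2.1 _ _ _ (at_chart (po σ o)) h2.2.1
    (at_chart _)
  rw [e1] at k2
  rw [k1, k2, h1.2.2.2 hN, h2.2.2.2 hN', po, bo_mo, uo_mo,
    Equiv.prod_comp σ fun j => jw C.w (B.ψ (bo o)) (uo o j)]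

variable (Z : Nm p a m) {l : Z.M.κ} (B : Bx Z.M Z.D.Q l)

theorem bd_mul {k k' : ℕ} {d d' : ℤ} {F F' : Chart p Z.M.Y.X → Pt Z.M n → ℂ}
    (h : Z.BdB B k d F) (h' : Z.BdB B k' d' F') :
    Z.BdB B (k + k') (d + d') fun e q => F e q * F' e q := by
  obtain ⟨K, h⟩ := h
  obtain ⟨K', h'⟩ := h'
  refine ⟨K * K', ?_⟩
  filter_upwards [h, h'] with o h1 h2 hN
  have hw := hw_pos Z hN.2.1
  refine le_trans (le_of_eq ?_) (mul_le_mul (h1 hN) (h2 hN) (by positivity)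
    (le_trans (by positivity) (h1 hN)))
  simp only [NS.cf, mul_add, add_mul, pow_add, zpow_add₀ hw.ne', norm_mul]
  ring

theorem bd_pow {k : ℕ} {d : ℤ} (j : ℕ) {F : Chart p Z.M.Y.X → Pt Z.M n → ℂ}
    (h : Z.BdB B k d F) : Z.BdB B (k * j) (d * j) fun e q => F e q ^ j := by
  obtain ⟨K, h⟩ := h
  refine ⟨K ^ j, ?_⟩
  filter_upwards [h] with o h1 hN
  have hw := hw_pos Z hN.2.1
  refine le_trans (le_of_eq ?_) (pow_le_pow_left₀ (by positivity) (h1 hN) j)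
  simp only [NS.cf, zpow_mul, zpow_natCast, norm_mul, norm_pow]
  ring

theorem bd_sum (hC : CF) (hX : BXB) (hn : 0 < n) {k : ℕ} {d : ℤ} {Γ : Type} [Fintype Γ]
    (c : Γ → ℂ) (σ : Γ → Equiv.Perm (Fin n)) {F : Chart p Z.M.Y.X → Pt Z.M n → ℂ}
    (h : Z.BdB B k d F) : Z.BdB B k d fun e q => ∑ g, c g * F e (sel (σ g) q) := by
  obtain ⟨K, h⟩ := h
  refine ⟨∑ g, ‖c g‖ * K, ?_⟩
  filter_upwards [eventually_all.2 fun g => (tendsto_po (σ g)).eventually h,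
    eventually_all.2 fun g => jn_po hC hX Z.C Z.std.ok B hn (σ g)] with o h1 h2 hN
  have hw := hw_pos Z hN.2.1
  rw [NS.cf, Finset.sum_mul]
  refine le_trans (mul_le_mul_of_nonneg_right (mul_le_mul_of_nonneg_right (norm_sum_le _ _)
    (by positivity)) (by positivity)) ?_
  rw [Finset.sum_mul, Finset.sum_mul]
  refine Finset.sum_le_sum fun g _ => ?_
  have h3 := h1 g (by rw [γ_po]; exact sel_mem _ _ hN)
  have e2 : po (σ g) o (Fin.castAdd _ B.i₀) = o (Fin.castAdd _ B.i₀) :=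
    congrFun (bo_mo (bo o) fun j => uo o (σ g j)) B.i₀
  rw [NS.cf, γ_po, e2] at h3
  have h4 := h2 g hN
  refine le_trans (le_of_eq ?_) (mul_le_mul_of_nonneg_left h3 (norm_nonneg (c g)))
  rw [← h4, mul_assoc (c g), norm_mul (c g), mul_assoc, mul_assoc, ← mul_assoc _ _ (_ ^ d)]
  rfl

theorem bd_mono {k : ℕ} {d d' : ℤ} {F F' : Chart p Z.M.Y.X → Pt Z.M n → ℂ} (hd : d ≤ d')
    (h : Z.BdB B k d F) (hF : ∀ q ∈ Z.C.N n, ∀ e, At e q.1 → F' e q = F e q) :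
    Z.BdB B k d' F' := by
  obtain ⟨K, h⟩ := h
  refine ⟨K, ?_⟩
  filter_upwards [h] with o h1 hN
  refine le_trans ?_ (h1 hN)
  rw [NS.cf, NS.cf, hF _ hN _ (at_chart _)]
  exact mul_le_mul_of_nonneg_left
    (zpow_le_zpow_right_of_le_one₀ (hw_pos Z hN.2.1) (hw_le _ _) hd) (by positivity)

theorem bd_iff (hC : CF) (hX : BXB) (hn : 0 < n) {k : ℕ} {d : ℤ}
    {F : Chart p Z.M.Y.X → Pt Z.M n → ℂ} (hF : Z.C.PF (m * k) F) {e' : Chart p Z.M.Y.X}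
    (he : At e' (Z.M.f B.x)) :
    Z.BdB B k d F ↔ ∃ r > 0, ∃ K : ℝ, ∀ᶠ b in 𝓝 (0 : Cm p), b B.i₀ ≠ 0 →
      Z.C.Le (m * k) (F e') (B.yb b) (B.ψ b) r
        (K / (‖b B.i₀‖ ^ (k * (B.om m n + m * (B.A - 1))) * Z.S.hw (Z.φ (B.yb b)) ^ d)) := by
  obtain ⟨U, hU, hU0, h⟩ := key hX Z.C Z.std.ok B hn he
  have hE : ∀ᶠ o in 𝓝 (0 : Cm (p + n * a)), Fp (B.γ n o) ∧
      ((B.γ n o).1 ∈ Z.D.Q ↔ bo o B.i₀ = 0) ∧ (B.γ n o ∈ Z.C.N n →
      ‖Z.C.cf (m * k) F (B.γ n) (chartAt _ o) o‖ * ‖o (Fin.castAdd _ B.i₀)‖ ^ (k * B.om m n) *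
        Z.S.hw (Z.φ (B.γ n o).1) ^ d =
      (‖F e' (B.yb (bo o), fun j => B.ψ (bo o) (uo o j))‖ *
        ∏ j, ‖jw Z.C.w (B.ψ (bo o)) (uo o j)‖ ^ (m * k)) *
        (‖bo o B.i₀‖ ^ (k * (B.om m n + m * (B.A - 1))) * Z.S.hw (Z.φ (B.yb (bo o))) ^ d) *
        ‖U (bo o)‖ ^ (m * k)) := by
    filter_upwards [h] with o h1
    refine ⟨h1.1.fp.self_of_nhds, h1.2.2.1, fun hN => ?_⟩
    rw [((hC p a n _ Z.C Z.std.ok _ (B.γ n) o h1.1 hN).2.2.2.2 _ F hF _ (at_chart o)).1 e' h1.2.1,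
      h1.2.2.2 hN, Finset.prod_pow, ← norm_prod]
    change ‖F e' (B.yb (bo o), fun j => B.ψ (bo o) (uo o j)) * _‖ * ‖bo o B.i₀‖ ^ _ *
      Z.S.hw (Z.φ (B.yb (bo o))) ^ d = _
    simp only [norm_mul, norm_pow]
    ring
  have hpos : 0 < ‖U 0‖ := norm_pos_iff.2 hU0
  constructor
  · rintro ⟨K, hK⟩
    obtain ⟨r, hr, hb⟩ := Metric.eventually_nhds_iff_ball.1 (hE.and hK)
    refine ⟨r, hr, K / (‖U 0‖ / 2) ^ (m * k), ?_⟩
    filter_upwards [Metric.ball_mem_nhds (0 : Cm p) hr,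
      hU.norm.eventually (lt_mem_nhds (half_lt_self hpos))] with b h1 h2 h0 u hu hS
    obtain ⟨⟨k1, k2, k3⟩, k4⟩ := hb _ (mo_mem hr h1 hu)
    have hQ : (B.γ n (mo b u)).1 ∉ Z.D.Q := by rwa [k2, bo_mo]
    have hN : B.γ n (mo b u) ∈ Z.C.N n := ⟨k1, hQ, by rwa [γ_eq, bo_mo, uo_mo]⟩
    have k5 := (k3 hN).symm.trans_le (k4 hN)
    rw [γ_eq, bo_mo] at hQ
    rw [bo_mo, uo_mo] at k5
    have hw := hw_pos Z hQ
    have h3 := norm_pos_iff.2 h0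
    rw [le_div_iff₀ (by positivity), le_div_iff₀ (by positivity)]
    exact le_trans (mul_le_mul_of_nonneg_left (pow_le_pow_left₀ (by positivity) h2.le _)
      (by positivity)) k5
  · rintro ⟨r, hr, K, hK⟩
    refine ⟨K * (‖U 0‖ + 1) ^ (m * k), ?_⟩
    filter_upwards [hE, tendsto_bo.eventually hK, Metric.ball_mem_nhds (0 : Cm (p + n * a)) hr,
      tendsto_bo.eventually (hU.norm.eventually (gt_mem_nhds (lt_add_one _)))] with o h1 h2 h3 h4 hN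
    have h0 : bo o B.i₀ ≠ 0 := fun h => hN.2.1 (h1.2.1.2 h)
    have k1 := h2 h0 (uo o) (uo_mem hr h3) hN.2.2
    have hw : 0 < Z.S.hw (Z.φ (B.yb (bo o))) := hw_pos Z hN.2.1
    have h5 := norm_pos_iff.2 h0
    rw [le_div_iff₀ (by positivity)] at k1
    rw [h1.2.2 hN]
    exact mul_le_mul k1 (pow_le_pow_left₀ (norm_nonneg _) h4.le _) (by positivity)
      (le_trans (by positivity) k1)

end Algb

open Algb

/-- **ALGB** -/
theorem algb (hC : CF) (hX : BXB) : ALGB := fun _ _ _ Z _ hn _ B =>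
  ⟨fun _ _ _ _ _ _ => bd_mul Z B, fun _ _ j _ => bd_pow Z B j,
    fun _ _ _ _ c σ _ _ => bd_sum Z B hC hX hn c σ, fun _ _ _ _ _ => bd_mono Z B,
    fun _ _ _ hF _ => bd_iff Z B hC hX hn hF⟩

/-- **BBD** -/
theorem bbd (hA : ALGB) (hF : ALGF) : BBD := by
  intro p a m Z n hn l B k β R _ _ hβ hB hR ⟨r, hr, K, hK⟩
  obtain ⟨-, -, -, f4, -, -, -, -, -, -, f11, -⟩ := hF p a n Z.M Z.C Z.std.ok
  have he := at_chart (n := p) (Z.M.f B.x)
  refine ((hA p a m Z n hn l B).2.2.2.2 k 0 _ (f4 _ _ R (f11 m k β hβ) hR).toPF _ he).2 ?_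
  obtain ⟨K', hK'⟩ := hB _ he
  refine ⟨r, hr, K' ^ k * K, ?_⟩
  filter_upwards [hK, (tendsto_yb B).eventually hK', η_yb B, yb_notMem B,
    Metric.ball_mem_nhds (0 : Cm p) one_pos] with b h1 h2 h3 h4 h5 h0 u hu hS
  have k1 := h1 h0 u hu hS
  have k2 := h2 (h4 h0) fun _ => by
    rw [h3.2]
    exact pow_ne_zero _ h0
  have h6 : ‖b B.i₀‖ ≤ 1 := (norm_le_pi_norm b _).trans (mem_ball_zero_iff.1 h5).le
  have h7 := norm_pos_iff.2 h0
  rw [Fintype.prod_unique, h3.2, zpow_natCast, norm_pow, ← pow_mul] at k2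
  have h8 : B.A * B.b m ≤ B.om m n + m * (B.A - 1) :=
    (Nat.mul_div_le _ _).trans (by rw [Bx.om]; omega)
  have k3 := le_trans (mul_le_mul_of_nonneg_left (pow_le_pow_of_le_one h7.le h6 h8)
    (norm_nonneg _)) k2
  rw [zpow_zero, mul_one, le_div_iff₀ (by positivity)]
  refine le_trans (le_of_eq ?_) (mul_le_mul (pow_le_pow_left₀ (by positivity) k3 k) k1
    (by positivity) (pow_nonneg (le_trans (by positivity) k3) k))
  simp only [norm_mul, norm_pow]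
  ring

end Vale.Agent.P281Z.Gt
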