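import Vale.Agent.P281Z.Gt.SkB
import Vale.Agent.P277Z.Lo.Base

/-!
# P281Z, block III, part B: the row ALGF (the algebra of forms)
-/

open scoped Manifold ContDiff Topology ENNReal Matrix
open Set Filter
open Vale.Agent.P272.K Vale.Agent.P285.H281.FD
open Vale.Agent.P277Z (Hol Mer Nz gen hol_const gen_of_nhds)
open Vale.Agent.P277Z.Lo (mer_of_hol mer_congr mer_add mer_mul)
open Vale.Agent.P277Z.Slc (LEq ForW)

noncomputable section

namespace Vale.Agent.P281Z.Gt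

namespace Al

section mer

variable {d : ℕ} {T : Type} [TopologicalSpace T] [ChartedSpace (Cm d) T]
  [IsManifold 𝓘(ℂ, Cm d) ω T] {t : T}

theorem mer_prod {ι : Type} (s : Finset ι) {f : ι → T → ℂ} (h : ∀ i ∈ s, Mer d (f i) t) :
    Mer d (fun y => ∏ i ∈ s, f i y) t := by
  classical
  induction s using Finset.induction_on with
  | empty => simpa using mer_of_hol (hol_const 1 t)
  | insert a s ha ih =>
    simp only [Finset.prod_insert ha]
    exact mer_mul (h a (Finset.mem_insert_self _ _))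
      (ih fun i hi => h i (Finset.mem_insert_of_mem hi))

theorem mer_sum {ι : Type} (s : Finset ι) {f : ι → T → ℂ} (h : ∀ i ∈ s, Mer d (f i) t) :
    Mer d (fun y => ∑ i ∈ s, f i y) t := by
  classical
  induction s using Finset.induction_on with
  | empty => simpa using mer_of_hol (hol_const 0 t)
  | insert a s ha ih =>
    simp only [Finset.sum_insert ha]
    exact mer_add (h a (Finset.mem_insert_self _ _))
      (ih fun i hi => h i (Finset.mem_insert_of_mem hi))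

theorem mer_pow {f : T → ℂ} (h : Mer d f t) (j : ℕ) : Mer d (fun y => f y ^ j) t := by
  simpa using mer_prod (Finset.range j) fun _ _ => h

/-- the preimage of the complement of an analytic set is generic -/
theorem gen_pre {m : ℕ} {X : Type} [TopologicalSpace X] [ChartedSpace (Cm m) X]
    [IsManifold 𝓘(ℂ, Cm m) ω X] {S : Set X} (hS : An m S) {g : T → X} (hg : HolA d m g t)
    (h : ∃ᶠ s in 𝓝 t, g s ∉ S) : ∀ᶠ s in gen {t}, g s ∉ S := by
  obtain ⟨k, u, h1, h2⟩ := hS (g t)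
  have h3 := hg.cont.eventually h2
  obtain ⟨i, hi⟩ : ∃ i, Nz (fun s => u i (g s)) t := by
    by_contra h4
    simp only [not_exists, Nz, not_not] at h4
    obtain ⟨s, k1, k2, k3⟩ := (h.and_eventually (h3.and (eventually_all.2 h4))).exists
    exact k1 (k2.2 k3)
  filter_upwards [hi.gen (hg.hol (h1 i)), gen_of_nhds h3] with s k1 k2 k3 using k1 (k2.1 k3 i)

end mer

variable {p a : ℕ} {M : Fb (p + a) p} {C : NS M} {n n' k k' : ℕ}

section tm

variable {d : ℕ} {T : Type} [TopologicalSpace T] [ChartedSpace (Cm d) T] {t : T}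
  {γ : T → Pt M n}

theorem tm_sel (h : Tm d γ t) (σ : Fin n' → Fin n) : Tm d (fun s => sel σ (γ s)) t :=
  ⟨h.b, fun j => h.x (σ j), h.fp.mono fun _ hs j => hs (σ j)⟩

theorem tm_near (h : Tm d γ t) (ht : γ t ∈ C.N n) : ∀ᶠ s in 𝓝 t, γ s ∈ C.N n := by
  filter_upwards [h.fp, h.b.cont.eventually (C.thinQ.closed.isOpen_compl.mem_nhds ht.2.1),
    eventually_all.2 fun j => (h.x j).cont.eventually
      (C.thinS.closed.isOpen_compl.mem_nhds (ht.2.2 j))] with s h1 h2 h3 using ⟨h1, h2, h3⟩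

theorem tm_gen [IsManifold 𝓘(ℂ, Cm d) ω T] (h : Tm d γ t) (ht : ∃ᶠ s in 𝓝 t, γ s ∈ C.N n) :
    ∀ᶠ s in gen {t}, γ s ∈ C.N n := by
  filter_upwards [gen_of_nhds h.fp, gen_pre C.thinQ.an h.b (ht.mono fun _ hs => hs.2.1),
    eventually_all.2 fun j => gen_pre C.thinS.an (h.x j) (ht.mono fun _ hs => hs.2.2 j)]
    with s h1 h2 h3 using ⟨h1, h2, h3⟩

end tm

theorem sel_mem {q : Pt M n} (h : q ∈ C.N n) (σ : Fin n' → Fin n) : sel σ q ∈ C.N n' :=
  ⟨fun j => h.1 (σ j), h.2.1, fun j => h.2.2 (σ j)⟩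

theorem sel_cont (σ : Fin n' → Fin n) : Continuous (sel (M := M) σ) :=
  continuous_fst.prodMk (continuous_pi fun j => (continuous_apply (σ j)).comp continuous_snd)

theorem holT_sel {F : Pt M n' → ℂ} {q : Pt M n} {σ : Fin n' → Fin n} (h : HolT F (sel σ q)) :
    HolT (fun q => F (sel σ q)) q :=
  fun d T _ _ _ _ _ _ t h1 h2 => h d T _ t (tm_sel h1 σ) (congrArg _ h2)

theorem holT_base {g : M.Y.X → ℂ} {q : Pt M n} (h : Hol p g q.1) : HolT (fun q => g q.1) q :=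
  fun _ _ _ _ _ _ _ _ _ h1 h2 => h1.b.hol (a := g) (by rw [h2]; exact h)

variable (C) in
/-- the weight -/
def om (e : Chart (p + a) M.X.X) (e' : Chart p M.Y.X) (ζ : M.κ → M.X.X → ℂ) (x : M.X.X) : ℝ :=
  ‖jdw C.w e e' x‖ * ∏ l, ‖ζ l x‖ ^ (M.δ l : ℝ)

theorem om_nn (e : Chart (p + a) M.X.X) (e' : Chart p M.Y.X) (ζ : M.κ → M.X.X → ℂ) (x : M.X.X) :
    0 ≤ om C e e' ζ x := mul_nonneg (norm_nonneg _)
      (Finset.prod_nonneg fun _ _ => Real.rpow_nonneg (norm_nonneg _) _)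

theorem bq_iff {F : Pt M n → ℂ} {l : Filter (Pt M n)} {q : Pt M n} : C.Bq k F l q ↔
    ∀ (e : Fin n → Chart (p + a) M.X.X) (e' : Chart p M.Y.X) (ζ : Fin n → M.κ → M.X.X → ℂ),
      (∀ j, At (e j) (q.2 j)) → At e' q.1 → (∀ j l, LEq (p + a) (M.G l) (q.2 j) (ζ j l)) →
      ∃ K : ℝ, ∀ᶠ q' in l, q' ∈ C.N n → (∀ j, q'.2 j ∈ off M.G) →
        ‖F q'‖ * (∏ j, om C (e j) e' (ζ j) (q'.2 j)) ^ k ≤ K := by
  have h : ∀ (x δ : ℝ), 0 ≤ x → x ^ ((k : ℝ) * δ) = (x ^ δ) ^ k := fun x δ hx => by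
    rw [mul_comm, Real.rpow_mul hx, Real.rpow_natCast]
  simp only [NS.Bq, om, h _ _ (norm_nonneg _), Finset.prod_pow, ← mul_pow]

theorem bq_mul {F F' : Pt M n → ℂ} {l : Filter (Pt M n)} {q : Pt M n} (h : C.Bq k F l q)
    (h' : C.Bq k' F' l q) : C.Bq (k + k') (fun q => F q * F' q) l q := by
  rw [bq_iff] at h h' ⊢
  intro e e' ζ h1 h2 h3
  obtain ⟨K, h4⟩ := h e e' ζ h1 h2 h3
  obtain ⟨K', h5⟩ := h' e e' ζ h1 h2 h3
  refine ⟨K * K', ?_⟩
  filter_upwards [h4, h5] with q' m1 m2 m3 m4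
  have h6 : 0 ≤ ∏ j, om C (e j) e' (ζ j) (q'.2 j) := Finset.prod_nonneg fun _ _ => om_nn _ _ _ _
  rw [norm_mul, pow_add, mul_mul_mul_comm]
  exact mul_le_mul (m1 m3 m4) (m2 m3 m4) (by positivity) (le_trans (by positivity) (m1 m3 m4))

theorem bq_pow {F : Pt M n → ℂ} {l : Filter (Pt M n)} {q : Pt M n} (h : C.Bq k F l q) (j : ℕ) :
    C.Bq (k * j) (fun q => F q ^ j) l q := by
  rw [bq_iff] at h ⊢
  intro e e' ζ h1 h2 h3
  obtain ⟨K, h4⟩ := h e e' ζ h1 h2 h3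
  refine ⟨K ^ j, ?_⟩
  filter_upwards [h4] with q' m1 m3 m4
  have h6 : 0 ≤ ∏ j, om C (e j) e' (ζ j) (q'.2 j) := Finset.prod_nonneg fun _ _ => om_nn _ _ _ _
  rw [norm_pow, pow_mul, ← mul_pow]
  exact pow_le_pow_left₀ (by positivity) (m1 m3 m4) j

theorem bq_cont {g : M.Y.X → ℂ} {q : Pt M n} (h : ContinuousAt g q.1) :
    C.Bq 0 (fun q => g q.1) (𝓝 q) q := by
  rw [bq_iff]
  intro e e' ζ _ _ _
  refine ⟨‖g q.1‖ + 1, ?_⟩
  filter_upwards [(h.comp continuousAt_fst).norm.eventually (gt_mem_nhds (lt_add_one _))]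
    with q' m1 _ _
  rw [pow_zero, mul_one]
  exact m1.le

theorem bq_sum {Γ : Type} [Fintype Γ] (c : Γ → ℂ) {F : Γ → Pt M n → ℂ} {l : Filter (Pt M n)}
    {q : Pt M n} (h : ∀ g, C.Bq k (F g) l q) : C.Bq k (fun q => ∑ g, c g * F g q) l q := by
  simp only [bq_iff] at h ⊢
  intro e e' ζ h1 h2 h3
  choose K h4 using fun g => h g e e' ζ h1 h2 h3
  refine ⟨∑ g, ‖c g‖ * K g, ?_⟩
  filter_upwards [eventually_all.2 h4] with q' m1 m3 m4
  have h6 : 0 ≤ ∏ j, om C (e j) e' (ζ j) (q'.2 j) := Finset.prod_nonneg fun _ _ => om_nn _ _ _ _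
  refine (mul_le_mul_of_nonneg_right (norm_sum_le _ _) (by positivity)).trans ?_
  rw [Finset.sum_mul]
  refine Finset.sum_le_sum fun g _ => ?_
  rw [norm_mul, mul_assoc]
  exact mul_le_mul_of_nonneg_left (m1 g m3 m4) (norm_nonneg _)

theorem bq_sel {ι : Type} [Fintype ι] {σ : ι → Fin n' → Fin n}
    (hσ : ∀ φ : Fin n → ℝ, ∏ j, φ j = ∏ i, ∏ j, φ (σ i j)) {R : ι → Pt M n' → ℂ} {q : Pt M n}
    (h : ∀ i, C.Bq k (R i) (𝓝 (sel (σ i) q)) (sel (σ i) q)) :
    C.Bq k (fun q => ∏ i, R i (sel (σ i) q)) (𝓝 q) q := by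
  simp only [bq_iff] at h ⊢
  intro e e' ζ h1 h2 h3
  choose K h4 using fun i => h i (fun j => e (σ i j)) e' (fun j => ζ (σ i j)) (fun j => h1 _) h2
    fun j => h3 _
  refine ⟨∏ i, K i, ?_⟩
  filter_upwards [eventually_all.2 fun i => (sel_cont (σ i)).continuousAt.eventually (h4 i)]
    with q' m1 m3 m4
  rw [hσ, norm_prod, ← Finset.prod_pow, ← Finset.prod_mul_distrib]
  exact Finset.prod_le_prod (fun i _ => mul_nonneg (norm_nonneg _)
    (pow_nonneg (Finset.prod_nonneg fun _ _ => om_nn _ _ _ _) _)) fun i _ =>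
      m1 i (sel_mem m3 _) fun j => m4 _

theorem rf_sel {ι : Type} [Fintype ι] {σ : ι → Fin n' → Fin n}
    (hσ : ∀ φ : Fin n → ℝ, ∏ j, φ j = ∏ i, ∏ j, φ (σ i j)) {R : ι → Pt M n' → ℂ}
    (h : ∀ i, C.RF k (R i)) : C.RF k fun q : Pt M n => ∏ i, R i (sel (σ i) q) :=
  ⟨fun _ hq d T _ _ _ _ _ γ t h1 h2 => Hol.prod _ fun i _ =>
      holT_sel ((h i).hol _ (sel_mem hq _)) d T γ t h1 h2,
    fun d T _ _ _ _ _ _ t h1 h2 => mer_prod _ fun i _ =>
      (h i).mer d T _ t (tm_sel h1 _) (h2.mono fun _ hs => sel_mem hs _),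
    fun _ h1 h2 => bq_sel hσ fun i => (h i).bs _ (fun _ => h1 _) h2⟩

theorem af_sel {F : Chart p M.Y.X → Pt M n → ℂ} (h : C.AF k F) (σ : Equiv.Perm (Fin n)) :
    C.AF k fun e q => F e (sel σ q) := by
  refine ⟨⟨fun e q hq he => holT_sel (h.hol e _ (sel_mem hq _) he),
    fun e e₁ q hq he he₁ => h.chg e e₁ _ (sel_mem hq _) he he₁⟩,
    fun d T _ _ _ _ _ _ t h1 h2 e he => h.mer d T _ t (tm_sel h1 _)
      (h2.mono fun _ hs => sel_mem hs _) e he, fun q h1 h2 e he => ?_⟩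
  have h3 := bq_sel (ι := Unit) (σ := fun _ => σ) (R := fun _ => F e) (q := q)
    (fun φ => by simp only [Fintype.prod_unique, Equiv.prod_comp])
    fun _ => h.bs (sel σ q) (fun _ => h1 _) h2 e he
  simpa only [Fintype.prod_unique] using h3

/-- multiplication by a function on the base -/
theorem af_base (hT : MERT) {β : Chart p M.Y.X → M.Y.X → ℂ} {F : Chart p M.Y.X → Pt M n → ℂ}
    (h1 : ∀ e y, At e y → y ∉ C.Q → Hol p (β e) y) (h2 : ∀ e y, At e y → Mer p (β e) y)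
    (hol : ∀ e', ∀ q ∈ C.N n, At e' q.1 → HolT (F e') q)
    (mer : ForW fun d T _ _ => ∀ (γ : T → Pt M n) (t : T), Tm d γ t →
      (∃ᶠ s in 𝓝 t, γ s ∈ C.N n) → ∀ e', At e' (γ t).1 → Mer d (fun s => F e' (γ s)) t)
    (bs : ∀ q, Fp q → q.1 ∉ C.Q → ∀ e', At e' q.1 → C.Bq k (F e') (𝓝 q) q)
    (chg : ∀ e' e₁, ∀ q ∈ C.N n, At e' q.1 → At e₁ q.1 →
      β e' q.1 * F e' q = (jacM e' e₁ q.1).det ^ k * (β e₁ q.1 * F e₁ q)) :
    C.AF k fun e q => β e q.1 * F e q :=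
  ⟨⟨fun e q hq he d T _ _ _ _ _ γ t m1 m2 => (holT_base (h1 e _ he hq.2.1) d T γ t m1 m2).mul
      (hol e q hq he d T γ t m1 m2), chg⟩,
    fun d T _ _ _ _ _ γ t m1 m2 e he => mer_mul (hT p M.Y.X d T C.Q (β e) _ t (C.thinQ.an _)
      (h2 e _ he) ((at_near he).mono fun y hy => h1 e y hy) m1.b (m2.mono fun _ hs => hs.2.1))
      (mer d T γ t m1 m2 e he),
    fun q m1 m2 e he => by
      have h3 := bq_mul (bq_cont (h1 e _ he m2).cont) (bs q m1 m2 e he)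
      rwa [zero_add] at h3⟩

end Al

open Al

/-- **ALGF** -/
theorem algf (_ : CF) (hT : MERT) (hS : MSCF) : ALGF := by
  intro p a n M C hM
  refine ⟨fun k k' F F' h h' => ⟨⟨fun e q hq he d T _ _ _ _ _ γ t m1 m2 =>
      (h.hol e q hq he d T γ t m1 m2).mul (h'.hol e q hq he d T γ t m1 m2),
      fun e e₁ q hq he he₁ => ?_⟩, fun d T _ _ _ _ _ γ t m1 m2 e he =>
      mer_mul (h.mer d T γ t m1 m2 e he) (h'.mer d T γ t m1 m2 e he),
      fun q m1 m2 e he => bq_mul (h.bs q m1 m2 e he) (h'.bs q m1 m2 e he)⟩,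
    fun k j F h => ⟨⟨fun e q hq he d T _ _ _ _ _ γ t m1 m2 =>
      (h.hol e q hq he d T γ t m1 m2).pow j, fun e e₁ q hq he he₁ => ?_⟩,
      fun d T _ _ _ _ _ γ t m1 m2 e he => mer_pow (h.mer d T γ t m1 m2 e he) j,
      fun q m1 m2 e he => bq_pow (h.bs q m1 m2 e he) j⟩,
    fun k Γ _ c σ F h => ⟨⟨fun e q hq he d T _ _ _ _ _ γ t m1 m2 => Hol.sum _ fun g _ =>
      (hol_const _ _).mul ((af_sel h (σ g)).hol e q hq he d T γ t m1 m2),
      fun e e₁ q hq he he₁ => ?_⟩, fun d T _ _ _ _ _ γ t m1 m2 e he => mer_sum _ fun g _ =>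
      mer_mul (mer_of_hol (hol_const _ _)) ((af_sel h (σ g)).mer d T γ t m1 m2 e he),
      fun q m1 m2 e he => bq_sum c fun g => (af_sel h (σ g)).bs q m1 m2 e he⟩,
    fun k β R h h' => af_base hT (F := fun _ => R) h.hol h.mer (fun _ q hq _ => h'.hol q hq)
      (fun d T _ _ _ _ _ γ t m1 m2 _ _ => h'.mer d T γ t m1 m2) (fun q m1 m2 _ _ => h'.bs q m1 m2)
      fun e e₁ q hq he he₁ => by rw [h.chg e e₁ _ he he₁ hq.2.1, mul_assoc],
    fun k g F h h' => af_base hT (β := fun _ => g) (fun _ y _ hy => h.hol y hy)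
      (fun _ y _ => h.mer y) h'.hol h'.mer h'.bs
      fun e e₁ q hq he he₁ => by rw [h'.chg e e₁ q hq he he₁, mul_left_comm],
    fun k j R h => ⟨fun q hq d T _ _ _ _ _ γ t m1 m2 => (h.hol q hq d T γ t m1 m2).pow j,
      fun d T _ _ _ _ _ γ t m1 m2 => mer_pow (h.mer d T γ t m1 m2) j,
      fun q m1 m2 => bq_pow (h.bs q m1 m2) j⟩,
    fun k s R h => rf_sel (σ := fun g j => finProdFinEquiv (g, j)) (fun φ => by
      rw [← Equiv.prod_comp finProdFinEquiv, Fintype.prod_prod_type]) h,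
    fun k R h => rf_sel (σ := fun j _ => j) (fun φ => by simp only [Fintype.prod_unique]) h,
    fun k F F' h e => ⟨⟨fun c q hq hc d T _ _ _ _ _ γ t m1 m2 => ?_, fun c c₁ q hq hc hc₁ => ?_⟩,
      fun d T _ _ _ _ _ γ t m1 m2 c hc => ?_, fun q m1 m2 c hc => ?_⟩,
    fun k k' F F' h h' m m' ⟨W⟩ => ?_,
    fun k j β h => ⟨fun e y he hy => (h.hol e y he hy).pow j, fun e y he =>
      mer_pow (h.mer e y he) j, fun e e' y he he' hy => by
        rw [h.chg e e' y he he' hy, mul_pow, pow_mul]⟩,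
    fun k β g h h' => ⟨fun e y he hy => (h'.hol y hy).mul (h.hol e y he hy), fun e y he =>
      mer_mul (h'.mer y) (h.mer e y he), fun e e' y he he' hy => by
        rw [h.chg e e' y he he' hy, mul_left_comm]⟩⟩
  · rw [h.chg e e₁ q hq he he₁, h'.chg e e₁ q hq he he₁, pow_add, mul_mul_mul_comm]
  · rw [h.chg e e₁ q hq he he₁, mul_pow, pow_mul]
  · rw [Finset.mul_sum]
    exact Finset.sum_congr rfl fun g _ => by
      rw [(af_sel h (σ g)).chg e e₁ q hq he he₁, mul_left_comm]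
  · subst m2
    refine (h.hol c _ hq hc d T γ t m1 rfl).congr ?_
    filter_upwards [tm_near m1 hq, m1.b.cont.eventually (at_near hc)] with s r1 r2
      using (e _ r1 c r2).symm
  · rw [e q hq c hc, e q hq c₁ hc₁, h.chg c c₁ q hq hc hc₁]
  · refine mer_congr (h.mer d T γ t m1 m2 c hc) ?_
    filter_upwards [tm_gen m1 m2, gen_of_nhds (m1.b.cont.eventually (at_near hc))] with s r1 r2
      using (e _ r1 c r2).symm
  · intro b b' ζ r1 r2 r3
    obtain ⟨K, r4⟩ := h.bs q m1 m2 c hc b b' ζ r1 r2 r3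
    refine ⟨K, ?_⟩
    filter_upwards [r4, continuousAt_fst.eventually (at_near hc)] with q' s1 s2 s3 s4
    rw [e q' s3 c s2]
    exact s1 s3 s4
  · have := W.conn
    obtain ⟨v, hv⟩ := (((hS p a n M C hM W k F h).2 m).union
      ((hS p a n M C hM W k' F' h').2 m')).dense.nonempty
    simp only [mem_compl_iff, mem_union, mem_ofPred_eq, not_or, not_not] at hv
    exact ⟨W.γ v, hv.1.1, _, P277Z.at_chart _, mul_ne_zero hv.1.2 hv.2.2⟩

end Vale.Agent.P281Z.Gt
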