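import Vale.Agent.P281Z.Mf.Mod
import Vale.Agent.P281Z.Mf.Fib
import Vale.Agent.P281Z.Pb.Defs
import Vale.Agent.P281Z.Nt.Sk

/-!
# P281Z, block III (fibres of log general type): definitions
-/

open scoped Manifold ContDiff Topology ENNReal Matrix
open Set Filter MeasureTheory
open Vale.Agent.P272.K Vale.Agent.P285.H281.FD
open Vale.Agent.P277Z (Hol Mer Nz gen jd)
open Vale.Agent.P277Z.Slc (lin Ind LEq Snc ForW)
open Vale.Agent.P277.HD (pull)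

noncomputable section

namespace Vale.Agent.P281Z

/-- homogeneous coordinates of a point -/
def PS.hx {r : ℕ} (S : PS r) (q : S.P.X) : Cm (r + 1) := S.x (S.lb.cover q).choose q

/-- affine coordinates of a point -/
def PS.aff {r : ℕ} (S : PS r) (q : S.P.X) : Cm r := fun j => S.hx q j.succ / S.hx q 0

/-- the distance to the hyperplane at infinity -/
def PS.hw {r : ℕ} (S : PS r) (q : S.P.X) : ℝ := ‖S.hx q 0‖ / ‖S.hx q‖

namespace Gt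

/-! ### meromorphic objects, local integrability -/

section one

variable (n : ℕ) {X : Type} [TopologicalSpace X] [ChartedSpace (Cm n) X]

/-- a meromorphic function which is holomorphic off `S` -/
structure Mr (S : Set X) (g : X → ℂ) : Prop where
  hol : ∀ x ∉ S, Hol n g x
  mer : ∀ x, Mer n g x

/-- a meromorphic section of `L` which is holomorphic off `S` -/
structure MS (S : Set X) (L : Bd X) (s : L.ι → X → ℂ) : Prop where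
  hol : ∀ a, ∀ x ∈ L.U a, x ∉ S → Hol n (s a) x
  chg : ∀ a b, ∀ x ∈ L.U a, x ∈ L.U b → x ∉ S → s a x = L.g a b x * s b x
  mer : ∀ a, ∀ x ∈ L.U a, Mer n (s a) x

/-- the density `u` is integrable near `x` -/
def LI (u : Chart n X → X → ℝ≥0∞) (x : X) : Prop :=
  ∀ e : Chart n X, At e x → ∃ U ∈ 𝓝 (e x), ∫⁻ z in U, u e (e.symm z) < ⊤

variable {n} in
/-- `|ξ|² |Θ|^(-2ε)` -/
def dens (ξ Θ : Chart n X → X → ℂ) (ε : ℝ) (e : Chart n X) (x : X) : ℝ≥0∞ :=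
  ‖ξ e x‖ₑ ^ (2 : ℝ) * ‖Θ e x‖ₑ ^ (-(2 * ε))

/-- the local integrability of `u` passes to `u'`, up to small powers of a function which vanishes
where `u` is not integrable -/
def Keep (u u' : Chart n X → X → ℝ≥0∞) : Prop :=
  ∀ x h, Hol n h x → (∀ᶠ y in 𝓝 x, h y ≠ 0 → LI n u y) →
    ∀ η : ℝ, 0 < η → LI n (fun e y => u' e y * ‖h y‖ₑ ^ η) x

/-- log canonical at `x` -/
def Lc (u : Chart n X → X → ℝ≥0∞) (x : X) : Prop :=
  ∃ h, Hol n h x ∧ Nz h x ∧ ∀ η : ℝ, 0 < η → LI n (fun e y => u e y * ‖h y‖ₑ ^ η) x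

end one

/-- **EXT1**: one step of the extension from the fibres of a map to a projective space -/
def EXT1 : Prop :=
  ∀ (n r M N : ℕ) (V : Mf n) (S : PS r) (φ : V.X → S.P.X) (ε : ℚ) (A : Set V.X)
    (ξ Θ : Chart n V.X → V.X → ℂ) (O : Set (Cm r)), ConnectedSpace V.X → V.Kah → HolM n r φ →
    (∃ v, S.hx (φ v) 0 ≠ 0) → 1 ≤ M → 0 ≤ ε → ε * N = M - 1 → Thin n A →
    MS n A ((Bd.can n V.X).pow M) ξ → MS n A ((Bd.can n V.X).pow N) Θ →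
    (∀ e v, At e v → v ∉ A → Θ e v ≠ 0) → IsOpen O →
    (∀ v, S.hx (φ v) 0 ≠ 0 → S.aff (φ v) ∈ O → Lc n (dens ξ Θ ε) v) →
    ∀ᵐ c : Cm r, c ∈ O → ∃ (ξ' : Chart n V.X → V.X → ℂ) (A' : Set V.X), A ⊆ A' ∧ Thin n A' ∧
      MS n A' ((Bd.can n V.X).pow M) ξ' ∧
      (∀ v, S.hx (φ v) 0 ≠ 0 → S.aff (φ v) = c → v ∈ closure {v' | φ v' = φ v ∧ v' ∉ A'} ∧
        (v ∉ A' → ∀ e, At e v → ξ' e v = ξ e v)) ∧
      Keep n (dens ξ Θ ε) fun e y =>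
        dens ξ' Θ ε e y * ENNReal.ofReal (S.hw (φ y)) ^ (2 * (r + 1) : ℕ)

/-! ### models -/

section fb

variable {n p : ℕ}

/-- the components with the coefficient one are vertical -/
def Vert (M : Fb n p) : Prop := ∀ l, M.δ l = 1 → ∃ S, Thin p S ∧ M.f '' M.G l ⊆ S

/-- `m Δ` is integral -/
def Itg (M : Fb n p) (m : ℕ) : Prop := ∀ l, ∃ z : ℕ, m * M.δ l = z

/-- `m (K + Δ)` has rank `a` on many fibres -/
def FibM (M : Fb n p) (d m a : ℕ) : Prop :=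
  Oft n p M.f d fun F i => KapM d n i (Bd.can d F.X) M.G (fun l => M.δ l) m a

/-- `Tau` with a fixed weight -/
def TauM (M : Fb n p) (m k : ℕ) : Prop :=
  ∃ (Q : Set M.Y.X) (τ : Fin (k + 1) → Chart p M.Y.X → M.Y.X → ℂ), Thin p Q ∧
    (∀ b, TB n p M.f M.G (fun l => m * M.δ l) m Q (τ b)) ∧ Rk p Qᶜ ((Bd.can p M.Y.X).pow m) τ

/-- the standing hypotheses -/
structure Std (M : Fb n p) (m : ℕ) : Prop where
  ok : M.Ok
  kahX : M.X.Kah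
  kahY : M.Y.Kah
  vert : Vert M
  itg : Itg M m
  two : 2 ≤ m

/-- a log model which is an isomorphism over the complement of `Q₁` -/
structure Mv (M₁ M : Fb n p) (u : M₁.X.X → M.X.X) (v : M₁.Y.X → M.Y.X) (Q₁ : Set M₁.Y.X) :
    Prop where
  sq : M₁.Sq M u v
  thin : Thin p Q₁
  imm : ∀ y ∉ Q₁, Imm p p v y ∧ ∀ x, M₁.f x = y → Imm n n u x

/-- sections of `N (K + Δ)` over the open set where `u` is a local isomorphism -/
def KapI (M₁ : Fb n p) {X : Type} [TopologicalSpace X] [ChartedSpace (Cm n) X] (u : M₁.X.X → X)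
    (j : ℕ) : Prop :=
  ∃ N, 0 < N ∧ ∃ s : Fin (j + 1) → Chart n M₁.X.X → M₁.X.X → ℂ,
    (∀ b, SecP n n id {x | Imm n n u x} ((Bd.can n M₁.X.X).pow N) M₁.G (fun l => N * M₁.δ l)
      (s b)) ∧ Rk n ({x | Imm n n u x} ∩ off M₁.G) ((Bd.can n M₁.X.X).pow N) s

/-- the direct image of `m (K + Δ)` is generically the vector bundle `E`, with the frames `s i` -/
structure SFR (M : Fb n p) (m ρ : ℕ) where
  E : VB ρ M.Y
  s : E.ι → Fin ρ → Chart n M.X.X → M.X.X → ℂ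
  S : Set M.Y.X
  thin : Thin p S
  reg : ∀ y ∉ S, RegAt n p M.f M.G y
  conn : ∀ y ∉ S, IsConnected (M.f ⁻¹' {y})
  sec : ∀ i α, SecP n n id (M.f ⁻¹' E.U i) ((Bd.can n M.X.X).pow m) M.G (fun l => m * M.δ l) (s i α)
  chg : ∀ i j e x, M.f x ∈ E.U i → M.f x ∈ E.U j → At e x → x ∈ off M.G →
    (fun α => s i α e x) = E.T i j (M.f x) *ᵥ fun α => s j α e x
  ind : ∀ i, ∀ y ∈ E.U i, y ∉ S → ∀ c : Fin ρ → ℂ,
    (∀ e x, M.f x = y → At e x → x ∈ off M.G → ∑ α, c α * s i α e x = 0) → c = 0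
  span : ∀ i, ∀ y ∈ E.U i, y ∉ S → ∀ (d : ℕ) (F : Mf d) (j : F.X → M.X.X),
    Emb d n j (M.f ⁻¹' {y}) → ∀ t, SecP d n j univ (pull j ((Bd.can n M.X.X).pow m)) M.G
      (fun l => m * M.δ l) t → ∃ c : Fin ρ → ℂ, ∀ x e, j x ∈ off M.G → At e (j x) →
        t e x = ∑ α, c α * s i α e (j x)

end fb

/-- **VBF**: the direct image becomes a vector bundle on a model -/
def VBF : Prop := ∀ (n p m : ℕ) (M : Fb n p), Std M m →
  ∃ (M₁ : Fb n p) (u : M₁.X.X → M.X.X) (v : M₁.Y.X → M.Y.X) (Q₁ : Set M₁.Y.X) (ρ : ℕ),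
    Std M₁ m ∧ Mv M₁ M u v Q₁ ∧ Nonempty (SFR M₁ m ρ)

/-- **BCV**: base change, an isomorphism over a big open set -/
def BCV : Prop := ∀ (n p m : ℕ) (M : Fb n p) (Y₁ : Mf p) (v : Y₁.X → M.Y.X) (B : Set M.Y.X),
  Std M m → Modif p v B → Y₁.Kah →
  ∃ (X₁ : Mf n) (f₁ : X₁.X → Y₁.X) (κ₁ : Type) (_ : Fintype κ₁) (G₁ : κ₁ → Set X₁.X) (δ₁ : κ₁ → ℚ)
    (u : X₁.X → M.X.X) (Q₁ : Set Y₁.X), Std ⟨X₁, Y₁, f₁, κ₁, G₁, δ₁⟩ m ∧
    Mv ⟨X₁, Y₁, f₁, κ₁, G₁, δ₁⟩ M u v Q₁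

/-- **MODM**: log models keep the weights -/
def MODM : Prop := ∀ (n p : ℕ) (M₁ M : Fb n p) u v, M.Ok → M₁.Ok → M₁.Sq M u v →
  ∀ m, (∀ d a, FibM M d m a → FibM M₁ d m a) ∧ ∀ k, TauM M m k → TauM M₁ m k

/-- **MODK**: no condition is needed along the exceptional divisors -/
def MODK : Prop := ∀ (n p : ℕ) (M₁ M : Fb n p) u v, M.Ok → M₁.Ok → M₁.Sq M u v →
  ∀ j, KapI M₁ u j → M.Kap j

/-! ### fibre powers, test maps -/

section pw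

variable {N p : ℕ} (M : Fb N p)

/-- a point of the base and `n` points of the total space -/
abbrev Pt (n : ℕ) : Type := M.Y.X × (Fin n → M.X.X)

variable {M} {n : ℕ}

/-- the fibre power -/
def Fp (q : Pt M n) : Prop := ∀ j, M.f (q.2 j) = q.1

/-- a germ of a holomorphic map to the fibre power -/
structure Tm (k : ℕ) {T : Type} [TopologicalSpace T] [ChartedSpace (Cm k) T] (γ : T → Pt M n)
    (t : T) : Prop where
  b : HolA k p (fun s => (γ s).1) t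
  x : ∀ j, HolA k N (fun s => (γ s).2 j) t
  fp : ∀ᶠ s in 𝓝 t, Fp (γ s)

/-- `F` is holomorphic at the point `q` of the fibre power -/
def HolT (F : Pt M n → ℂ) (q : Pt M n) : Prop :=
  ForW fun k T _ _ => ∀ (γ : T → Pt M n) (t : T), Tm k γ t → γ t = q → Hol k (fun s => F (γ s)) t

/-- `F` is meromorphic on the closure of `A` -/
def MerT (A : Set (Pt M n)) (F : Pt M n → ℂ) : Prop :=
  ForW fun k T _ _ => ∀ (γ : T → Pt M n) (t : T), Tm k γ t → (∃ᶠ s in 𝓝 t, γ s ∈ A) →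
    Mer k (fun s => F (γ s)) t

/-- a choice of slots -/
def sel {n' : ℕ} (σ : Fin n' → Fin n) (q : Pt M n) : Pt M n' := (q.1, fun j => q.2 (σ j))

/-- the slots of the group `g` -/
def grp {s : ℕ} (g : Fin s) (q : Pt M (s * n)) : Pt M n :=
  sel (fun j => finProdFinEquiv (g, j)) q

/-- the diagonal -/
def dg (n : ℕ) (x : M.X.X) : Pt M n := (M.f x, fun _ => x)

variable (M) in
/-- a compact Kähler model of the fibre power, an isomorphism over the complement of `Q` -/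
structure Pw (n K : ℕ) (Q : Set M.Y.X) : Type 1 where
  V : Mf K
  γ : V.X → Pt M n
  tm : ∀ v, Tm K γ v
  conn : ConnectedSpace V.X
  kah : V.Kah
  dense : Dense {v | (γ v).1 ∉ Q}
  bij : ∀ q, Fp q → q.1 ∉ Q → ∃! v, γ v = q
  lift : ForW fun k T _ _ => ∀ (g : T → Pt M n) (t : T), Tm k g t → (g t).1 ∉ Q →
    ∃ l : T → V.X, HolA k K l t ∧ ∀ᶠ s in 𝓝 t, γ (l s) = g s

end pw

/-! ### coordinates on the fibres -/

section ns

variable {p a : ℕ} {M : Fb (p + a) p}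

/-- the Jacobian determinant of `(f, w)` -/
def jdw (w : Fin a → M.X.X → ℂ) (e : Chart (p + a) M.X.X) (e' : Chart p M.Y.X) (x : M.X.X) : ℂ :=
  jd (Fin.append (fun c x => e' (M.f x) c) w) e x

variable (M) in
/-- meromorphic functions `w` which are coordinates on the fibres off `S` -/
structure NS where
  Q : Set M.Y.X
  S : Set M.X.X
  w : Fin a → M.X.X → ℂ
  thinQ : Thin p Q
  thinS : Thin (p + a) S
  reg : ∀ y ∉ Q, RegAt (p + a) p M.f M.G y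
  conn : ∀ y ∉ Q, IsConnected (M.f ⁻¹' {y})
  sub : ∀ x, M.f x ∈ Q → x ∈ S
  klt : ∀ l, M.δ l = 1 → ∀ x ∈ M.G l, M.f x ∈ Q
  offG : ∀ x ∉ S, x ∈ off M.G
  mr : ∀ i, Mr (p + a) S (w i)
  et : ∀ x ∉ S, ∀ e e', At e x → At e' (M.f x) → jdw w e e' x ≠ 0
  fib : ∀ x, M.f x ∉ Q → x ∈ closure {x' | M.f x' = M.f x ∧ x' ∉ S}

namespace NS

variable (C : NS M) {n : ℕ}

/-- the nice points of the fibre power -/
def N (n : ℕ) : Set (Pt M n) := {q | Fp q ∧ q.1 ∉ C.Q ∧ ∀ j, q.2 j ∉ C.S}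

/-- the integral over a fibre of the fibre power, in the coordinates `w` -/
def I (F : Pt M n → ℝ≥0∞) (y : M.Y.X) : ℝ≥0∞ :=
  ∫⁻ o : Fin n → Cm a, ∑' x : {x : Fin n → M.X.X //
    (y, x) ∈ C.N n ∧ ∀ j i, C.w i (x j) = o j i}, F (y, x.1)

/-- `F` is measurable on the nice points -/
def Ms (F : Pt M n → ℝ≥0∞) : Prop := @Measurable _ _ (borel _) _ ((C.N n).indicator F)

/-- the coordinates of the fibre power -/
def co (e' : Chart p M.Y.X) (q : Pt M n) : Cm (p + n * a) :=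
  Fin.append (e' q.1) fun k => C.w (finProdFinEquiv.symm k).2 (q.2 (finProdFinEquiv.symm k).1)

/-- the Jacobian determinant of the coordinates along `γ` -/
def jn {T : Type} [TopologicalSpace T] (e' : Chart p M.Y.X) (γ : T → Pt M n)
    (e : Chart (p + n * a) T) (t : T) : ℂ := jd (fun i s => C.co e' (γ s) i) e t

/-- the pull back by `γ` of the form `F (dy dw ... dw)^k` -/
def cf {T : Type} [TopologicalSpace T] (k : ℕ) (F : Chart p M.Y.X → Pt M n → ℂ) (γ : T → Pt M n)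
    (e : Chart (p + n * a) T) (t : T) : ℂ :=
  F (chartAt (Cm p) (γ t).1) (γ t) * C.jn (chartAt (Cm p) (γ t).1) γ e t ^ k

/-- a holomorphic `k`-form on the nice points -/
structure PF (k : ℕ) (F : Chart p M.Y.X → Pt M n → ℂ) : Prop where
  hol : ∀ e', ∀ q ∈ C.N n, At e' q.1 → HolT (F e') q
  chg : ∀ e' e₁, ∀ q ∈ C.N n, At e' q.1 → At e₁ q.1 → F e' q = (jacM e' e₁ q.1).det ^ k * F e₁ q

/-- `F (dw ... dw)^k` has poles at most `k Δ` near the point `q` -/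
def Bq (k : ℕ) (F : Pt M n → ℂ) (l : Filter (Pt M n)) (q : Pt M n) : Prop :=
  ∀ (e : Fin n → Chart (p + a) M.X.X) (e' : Chart p M.Y.X) (ζ : Fin n → M.κ → M.X.X → ℂ),
    (∀ j, At (e j) (q.2 j)) → At e' q.1 → (∀ j l, LEq (p + a) (M.G l) (q.2 j) (ζ j l)) →
    ∃ K : ℝ, ∀ᶠ q' in l, q' ∈ C.N n → (∀ j, q'.2 j ∈ off M.G) → ‖F q'‖ * ∏ j,
      (‖jdw C.w (e j) e' (q'.2 j)‖ ^ k * ∏ l, ‖ζ j l (q'.2 j)‖ ^ ((k : ℝ) * M.δ l)) ≤ K

/-- `F (dw ... dw)^k` has poles at most `k Δ` over the complement of `Q` -/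
def BS (k : ℕ) (F : Pt M n → ℂ) : Prop := ∀ q, Fp q → q.1 ∉ C.Q → C.Bq k F (𝓝 q) q

/-- a section of `k (K + Δ)` on the fibre over `y` -/
structure FS (k : ℕ) (y : M.Y.X) (g : M.X.X → ℂ) : Prop where
  hol : ForW fun d T _ _ => ∀ (γ : T → M.X.X) (t : T), HolA d (p + a) γ t →
    (∀ᶠ s in 𝓝 t, M.f (γ s) = y) → γ t ∉ C.S → Hol d (fun s => g (γ s)) t
  bd : ∀ x, M.f x = y →
    C.Bq k (fun q : Pt M 1 => g (q.2 0)) (𝓝 (dg 1 x) ⊓ 𝓟 {q | q.1 = y}) (dg 1 x)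

/-- a relative `k`-form with poles at most `k Δ` on the fibres, meromorphic everywhere -/
structure RF (k : ℕ) (F : Pt M n → ℂ) : Prop where
  hol : ∀ q ∈ C.N n, HolT F q
  mer : MerT (C.N n) F
  bs : C.BS k F

end NS

/-- the determinant of the `φ α (x β)` -/
def dt {X : Type} {ρ : ℕ} (φ : Fin ρ → X → ℂ) (x : Fin ρ → X) : ℂ :=
  (Matrix.of fun α β => φ α (x β)).det

/-- a holomorphic parametrization of a piece of the fibre over `y` by the polydisc of radius `r` -/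
structure Pc (y : M.Y.X) (r : ℝ) (ψ : Cm a → M.X.X) : Prop where
  hol : ∀ u ∈ Metric.ball (0 : Cm a) r, HolA a (p + a) ψ u
  fib : ∀ u ∈ Metric.ball (0 : Cm a) r, M.f (ψ u) = y
  off : ∀ u ∈ Metric.ball (0 : Cm a) r, ψ u ∈ off M.G
  imm : ∀ u ∈ Metric.ball (0 : Cm a) r, Imm a (p + a) ψ u
  inj : InjOn ψ (Metric.ball 0 r)

/-- the Jacobian determinant of `w ∘ ψ` -/
def jw {X : Type} (w : Fin a → X → ℂ) (ψ : Cm a → X) (u : Cm a) : ℂ :=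
  LinearMap.det (fderiv ℂ (fun u i => w i (ψ u)) u : Cm a →ₗ[ℂ] Cm a)

/-- `|F| ≤ K` on the piece `ψ`, in the coordinates of the piece -/
def NS.Le (C : NS M) {n : ℕ} (k : ℕ) (F : Pt M n → ℂ) (y : M.Y.X) (ψ : Cm a → M.X.X) (r K : ℝ) :
    Prop :=
  ∀ u : Fin n → Cm a, (∀ j, u j ∈ Metric.ball (0 : Cm a) r) → (∀ j, ψ (u j) ∉ C.S) →
    ‖F (y, fun j => ψ (u j))‖ * ∏ j, ‖jw C.w ψ (u j)‖ ^ k ≤ K

variable (M) in
/-- **algebraic data** -/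
structure AD (m : ℕ) extends NS M where
  v : ℕ
  z : Fin v → M.Y.X → ℂ
  ρ : ℕ
  c₀ : ℕ
  n₁ : ℕ
  k₁ : ℕ
  c₁ : ℕ
  i₁ : ℕ
  P : Pt M (c₀ * ρ) → ℂ
  B : Fin (v + 1) → Pt M n₁ → ℂ
  s : Fin (a + 1) → Pt M 1 → ℂ
  pos : 0 < ρ ∧ 0 < c₀ ∧ 0 < n₁ ∧ 0 < k₁ ∧ 0 < c₁ ∧ 0 < i₁
  cnt : c₁ * (c₀ * ρ) ≤ k₁ * n₁
  zmr : ∀ j, Mr p Q (z j)
  zind : ∃ y ∉ Q, Ind p z y
  rfP : toNS.RF m P
  rfB : ∀ j, toNS.RF (m * k₁) (B j)
  rfs : ∀ i, toNS.RF (m * i₁) (s i)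
  span : ∀ y ∉ Q, ∃ (φ : Fin ρ → M.X.X → ℂ) (θ : ℂ), θ ≠ 0 ∧
    (∀ g, toNS.FS m y g → ∃ c : Fin ρ → ℂ, ∀ x ∉ S, M.f x = y → g x = ∑ α, c α * φ α x) ∧
    (∃ x : Fin ρ → M.X.X, (y, x) ∈ toNS.N ρ ∧ dt φ x ≠ 0) ∧
    ∀ x, (y, x) ∈ toNS.N (c₀ * ρ) → P (y, x) = θ * ∏ g : Fin c₀, dt φ (grp g (y, x)).2
  rel : ∀ j, ∀ q ∈ toNS.N n₁, B (Fin.succ j) q = z j q.1 * B 0 q
  neB : ∃ q ∈ toNS.N n₁, B 0 q ≠ 0
  rat : ∀ i, ∀ q ∈ toNS.N 1, s (Fin.succ i) q = w i (q.2 0) * s 0 q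
  nes : ∀ q ∈ toNS.N 1, s 0 q ≠ 0
  blk : ∀ r r' : ℝ, 0 < r' → r' < r → ∃ A : ℝ, ∀ y ∉ Q, ∀ ψ, Pc y r ψ → ∀ K, 0 ≤ K →
    toNS.Le m P y ψ r K → ∀ j, toNS.Le (m * k₁) (B j) y ψ r' (A * K ^ c₁)

/-- `F` is locally a function of `z` and of the coordinates `w` -/
def AD.Fl {m : ℕ} (D : AD M m) {n : ℕ} (F : Pt M n → ℂ) : Prop :=
  ForW fun k T _ _ => ∀ (γ : T → Pt M n) (t : T), Tm k γ t → γ t ∈ D.N n →
    (∀ j, ∀ᶠ s in 𝓝 t, D.z j (γ s).1 = D.z j (γ t).1) →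
    (∀ j i, ∀ᶠ s in 𝓝 t, D.w i ((γ s).2 j) = D.w i ((γ t).2 j)) → ∀ᶠ s in 𝓝 t, F (γ s) = F (γ t)

/-- the data are flat along the fibres of `z` -/
structure AD.Flat {m : ℕ} (D : AD M m) : Prop where
  P : D.Fl D.P
  B : D.Fl (D.B 0)
  s : D.Fl (D.s 0)

variable (M) in
/-- **flat data** -/
structure FD (m : ℕ) extends AD M m where
  O : Set (Cm v)
  η : ℚ
  K : ℝ≥0∞
  zO : ∃ y ∉ Q, (fun j => z j y) ∈ O
  opn : IsOpen O
  bdd : Bornology.IsBounded O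
  eta : 0 < η ∧ 1 + η * (m * k₁) ≤ m * i₁
  fin : K < ⊤
  intP : ∀ y ∉ Q, (fun j => z j y) ∈ O →
    toNS.I (fun q => ‖P q‖ₑ ^ (2 / m : ℝ)) y ≤ K ∧ K⁻¹ ≤ toNS.I (fun q => ‖P q‖ₑ ^ (2 / m : ℝ)) y
  ints : ∀ y ∉ Q, (fun j => z j y) ∈ O → ∀ i,
    toNS.I (fun q => ‖s i q‖ₑ ^ (2 / (m * i₁) : ℝ)) y ≤ K
  intB : ∀ y ∉ Q, (fun j => z j y) ∈ O → ∀ κ : Fin n₁ → Fin (a + 1), toNS.I (fun q =>
    (∏ j, ‖s (κ j) (sel (fun _ => j) q)‖ₑ ^ (2 * (1 + η * (m * k₁)) / (m * i₁) : ℝ)) *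
      ‖B 0 q‖ₑ ^ (-(2 * η) : ℝ)) y ≤ K

end ns

/-- **PARTA**: the algebraic part of the construction of the flat data -/
def PARTA : Prop := ∀ (p a m ρ : ℕ) (M : Fb (p + a) p), Std M m → 0 < a → FibM M a m a →
  SFR M m ρ → ∃ D : AD M m, D.Flat

/-- **PARTI**: the integral bounds -/
def PARTI : Prop := ∀ (p a m : ℕ) (M : Fb (p + a) p) (D : AD M m), Std M m → D.Flat →
  Nonempty (FD M m)

end Gt

end Vale.Agent.P281Z
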