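import Vale.Agent.P281Z.Gt.Nmex
import Vale.Agent.P281Z.Nt.Bcv
import Vale.Agent.P281Z.Lf.Polar
import Vale.Agent.P281Z.Pb.Api

/-!
# P281Z, block III: the ideal of indeterminacy of meromorphic functions, neat models
-/

open scoped Manifold ContDiff Topology
open Set Filter
open Vale.Agent.P272.K
open Vale.Agent.P277Z (Hol Mer Nz gen gen_of_nhds at_chart)
open Vale.Agent.P277Z.Slc (Snc LEq)
open Vale.Agent.P281Z.Lf.Pol (mer_cop cop_unit bdd)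

noncomputable section

namespace Vale.Agent.P281Z.Gt

theorem midl {n r : ℕ} {V : Mf n} {Q : Set V.X} {z : Fin r → V.X → ℂ} (hz : ∀ i, Mr n Q (z i)) :
    ∃ J : Idl n V.X, J.Z ⊆ Q ∧ ∀ γ, ∃ e : Fin (r + 1) ≃ Fin (J.k γ), ∀ y ∈ J.U γ, y ∉ Q →
      ∃ c : ℂ, c ≠ 0 ∧ ∀ k, J.g γ (e k) y = c * (Fin.cons 1 fun i => z i y : Cm (r + 1)) k := by
  classical
  choose u v h using fun x i => mer_cop ((hz i).mer x)
  choose U h1 h2 h3 using fun x => eventually_nhds_iff.1 (eventually_all.2 (h x))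
  let G : V.X → Fin (r + 1) → V.X → ℂ := fun x =>
    Fin.cons (fun y => ∏ j, v x j y) fun i y => u x i y * ∏ j ∈ Finset.univ.erase i, v x j y
  have hG : ∀ x k, ∀ y ∈ U x, Hol n (G x k) y := fun x k y hy => Fin.cases
    (Hol.prod Finset.univ fun j _ => (h1 x y hy j).2.1) (fun i => (h1 x y hy i).1.mul
      (Hol.prod (Finset.univ.erase i) fun j _ => (h1 x y hy j).2.1)) k
  have hE : ∀ x y, (∀ i, z i y * v x i y = u x i y) → ∀ k,
      G x k y = (∏ j, v x j y) * (Fin.cons 1 fun i => z i y : Cm (r + 1)) k := fun x y e k => by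
    refine Fin.cases (mul_one _).symm (fun i => ?_) k
    show u x i y * _ = _ * z i y
    rw [← e i, ← Finset.mul_prod_erase _ _ (Finset.mem_univ i)]
    ring
  have key : ∀ x x' y, y ∈ U x → y ∈ U x' →
      ∃ C : ℝ, 0 < C ∧ ∀ᶠ w in 𝓝 y, ∑ k, ‖G x' k w‖ ≤ C * ∑ k, ‖G x k w‖ := fun x x' y a b => by
    have k1 : ∀ i, ∃ c, Hol n c y ∧ ∀ᶠ w in 𝓝 y, v x' i w = c w * v x i w := fun i =>
      (h1 x y a i).2.2.2.2 _ (h1 x' y b i).2.1 ⟨_, (h1 x' y b i).1,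
        ((h1 x' y b i).2.1.mul (h1 x y a i).1).eq_of_gen ((h1 x' y b i).1.mul (h1 x y a i).2.1) (by
          filter_upwards [(h1 x y a i).2.2.2.1, (h1 x' y b i).2.2.2.1] with w p q
          rw [← p, ← q]
          ring)⟩
    choose c k2 k3 using k1
    have hc := Hol.prod Finset.univ fun i _ => k2 i
    obtain ⟨C, hC, k4⟩ := bdd hc
    have k5 : ∀ k, ∀ᶠ w in 𝓝 y, G x' k w = (∏ i, c i w) * G x k w := fun k =>
      (hG x' k y b).eq_of_gen (hc.mul (hG x k y a)) (by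
        filter_upwards [eventually_all.2 fun i => (h1 x y a i).2.2.2.1,
          eventually_all.2 fun i => (h1 x' y b i).2.2.2.1, gen_of_nhds (eventually_all.2 k3)]
          with w p q t
        rw [hE x w p, hE x' w q, ← mul_assoc, ← Finset.prod_mul_distrib]
        simp only [t])
    refine ⟨C, hC, ?_⟩
    filter_upwards [k4, eventually_all.2 k5] with w p q
    rw [Finset.mul_sum]
    refine Finset.sum_le_sum fun k _ => ?_
    rw [q k, norm_mul]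
    exact mul_le_mul_of_nonneg_right p (norm_nonneg _)
  have k6 : ∀ x, ∀ y ∈ U x, y ∉ Q → ∃ c : ℂ, c ≠ 0 ∧
      ∀ k, G x k y = c * (Fin.cons 1 fun i => z i y : Cm (r + 1)) k := fun x y a b =>
    have t := fun i => cop_unit (h1 x y a i).1 (h1 x y a i).2.1 (h1 x y a i).2.2.2.2
      ((hz i).hol y b) (h1 x y a i).2.2.2.1
    ⟨_, Finset.prod_ne_zero_iff.2 fun i _ => (t i).1, hE x y fun i => (t i).2⟩
  refine ⟨⟨V.X, U, fun _ => r + 1, G, h2, fun x => ⟨x, h3 x⟩, hG, fun x x' y a b => ?_⟩,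
    fun y hy => by_contra fun k => ?_, fun x => ⟨Equiv.refl _, k6 x⟩⟩
  · obtain ⟨C, hC, k⟩ := key x x' y a b
    obtain ⟨C', hC', k'⟩ := key x' x y b a
    refine ⟨C + C', by positivity, ?_⟩
    filter_upwards [k, k'] with w p q
    exact ⟨q.trans (mul_le_mul_of_nonneg_right (by linarith) (by positivity)),
      p.trans (mul_le_mul_of_nonneg_right (by linarith) (by positivity))⟩
  · obtain ⟨c, c1, c2⟩ := k6 y y (h3 y) k
    exact c1 (by simpa using ((c2 0).symm.trans (hy y (h3 y) 0)))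

theorem mlift {n r : ℕ} {V : Mf n} {Q : Set V.X} {z : Fin r → V.X → ℂ} {J : Idl n V.X}
    {κ : Type} {E : κ → Set V.X} (R : Nt.Rl V E J) (hQ : Thin n Q) (S : PS r)
    (h : ∀ γ, ∃ e : Fin (r + 1) ≃ Fin (J.k γ), ∀ y ∈ J.U γ, y ∉ Q →
      ∃ c : ℂ, c ≠ 0 ∧ ∀ k, J.g γ (e k) y = c * (Fin.cons 1 fun i => z i y : Cm (r + 1)) k) :
    ∃ φ : R.V₁.X → S.P.X, HolM n r φ ∧
      ∀ y, R.w y ∉ Q → φ y = S.pt (Fin.cons 1 fun i => z i (R.w y)) := by
  have key : ∀ y : R.V₁.X, ∃ s : R.V₁.X → Cm (r + 1), ∀ᶠ y' in 𝓝 y,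
      HolA n r (fun t => S.pt (s t)) y' ∧
      (R.w y' ∉ Q → S.pt (s y') = S.pt (Fin.cons 1 fun i => z i (R.w y'))) := fun y => by
    obtain ⟨γ, hγ⟩ := J.cover (R.w y)
    obtain ⟨ζ, hζ, -⟩ := R.snc y
    obtain ⟨c, c1, ⟨k₀, c2⟩, c3⟩ := R.prin y γ hγ ζ hζ
    obtain ⟨e, he⟩ := h γ
    refine ⟨fun t k => c (e k) t, ?_⟩
    filter_upwards [eventually_all.2 fun k => (c1 k).near, (c1 k₀).ne_near c2, c3,
      R.md.hol.cont.continuousAt.eventually ((J.isOpen γ).mem_nhds hγ)] with t a1 a2 a3 a4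
    have h0 : (fun k => c (e k) t) ≠ 0 := fun k => a2 (by simpa using congrFun k (e.symm k₀))
    refine ⟨S.holA (fun k => a1 _) h0, fun k => ?_⟩
    obtain ⟨d, d1, d2⟩ := he _ a4 k
    have h1 : (Fin.cons 1 fun i => z i (R.w t) : Cm (r + 1)) ≠ 0 := fun k => by
      simpa using congrFun k 0
    refine ((S.pt_eq_iff h1 h0).2 ⟨(∏ l, ζ l t ^ R.e l) / d, funext fun j => ?_⟩).symm
    rw [Pi.smul_apply, smul_eq_mul, div_mul_eq_mul_div, mul_comm, ← a3, d2, mul_div_cancel_left₀ _ d1]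
  choose s hs using key
  refine ⟨fun y => S.pt (s y y), fun y => (hs y).self_of_nhds.1.cng ?_,
    fun y => (hs y).self_of_nhds.2⟩
  filter_upwards [(hs y).eventually_nhds] with t a
  refine tendsto_nhds_unique_of_frequently_eq a.self_of_nhds.1.cont (hs t).self_of_nhds.1.cont ?_
  exact (((R.md.pre_thin hQ).freq t).and_eventually (a.and (hs t))).mono fun w k =>
    (k.2.1.2 k.1).trans (k.2.2.2 k.1).symm

theorem nmex' (h1 : Nt.RESL) (h3 : GEN) (h4 : TRF) (h5 : Nt.NEATF) (h6 : Pb.PSEX) : NMEX := by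
  classical
  intro p a m M hM D
  obtain ⟨P⟩ := h6 D.v
  obtain ⟨J, j1, j2⟩ := midl D.zmr
  obtain ⟨R, X', f', κ', _, G', δ', u, hM', hv, -⟩ := Nt.bcv_idl h1 hM
    (Nt.snc_empty M.Y (Empty.elim : Empty → _)) J
    (D.thinQ.2.mono (compl_subset_compl.2 j1))
  obtain ⟨φ, k2, k4⟩ := mlift R D.thinQ P j2
  have k1 := R.md
  obtain ⟨Q₂, t2, r2⟩ := h3 _ p X' R.V₁ f' κ' G' hM'.ok.fibn.hol hM'.ok.snc
  choose S hS hS' using hM'.vert
  have tS : Thin p (⋃ l : {l // δ' l = 1}, S l.1 l.2) := Thin.iUnion fun l => hS l.1 l.2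
  have tQ := ((hv.thin.union (k1.pre_thin D.thinQ)).union t2).union tS
  obtain ⟨D', e', hD'⟩ := h4 p a m _ M u R.w _ D _ hM hM' hv tQ
    (fun y hy => ⟨fun k => hy (.inl (.inl (.inl k))), fun k => hy (.inl (.inl (.inr k))),
      r2 y fun k => hy (.inl (.inr k))⟩)
    fun l hl x hx => .inr (mem_iUnion.2 ⟨⟨l, hl⟩, hS' l hl ⟨x, hx, rfl⟩⟩)
  obtain ⟨S', φ', k5, k6⟩ := hD' P φ k2 fun y hy => k4 y fun k => hy (.inl (.inl (.inr k)))
  obtain ⟨M₁, u₁, v₁, r, E, a1, a2, a3, a4, -, -, a5, a6, a7, a8, a9, a10, a11, a12⟩ :=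
    h5 _ p _ _ hM'.ok tQ
  have hM₁ : Std M₁ m := ⟨a1, a3 hM'.kahX, a4 hM'.kahY, a12 hM'.vert, fun l => by
    rcases a6 l with k | k | ⟨l', k⟩ <;> rw [k]
    exacts [⟨m, mul_one _⟩, ⟨0, by simp⟩, hM'.itg l'], hM.two⟩
  have tE := snc_thin_off a7
  obtain ⟨B, hB⟩ := a2.mv
  obtain ⟨D₁, e₁, hD₁⟩ := h4 p a m M₁ _ u₁ v₁ (off E)ᶜ D' _ hM' hM₁
    ⟨a2, tE, fun y hy => ⟨(a9 y (not_not.1 hy)).2.1, (a9 y (not_not.1 hy)).2.2.2⟩⟩ tE
    (fun y hy => ⟨hy, e' ▸ (a9 y (not_not.1 hy)).1, (a9 y (not_not.1 hy)).2.2.1⟩)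
    fun l hl x hx k => by
      obtain ⟨T, t1, t2⟩ := hM₁.vert l hl
      obtain ⟨z, z1, z2⟩ := ((t1.freq _).and_eventually
        (Nmex.img (a9 _ k).2.2.1 a1.fibn.hol a1.snc hx)).exists
      exact z1 (t2 z2)
  obtain ⟨S₁, φ₁, k7, k8⟩ := hD₁ S' (fun y => φ' (v₁ y)) (k5.comp hB.hol)
    fun y hy => k6 _ (a9 y (not_not.1 hy)).1
  exact ⟨_, ⟨M₁, hM₁, D₁, S₁, φ₁, k7, e₁ ▸ k8, r, E, a7, a8, fun y => by rw [e₁]; exact not_not,
    fun x hx => by rw [e₁]; exact not_not.2 (a10 x hx), a5⟩, hM'.ok, ⟨u, R.w, hv.sq⟩, u₁, v₁, a2,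
    fun x hx l hl => (a11 l).resolve_left fun k => k.1 x hl hx⟩

end Vale.Agent.P281Z.Gt
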