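import Vale.Agent.P281Z.Gt.SkB
import Vale.Agent.P281Z.Sc.L2
import Vale.Agent.P281Z.Md.Tr

/-!
# P281Z, block III: the poles of a form on the base
-/

open scoped Manifold ContDiff Topology ENNReal Matrix
open Set Filter Function
open Vale.Agent.P272.K Vale.Agent.P285.H281.FD
open Vale.Agent.P277Z (Hol Mer Nz gen at_chart gen_of_nhds)
open Vale.Agent.P277Z.Slc (Ind LEq Snc isLB_can)
open Vale.Agent.P281Z.Md (Bnd bnd_cont Gn Ca ca_of mn dv)

set_option linter.unusedSectionVars false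

noncomputable section

namespace Vale.Agent.P281Z.Gt

namespace Tb

theorem unif {X : Type} [TopologicalSpace X] [CompactSpace X] {P : ℕ → X → Prop}
    (mono : ∀ K K' x, K ≤ K' → P K x → P K' x) (h : ∀ x, ∃ K, ∀ᶠ y in 𝓝 x, P K y) :
    ∃ K, ∀ x, P K x := by
  choose K hK using h
  obtain ⟨t, ht⟩ := CompactSpace.elim_nhds_subcover (fun x => {y | P (K x) y}) hK
  refine ⟨t.sup K, fun x => ?_⟩
  obtain ⟨y, hy, k⟩ := mem_iUnion₂.1 (ht.ge (mem_univ x))
  exact mono _ _ _ (Finset.le_sup hy) k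

theorem mnr_pw {p : ℕ} (i₀ : Fin p) (A : ℕ) (b : Cm p) :
    Md.mnr (fun z : Cm p => update z i₀ (z i₀ ^ A)) id b = A * b i₀ ^ (A - 1) := by
  have hd : HasFDerivAt (fun z : Cm p => update z i₀ (z i₀ ^ A)) (ContinuousLinearMap.pi fun a =>
      update (fun _ => (1 : ℂ)) i₀ (A * b i₀ ^ (A - 1)) a •
        (ContinuousLinearMap.proj a : Cm p →L[ℂ] ℂ)) b := by
    refine hasFDerivAt_pi.2 fun a => ?_
    by_cases h : a = i₀
    · subst h
      simpa using (hasFDerivAt_apply (𝕜 := ℂ) a b).pow A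
    · simpa [h] using hasFDerivAt_apply (𝕜 := ℂ) a b
  have e : (Matrix.of fun a c : Fin p => fderiv ℂ (fun z : Cm p => update z i₀ (z i₀ ^ A)) b
      (Pi.single c 1) a) = .diagonal (update (fun _ => 1) i₀ (A * b i₀ ^ (A - 1))) := by
    ext a c
    simp [hd.fderiv, Matrix.diagonal_apply, Pi.single_apply]
  exact (congrArg _ e).trans (by simp [Finset.prod_update_of_mem])

theorem dens_le {m : ℕ} (hm : 2 ≤ m) (a : ℂ) :
    ‖a‖ₑ ^ (2 : ℝ) * ‖a ^ (m - 1)‖ₑ ^ (-(2 * (1 / m)) : ℝ) ≤ ‖a‖ₑ ^ (2 / m : ℝ) := by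
  by_cases h : a = 0
  · simp [h]
  have h0 : (m : ℝ) ≠ 0 := by positivity
  rw [enorm_pow, ← ENNReal.rpow_natCast, ← ENNReal.rpow_mul,
    ← ENNReal.rpow_add _ _ (by simpa using h) enorm_ne_top, Nat.cast_sub (by omega)]
  exact le_of_eq (congrArg _ (by field_simp; ring))

variable {n : ℕ} {X : Type} [TopologicalSpace X] [ChartedSpace (Cm n) X]
  [IsManifold 𝓘(ℂ, Cm n) ω X] {x : X} {D : Set X}

theorem leq_co {E : Type} [NormedAddCommGroup E] [NormedSpace ℂ E] {Θ : OpenPartialHomeomorph X E}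
    (h : Co n Θ) (hx : x ∈ Θ.source) (L : E →L[ℂ] ℂ) (hL : L ≠ 0)
    (hD : ∀ y ∈ Θ.source, y ∈ D ↔ L (Θ y) = 0) : LEq n D x fun y => L (Θ y) := by
  refine ⟨(Θ.open_source.eventually_mem hx).mono fun y k => (hD y k).symm, fun e he => ?_⟩
  have an := (L.analyticAt _).fun_comp (h.an x hx e he)
  refine ⟨an, fun _ k => hL ?_⟩
  have h0 := Θ.left_inv hx
  have h1 := an.differentiableAt.hasFDerivAt
  rw [k, ← h0] at h1
  refine (((h1.comp (Θ x) (h.inv _ (Θ.map_source hx) e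
    (h0.symm ▸ he)).differentiableAt.hasFDerivAt).unique
      (L.hasFDerivAt.congr_of_eventuallyEq ?_)).symm.trans (ContinuousLinearMap.zero_comp _))
  filter_upwards [Θ.open_target.mem_nhds (Θ.map_source hx),
    (Θ.tendsto_symm hx).eventually (at_near he)] with u k1 k2
  rw [comp_apply, k2.left_inv, Θ.right_inv k1]

theorem floor1 {t u : X → ℂ} (ht : LEq n D x t) (hx : x ∈ D) (hu : ∀ᶠ z in 𝓝 x, z ∉ D → Hol n u z)
    {θ : ℝ} {b : ℕ} (hθ : θ < b + 1) (h : Bnd Dᶜ (fun z => ‖u z‖ * ‖t z‖ ^ θ) x) :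
    Bnd Dᶜ (fun z => ‖u z‖ * ‖t z‖ ^ b) x := by
  obtain ⟨C, hC⟩ := h
  have hG : Gn n Dᶜ x := ⟨t, ht.hol, leq_nz ht, ht.1.mono fun z k a b => a (k.2 b)⟩
  have hle : ∀ᶠ z in 𝓝 x, z ∈ Dᶜ → ‖u z * t z ^ (b + 1)‖ ≤ C * ‖t z‖ ^ (b + 1 - θ) := by
    filter_upwards [hC, ht.1] with z a k hz
    have h0 : 0 < ‖t z‖ := norm_pos_iff.2 fun e => hz (k.1 e)
    rw [norm_mul, norm_pow, ← Real.rpow_natCast, show ((b + 1 : ℕ) : ℝ) = θ + (b + 1 - θ) by simp,
      Real.rpow_add h0, ← mul_assoc]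
    exact mul_le_mul_of_nonneg_right (a hz) (by positivity)
  have hc : ∀ᶠ z in 𝓝 x, ContinuousAt (fun z => C * ‖t z‖ ^ (b + 1 - θ)) z :=
    ht.hol.near.mono fun z k => continuousAt_const.mul (k.cont.norm.rpow_const (.inr (by linarith)))
  obtain ⟨g, h1, h2⟩ := Md.riem (h := fun z => u z * t z ^ (b + 1)) hG
    ((hu.and ht.hol.near).mono fun z k a => (k.1 a).mul (k.2.pow _))
    ((bnd_cont (S := Dᶜ) hc.self_of_nhds).mono (hle.mono fun z k a => ⟨a, k a⟩))
  obtain ⟨c, h3, h4⟩ := Md.leq_red ht hx g h1 (by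
    filter_upwards [hG.freq', h1.near, hc, (h2.and hle).eventually_nhds] with z a1 a2 a3 a4 a5
    have : ‖g z‖ ≤ C * ‖t z‖ ^ (b + 1 - θ) := le_of_tendsto_of_tendsto_of_frequently a2.cont.norm a3
      ((a1.and_eventually a4).mono fun w k => (congrArg _ (k.2.1 k.1)).trans_le (k.2.2 k.1))
    rwa [a5, norm_zero, Real.zero_rpow (by linarith), mul_zero, norm_le_zero_iff] at this)
  refine (bnd_cont (S := Dᶜ) h3.cont.norm).mono ?_
  filter_upwards [h2, h4, ht.1] with z a1 a2 a3 hz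
  refine ⟨hz, le_of_eq ?_⟩
  rw [← norm_pow, ← norm_mul, mul_right_cancel₀ (fun e => hz (a3.1 e))
    (a2.symm.trans ((a1 hz).trans (by rw [pow_succ, ← mul_assoc])))]

section box

variable {p a m : ℕ} {M : Fb (p + a) p} {Q : Set M.Y.X} {l : M.κ} (B : Bx M Q l)
  {τ : Chart p M.Y.X → M.Y.X → ℂ} {e' : Chart p M.Y.X}

theorem eta0 : B.η (M.f B.x) = 0 := by
  rw [(B.map _ B.mem).2, B.zero]
  simp [B.pos.ne']

theorem memG : B.x ∈ M.G l := (B.div _ B.mem l).2 ⟨rfl, by rw [B.zero]; rfl⟩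

theorem memQ : M.f B.x ∈ Q := (B.base _ (B.map _ B.mem).1).2 (by rw [eta0]; rfl)

theorem leqY : LEq p Q (M.f B.x) fun y => B.η y B.i₀ :=
  leq_co B.coη (B.map _ B.mem).1 (.proj B.i₀)
    (fun k => by simpa using DFunLike.congr_fun k fun _ => 1) B.base

open Classical in
theorem leqX (l' : M.κ) :
    LEq (p + a) (M.G l') B.x fun y => if l' = l then (B.Θ y).1 B.i₀ else 1 := by
  by_cases h : l' = l
  · simp only [h, if_true]
    exact leq_co B.coΘ B.mem ((ContinuousLinearMap.proj B.i₀).comp (.fst ℂ _ _))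
      (fun k => by simpa using DFunLike.congr_fun k (fun _ => 1, 0))
      fun y k => by simpa using B.div y k l
  · simp only [h, if_false]
    exact ⟨(B.Θ.open_source.eventually_mem B.mem).mono fun y k => by simp [B.div y k, h],
      fun e he => ⟨analyticAt_const, fun k => absurd k one_ne_zero⟩⟩

theorem tgt0 : ∀ᶠ b in 𝓝 (0 : Cm p), (b, (0 : Cm a)) ∈ B.Θ.target :=
  (Continuous.prodMk_left _).continuousAt.eventually (B.Θ.open_target.mem_nhds
    (show (0 : Cm p × Cm a) ∈ _ from B.zero ▸ B.Θ.map_source B.mem))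

theorem bd_sec (hf : HolM (p + a) p M.f) {μ : ℕ} (hμ : (m * M.δ l : ℝ) = μ)
    (h : TB (p + a) p M.f M.G (fun l => m * M.δ l) m Q τ) (he' : At e' (M.f B.x)) :
    Bnd {b | b B.i₀ ≠ 0}
      (fun b => ‖τ e' (M.f (B.Θ.symm (b, 0)))‖ * ‖b B.i₀‖ ^ (m * (B.A - 1) + μ)) 0 := by
  classical
  have he := at_chart (n := p + a) B.x
  set e := chartAt (Cm (p + a)) B.x
  let s : Cm p → M.X.X := fun b => B.Θ.symm (b, 0)
  have s0 : s 0 = B.x := (congrArg B.Θ.symm B.zero.symm).trans (B.Θ.left_inv B.mem)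
  have ht := tgt0 B
  have hs : ∀ b, (b, (0 : Cm a)) ∈ B.Θ.target → HolA p (p + a) s b := fun b k =>
    B.coΘ.holA (F := fun b : Cm p => (b, (0 : Cm a))) (fun c hc => by
      rw [chartedSpaceSelf_atlas.1 hc.1]
      exact analyticAt_id.prod analyticAt_const) k
  have hs0 := hs 0 ht.self_of_nhds
  have c0 : ∀ b : Cm p, Ca (.refl (Cm p)) b := fun b =>
    ca_of ⟨chartedSpaceSelf_atlas.2 rfl, trivial⟩
  have cη : Ca B.η (M.f (s 0)) := s0 ▸ ⟨B.coη, (B.map _ B.mem).1⟩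
  rw [← s0] at he he'
  let N : (Fin p → Fin (p + a)) → Cm p → ℂ := fun I b =>
    ∏ c, dv (fun y => e (s y)) (.refl _) b (Pi.single c 1) (I c)
  have hN : ∀ I, ContinuousAt (N I) 0 := fun I => tendsto_finsetProd _ fun c _ =>
    (continuous_apply (I c)).continuousAt.comp
      ((Md.dv_cont (c0 0) (hs0.anV he)).clm_apply continuousAt_const)
  let J : Cm p → ℂ := fun b => mn e' B.η id (M.f (s b)) * B.A
  have hJ : ContinuousAt J 0 := ((Md.hol_mn cη (anV_chart he') id).cont.comp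
    (f := fun b => M.f (s b)) (hf.cont.continuousAt.comp hs0.cont)).mul continuousAt_const
  have hJ0 : J 0 ≠ 0 := mul_ne_zero (Md.mn_ne_iff.2 (B.coη.inj (B.η.map_source cη.2)
    ((B.η.left_inv cη.2).symm ▸ he'))) (Nat.cast_ne_zero.2 B.pos.ne')
  have h1 : ∀ I, Bnd {b | b B.i₀ ≠ 0} (fun b => ‖τ e' (M.f (s b))‖ *
      ‖minor M.f e e' I (s b)‖ ^ m * ‖b B.i₀‖ ^ μ * ‖N I b‖ ^ m) 0 := fun I => by
    refine Md.Bnd.mul ?_ (bnd_cont ((hN I).norm.pow m)) (fun _ => by positivity)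
      fun _ => by positivity
    obtain ⟨C, hC⟩ := h.bd _ e e' he he' _ (s0 ▸ leqX B) I
    refine ⟨C, ?_⟩
    filter_upwards [hs0.cont.eventually hC, ht] with b k1 k2 hb
    have k3 := B.Θ.map_target k2
    have k4 := B.Θ.right_inv k2
    have := k1 (fun q => hb ?_) fun l' q => hb ?_
    · rwa [Finset.prod_eq_single l (fun l' _ q => by simp [q]) (by simp), if_pos rfl, k4, hμ,
        Real.rpow_natCast] at this
    · have := (B.base _ (B.map _ k3).1).1 q
      rw [(B.map _ k3).2, k4, update_self] at this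
      exact (pow_eq_zero_iff B.pos.ne').1 this
    · simpa [k4] using ((B.div _ k3 l').1 q).2
  have : Nonempty (Fin p → Fin (p + a)) := ⟨Fin.castAdd a⟩
  refine ((Md.Bnd.sum h1).mul (bnd_cont (F := fun b =>
    (Fintype.card (Fin p → Fin (p + a)) : ℝ) ^ m * (‖J b‖ ^ m)⁻¹) (continuousAt_const.mul
      ((hJ.norm.pow m).inv₀ (pow_ne_zero _ (norm_ne_zero_iff.2 hJ0)))))
    (fun _ => by positivity) fun _ => by positivity).mono ?_
  filter_upwards [ht.eventually_nhds, hJ.eventually_ne hJ0, hs0.cont.eventually (at_near he),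
    (hf.cont.continuousAt.comp hs0.cont).eventually ((at_near he').and cη.near)]
    with b k1 k2 k3 k4 hb
  refine ⟨hb, ?_⟩
  have hb := hs b k1.self_of_nhds
  have e1 : J b * b B.i₀ ^ (B.A - 1) = ∑ I, N I b * minor M.f e e' I (s b) := by
    refine Eq.trans ?_ (Md.mn_comp (F := fun z => e' (M.f z)) (c0 b) (ca_of k3) hb
      ((hf.at _).anV k4.1) id)
    rw [Md.mn_left (f := fun b => M.f (s b)) (c0 b) k4.2 ((hf.at _).cmp hb) (anV_chart k4.1),
      Md.mn_congr (F' := fun z => update z B.i₀ (z B.i₀ ^ B.A)) (c0 b) (k1.mono fun z k => by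
        rw [(B.map _ (B.Θ.map_target k)).2, B.Θ.right_inv k]), mul_assoc]
    exact congrArg _ (mnr_pw _ _ _).symm
  have e2 : (‖J b‖ * ‖b B.i₀‖ ^ (B.A - 1)) ^ m ≤ (Fintype.card (Fin p → Fin (p + a)) : ℝ) ^ m *
      ∑ I, ‖N I b * minor M.f e e' I (s b)‖ ^ m := by
    rw [← norm_pow, ← norm_mul, e1]
    exact (pow_le_pow_left₀ (norm_nonneg _) (norm_sum_le _ _) m).trans
      (Md.pow_sum_le _ (fun _ => norm_nonneg _) m)
  have e3 : 0 < ‖J b‖ ^ m := pow_pos (norm_pos_iff.2 k2) m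
  rw [← mul_assoc, le_mul_inv_iff₀ e3]
  refine le_trans (le_of_eq ?_) ((mul_le_mul_of_nonneg_left e2 (show 0 ≤ ‖τ e' (M.f (s b))‖ *
    ‖b B.i₀‖ ^ μ by positivity)).trans_eq ?_)
  · ring
  · simp only [Finset.mul_sum, Finset.sum_mul, norm_mul]
    exact Finset.sum_congr rfl fun I _ => by ring

theorem bb (hf : HolM (p + a) p M.f) (hi : Itg M m)
    (h : TB (p + a) p M.f M.G (fun l => m * M.δ l) m Q τ) (he' : At e' (M.f B.x)) :
    Bnd Qᶜ (fun y => ‖τ e' y‖ * ‖B.η y B.i₀‖ ^ B.b m) (M.f B.x) := by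
  obtain ⟨μ, hμ⟩ := hi l
  have hA : (0 : ℝ) < B.A := Nat.cast_pos.2 B.pos
  have hy := (B.map _ B.mem).1
  let r : M.Y.X → Cm p := fun y => update (B.η y) B.i₀ (B.η y B.i₀ ^ (B.A⁻¹ : ℂ))
  have r0 : r (M.f B.x) = 0 := by simp [r, eta0, B.pos.ne']
  have hr : ContinuousAt r (M.f B.x) := (B.η.continuousAt hy).update _
    ((Complex.continuousAt_cpow_const_of_re_pos (.inl (by simp [eta0])) (by simpa using B.pos)).comp
      (f := fun y => B.η y B.i₀) (leqY B).hol.cont)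
  have hp : ∀ y, r y B.i₀ ^ B.A = B.η y B.i₀ := fun y => by
    simp only [r, update_self, Complex.cpow_nat_inv_pow _ B.pos.ne']
  refine floor1 (θ := (m * (B.A - 1) + μ : ℕ) / B.A) (leqY B) (memQ B)
    ((at_near he').mono fun y k => h.hol e' y k) ?_
    (((r0 ▸ bd_sec B hf (μ := μ) (by exact_mod_cast hμ) h he').comp hr).mono ?_)
  · rw [div_lt_iff₀' hA, Bx.b, hμ, Nat.floor_natCast]
    exact_mod_cast Nat.lt_mul_div_succ _ B.pos
  filter_upwards [hr.eventually (r0 ▸ tgt0 B), B.η.open_source.mem_nhds hy] with y k1 k2 k3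
  refine ⟨fun q => k3 ((B.base y k2).2 (by rw [← hp, q, zero_pow B.pos.ne'])), le_of_eq ?_⟩
  have k4 := B.map _ (B.Θ.map_target k1)
  rw [B.η.injOn k4.1 k2 (by rw [k4.2, B.Θ.right_inv k1, hp]; simp [r]), ← hp, norm_pow,
    ← Real.rpow_natCast, ← Real.rpow_mul (norm_nonneg _), mul_div_cancel₀ _ hA.ne',
    Real.rpow_natCast]

theorem b_le (hδ : M.δ l ≤ 1) : B.b m ≤ m := by
  refine Nat.div_le_of_le_mul ?_
  have : ⌊m * M.δ l⌋₊ ≤ m := Nat.floor_le_of_le (mul_le_of_le_one_right (Nat.cast_nonneg _) hδ)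
  obtain ⟨A, hA⟩ := Nat.exists_eq_add_one_of_ne_zero B.pos.ne'
  rw [hA, Nat.add_sub_cancel, add_mul, one_mul, mul_comm A]
  omega

end box

theorem bdP_all (h1 : ONTO) (h2 : BOX) (h3 : GROW) {p a m : ℕ} (Z : Nm p a m)
    {τ : Chart p Z.M.Y.X → Z.M.Y.X → ℂ}
    (h : TB (p + a) p Z.M.f Z.M.G (fun l => m * Z.M.δ l) m Z.D.Q τ) {y : Z.M.Y.X}
    {e : Chart p Z.M.Y.X} (he : At e y) : BdP p id Z.E (fun _ => m) (τ e) y := by
  have hE := Hyp.of_snc Z.snc
  have hL := lb_pow (isLB_can (n := p) (W := Z.M.Y.X)) m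
  have := Z.std.ok.connY
  obtain ⟨K, hK⟩ := unif (P := fun K y => ∃ e, At e y ∧ BdP p id Z.E (fun _ => K) (τ e) y)
    (fun K K' y k => Exists.imp fun e q =>
      ⟨q.1, q.2.mono continuousAt_id fun _ _ => Nat.cast_le.2 k⟩) fun y => by
    have he := at_chart (n := p) y
    obtain ⟨ζ, hζ⟩ := hE y
    obtain ⟨K, g, k1, k2⟩ := h3 p _ _ (fun z => ∏ j, ζ j z) y (h.mer _ y he)
      (Hol.prod _ fun j _ => (hζ j).hol) (fun q => (hE.freq y) <| by
        filter_upwards [q, off_iff hζ] with z a b c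
          using Finset.prod_ne_zero_iff.2 (fun j _ => b.1 c j) a) (by
        filter_upwards [at_near he, off_iff hζ] with z a b c using h.hol _ z a
          ((Z.memQ z).2 (b.2 fun j => Finset.prod_ne_zero_iff.1 c j (Finset.mem_univ _))))
    have := bdP_of_ext (k := fun _ => K) (u := τ (chartAt _ y)) k1 hζ (by
      filter_upwards [k2, off_iff hζ] with z a b c
      rw [a (Finset.prod_ne_zero_iff.2 fun j _ => b.1 c j), mul_comm, ← Finset.prod_pow]
      rfl)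
    exact ⟨K, ((at_near he).and (this.near hE (.of_forall fun _ => continuousAt_id))).mono
      fun z k => ⟨_, k⟩⟩
  have hS : SecP p p id univ ((Bd.can p Z.M.Y.X).pow m) Z.E (fun _ => K) τ :=
    secP_of_loc hL isOpen_univ (fun a y _ ha hy => h.hol a y ha ((Z.memQ y).2 hy))
      (fun a b y _ ha hb hy => h.chg a b y ha hb ((Z.memQ y).2 hy)) fun y _ => hK y
  by_cases h0 : ∃ x, x ∈ off Z.E ∧ NZ ((Bd.can p Z.M.Y.X).pow m) τ x
  swap
  · refine bdP_zero.congr ((at_near he).mono fun z k q => not_not.1 fun r => h0 ⟨z, q, ?_⟩)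
    exact (hS.nz_iff hL trivial q k).2 r
  obtain ⟨k, hk⟩ := hS.ord' Z.snc hL (fun j => (Z.connE j).2) h0
  refine (hk e y he).bdP hE fun j _ => ?_
  obtain ⟨l, l1, l2⟩ := h1 p a m Z j
  obtain ⟨x, hx⟩ := (Z.connG l).1
  obtain ⟨B, -⟩ := h2 p a m Z l l1 (fun x q => not_not.1 fun r => (Z.memQ _).1 r j (l2 x q)) x hx
    univ univ_mem
  have hc := at_chart (n := p) (Z.M.f B.x)
  obtain ⟨ζ, hζ⟩ := hE (Z.M.f B.x)
  obtain ⟨c, c1, c2⟩ := Md.leq_red (leqY B) (memQ B) (fun z => ∏ j, ζ j z)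
    (Hol.prod _ fun j _ => (hζ j).hol) (by
      filter_upwards [(leqY B).1, off_iff hζ] with z a b c using not_not.1 fun r =>
        (Z.memQ z).2 (b.2 fun j => Finset.prod_ne_zero_iff.1 r j (Finset.mem_univ _)) (a.1 c))
  obtain ⟨C, hC⟩ := (bb B Z.std.ok.fibn.hol Z.std.itg h hc).mul
    (bnd_cont (c1.cont.norm.pow (B.b m))) (fun _ => by positivity)
    fun _ => pow_nonneg (norm_nonneg _) _
  have := ((hk _ _ hc).bdP_iff (c := fun _ => B.b m) Z.snc).1 (bdP_of_one continuousAt_id hζ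
    (C := C) (by
      filter_upwards [hC, c2] with z a b q
      rw [Md.prod_const, id, b, norm_mul, mul_pow, mul_comm (_ ^ _), ← mul_assoc]
      exact a ((Z.memQ z).2 q))) j (l2 _ (memG B))
  exact this.trans (add_le_add_left (Nat.cast_le.2 (b_le B (Z.std.ok.bdry l).2)) _)

end Tb

open Tb in
theorem tbb (h1 : ONTO) (h2 : BOX) (h3 : GROW) : TBB := fun p a m Z τ h => by
  refine ⟨fun l B e he => (bb B Z.std.ok.fibn.hol Z.std.itg h he).imp fun C k => k.mono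
    fun y q r _ => by simpa using q r, fun y => ?_⟩
  have hE := Hyp.of_snc Z.snc
  obtain ⟨ζ, hζ⟩ := hE y
  have hm : (0 : ℝ) < m := Nat.cast_pos.2 (by have := Z.std.two; omega)
  refine ⟨fun z => ∏ j, ζ j z, Hol.prod _ fun j _ => (hζ j).hol, fun q => (hE.freq y) <| by
    filter_upwards [q, off_iff hζ] with z a b c
      using Finset.prod_ne_zero_iff.2 (fun j _ => b.1 c j) a, fun η hη e he => ?_⟩
  refine Li.at (φ := fun z => dens τ (fun e y => τ e y ^ (m - 1)) (1 / m) e z * ‖∏ j, ζ j z‖ₑ ^ η)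
    (((bdP_all h1 h2 h3 Z h he).li (r := 2 / m) (γ := fun _ => η) Z.snc hζ (by positivity)
      fun _ _ => by rw [div_mul_cancel₀ _ hm.ne']; linarith).mono ENNReal.one_ne_top
      (.of_forall fun z => ?_)) he
  rw [one_mul, ENNReal.prod_rpow_of_nonneg hη.le]
  exact mul_le_mul' (dens_le Z.std.two _) (le_of_eq (by simp [enorm]))

end Vale.Agent.P281Z.Gt
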