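import Vale.Agent.P281Z.Gt.TrfA

/-!
# P281Z, block III: flat data pass to a model
-/

open scoped Manifold ContDiff Topology ENNReal
open Set Filter Function MeasureTheory
open Vale.Agent.P272.K Vale.Agent.P285.H281.FD
open Vale.Agent.P277Z (Hol at_chart)
open Vale.Agent.P277Z.Slc (LEq Snc)

noncomputable section

namespace Vale.Agent.P281Z.Gt

namespace Trf.H

variable {p a n k : ℕ} {M₁ M : Fb (p + a) p} {C : NS M} {u : M₁.X.X → M.X.X}
  {v : M₁.Y.X → M.Y.X} {Q : Set M₁.Y.X} (h : H C u v Q) {y : M₁.Y.X} {q : Pt M₁ n}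
  {F : Pt M n → ℂ}

include h

theorem fp (hq : Fp q) : Fp (pl u v q) := fun j => (h.sq.comm _).trans (congrArg v (hq j))

theorem mem (hq : q ∈ h.ns.N n) : pl u v q ∈ C.N n :=
  ⟨h.fp hq.1, h.nQ _ hq.2.1, fun j c => hq.2.2 j (.inl c)⟩

theorem cont : Continuous (pl (n := n) u v) :=
  (h.hv.cont.comp continuous_fst).prodMk (continuous_pi fun j =>
    h.hu.cont.comp ((continuous_apply j).comp continuous_snd))

theorem tm {d : ℕ} {T : Type} [TopologicalSpace T] [ChartedSpace (Cm d) T] {γ : T → Pt M₁ n}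
    {t : T} (c : Tm d γ t) : Tm d (fun s => pl u v (γ s)) t :=
  ⟨(h.hv.at _).cmp c.b, fun j => (h.hu.at _).cmp (c.x j), c.fp.mono fun _ => h.fp⟩

theorem rf (hF : C.RF k F) : h.ns.RF k fun q => F (pl u v q) := by
  refine ⟨fun q hq d T _ _ _ _ _ γ t c e => hF.hol _ (h.mem hq) d T _ t (h.tm c) (congrArg _ e),
    fun d T _ _ _ _ _ γ t c e => hF.mer d T _ t (h.tm c) (e.mono fun _ => h.mem),
    fun q hq hQ e₁ e₁' ζ₁ he₁ he₁' hζ₁ => ?_⟩
  choose ζ hζ _ using fun j => h.ok.snc (u (q.2 j))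
  obtain ⟨K, hK⟩ := hF.bs _ (h.fp hq) (h.nQ _ hQ) (fun j => chartAt _ (u (q.2 j)))
    (chartAt _ (v q.1)) ζ (fun _ => at_chart _) (at_chart _) hζ
  choose c c0 hc using fun j => h.cmp (e' := chartAt _ (v q.1)) ((hq j).symm ▸ hQ) (he₁ j)
    ((hq j).symm ▸ he₁') (at_chart _) ((h.fp hq j).symm ▸ at_chart _) (hζ₁ j) (hζ j) k
  refine ⟨(∏ j, c j) * K, ?_⟩
  filter_upwards [h.cont.continuousAt.eventually hK, eventually_all.2 fun j =>
    ((continuous_apply j).comp continuous_snd).continuousAt.eventually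
      (eventually_inf_principal.1 (hc j))] with q' a1 a2 a3 a4
  refine le_trans ?_ (mul_le_mul_of_nonneg_left (a1 (h.mem a3) fun j => h.sq.log.sub _ (a4 j))
    (Finset.prod_nonneg fun j _ => (c0 j).le))
  rw [mul_left_comm, ← Finset.prod_mul_distrib]
  exact mul_le_mul_of_nonneg_left (Finset.prod_le_prod (fun _ _ => wt_nn) fun j _ =>
    (a2 j (a3.2.2 j)).2) (norm_nonneg _)

theorem fs {g : M₁.X.X → ℂ} (hy : y ∉ Q) (hg : h.ns.FS k y g) :
    ∃ g', C.FS k (v y) g' ∧ ∀ x ∉ h.ns.S, M₁.f x = y → g' (u x) = g x := by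
  obtain ⟨F, i, _, hi, hj, hD⟩ := h.fibre hy
  have h1 : ∀ z ∈ (i ⁻¹' bad C u Q)ᶜ, Hol a (fun z => g (i z)) z := fun z hz =>
    hg.hol a F.X i z (hi.hol.at z) (.of_forall hi.fib) hz
  have h2 : ∀ z e e' ζ, At e (u (i z)) → At e' (v y) →
      (∀ l, LEq (p + a) (M.G l) (u (i z)) (ζ l)) → Md.Bnd (i ⁻¹' bad C u Q)ᶜ
        (fun z => ‖g (i z)‖ * wt C.w k e e' ζ (u (i z))) z := fun z e e' ζ he he' hζ => by
    obtain ⟨ζ₁, hζ₁, -⟩ := h.ok₁.snc (i z)
    obtain ⟨K, hK⟩ := hg.bd _ (hi.fib z) (fun _ => chartAt _ (i z)) (chartAt _ (M₁.f (i z)))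
      (fun _ => ζ₁) (fun _ => at_chart _) (at_chart _) fun _ => hζ₁
    obtain ⟨c, c0, hc⟩ := h.cmp ((hi.fib z).symm ▸ hy) (at_chart _) (at_chart _) he
      ((hj.fib z).symm ▸ he') hζ₁ hζ k
    have h3 : Tendsto (fun z => dg (M := M₁) 1 (i z)) (𝓝 z) (𝓝 (dg 1 (i z)) ⊓ 𝓟 {q | q.1 = y}) :=
      tendsto_inf.2 ⟨((h.ok₁.fibn.hol.comp hi.hol).cont.prodMk (continuous_pi fun _ =>
        hi.hol.cont)).continuousAt, tendsto_principal.2 (.of_forall hi.fib)⟩
    refine ⟨c * K, ?_⟩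
    filter_upwards [h3.eventually hK, hi.hol.cont.continuousAt.eventually
      (eventually_inf_principal.1 hc)] with z' a1 a2 a3
    have a4 := a1 ⟨fun _ => rfl, fun d => a3 (.inr (.inl d)), fun _ => a3⟩ fun _ => h.ns.offG _ a3
    rw [Fin.prod_univ_one] at a4
    refine le_trans ?_ (mul_le_mul_of_nonneg_left a4 c0.le)
    rw [mul_left_comm]
    exact mul_le_mul_of_nonneg_left (a2 a3).1 (norm_nonneg _)
  have hG := Md.gn_of_thin hD
  have hO : ∀ z ∈ (i ⁻¹' bad C u Q)ᶜ, ∀ᶠ z' in 𝓝 z, z' ∈ (i ⁻¹' bad C u Q)ᶜ := fun z hz =>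
    hD.closed.isOpen_compl.mem_nhds hz
  let G := Md.ext (i ⁻¹' bad C u Q)ᶜ fun z => g (i z)
  have h3 : ∀ z ∈ (i ⁻¹' bad C u Q)ᶜ, G z = g (i z) := fun z hz =>
    Md.ext_eq (hG z).freq (h1 z hz).cont (.of_forall fun _ _ => rfl)
  have h4 : ∀ z, u (i z) ∉ C.S → Hol a G z := fun z hz => by
    obtain ⟨ζ, hζ, -⟩ := h.ok.snc (u (i z))
    obtain ⟨K, hK⟩ := h2 z _ _ ζ (at_chart _) (at_chart _) hζ
    obtain ⟨a1, a2⟩ := wt_cont h.ok C k (e' := chartAt _ (v y)) hz (at_chart _)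
      ((hj.fib z).symm ▸ at_chart _) hζ
    obtain ⟨G', b1, b2⟩ := Md.riem (hG z) (.of_forall h1) ⟨K / (_ / 2), by
      filter_upwards [hK, hj.hol.cont.continuousAt.eventually
        (a1.eventually_const_lt (half_lt_self a2))] with z' b1 b2 b3
      exact (le_div_iff₀ (half_pos a2)).2 ((mul_le_mul_of_nonneg_left b2.le
        (norm_nonneg _)).trans (b1 b3))⟩
    exact b1.congr (Md.ext_ev (hG z).freq' b1 b2)
  have h5 := leftInverse_invFun hj.inj
  refine ⟨fun x => G (invFun (fun z => u (i z)) x), ⟨fun d T _ _ _ _ _ γ t c1 c2 c3 => ?_,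
    fun x hx e e' ζ he he' hζ => ?_⟩, fun x c1 c2 => ?_⟩
  · have c4 := c2.mono fun s hs => invFun_eq (hj.ex hs)
    exact (hj.lift_at (c1.cng (c4.mono fun _ => Eq.symm))).hol
      (h4 _ (c4.self_of_nhds.symm ▸ c3))
  · obtain ⟨z, rfl⟩ := hj.ex hx
    have he'' : At e' (v y) := hj.fib z ▸ he'
    obtain ⟨K, hK⟩ := h2 z (e 0) e' (ζ 0) (he 0) he'' (hζ 0)
    have c1 : ∀ᶠ z' in 𝓝 z, u (i z') ∉ C.S → ‖G z'‖ * wt C.w k (e 0) e' (ζ 0) (u (i z')) ≤ K := by
      filter_upwards [hK.eventually_nhds, hj.hol.cont.continuousAt.eventually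
        ((at_near (he 0)).and (eventually_all.2 fun l => (hζ 0 l).near))] with z' b1 b2 b3
      exact mem_Iic.1 (isClosed_Iic.mem_of_frequently_of_tendsto
        (f := fun z => ‖G z‖ * wt C.w k (e 0) e' (ζ 0) (u (i z)))
        (((hG z').freq.and_eventually b1).mono fun w b => mem_Iic.2 ((h3 w b.1).symm ▸ b.2 b.1))
        ((h4 z' b3).cont.norm.mul (ContinuousAt.comp (f := fun z => u (i z))
          (wt_cont h.ok C k b3 b2.1 ((hj.fib z').symm ▸ he'') b2.2).1 hj.hol.cont.continuousAt)))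
    refine ⟨K, eventually_inf_principal.2 ?_⟩
    filter_upwards [((continuous_apply 0).comp continuous_snd).continuousAt.eventually
      (hj.ev.1 c1)] with q' b1 b2 b3 _
    obtain ⟨z', b4⟩ := hj.ex ((b3.1 0).trans b2)
    have b5 := b1 z' b4 (b4.symm ▸ b3.2.2 0)
    rw [Fin.prod_univ_one, ← b4, h5]
    exact b5
  · obtain ⟨z, rfl⟩ := hi.ex c2
    exact (congrArg G (h5 z)).trans (h3 z c1)

theorem ne_fib {q : Pt M n} (hq : q ∈ C.N n) (hF : HolT F q) (h0 : F q ≠ 0) (hy : y ∉ Q)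
    (e : q.1 = v y) : ∃ x, (y, x) ∈ h.ns.N n ∧ F (pl u v (y, x)) ≠ 0 := by
  choose x a1 a2 using fun j => h.lift hy ((hq.1 j).trans e)
  have h1 : x ∈ closure (pi univ fun _ => {x' | M₁.f x' = y ∧ x' ∉ h.ns.S}) := by
    rw [closure_pi_set]
    exact fun j _ => a2 j ▸ h.ns.fib _ ((a2 j).symm ▸ hy)
  have h2 : pl u v (y, x) = q := Prod.ext e.symm (funext a1)
  have h3 : Tendsto (fun x => pl u v (y, x)) (𝓝 x) (𝓝 q) :=
    h2 ▸ (h.cont.comp (Continuous.prodMk_right y)).continuousAt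
  obtain ⟨x', b1, b2⟩ := ((mem_closure_iff_frequently.1 h1).and_eventually (h3.eventually
    (eventually_nhdsWithin_iff.1 ((Gi.cont p a n M C F h.ok q hq hF).eventually_ne h0)))).exists
  have b3 : (y, x') ∈ h.ns.N n := ⟨fun j => (b1 j trivial).1, hy, fun j => (b1 j trivial).2⟩
  exact ⟨x', b3, b2 (h.mem b3)⟩

theorem ne_base (hF : ∀ q ∈ C.N n, HolT F q) (h0 : ∃ q ∈ C.N n, F q ≠ 0) :
    ∃ q ∈ h.ns.N n, F (pl u v q) ≠ 0 := by
  obtain ⟨q, hq, h0⟩ := h0
  choose s a1 a2 a3 using fun j => ((C.reg _ hq.2.1).sbm h.ok.fibn.hol h.ok.snc (hq.1 j)).sec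
    (h.ok.fibn.hol.at _)
  simp only [hq.1 _] at a1 a2 a3
  have h1 : (q.1, fun j => s j q.1) = q := Prod.ext rfl (funext a1)
  obtain ⟨y, hy, ⟨b1, b2⟩, b3, b4⟩ := h.base (((hF q hq p M.Y.X (fun y => (y, fun j => s j y)) q.1
    ⟨holM_id.at _, a2, eventually_all.2 a3⟩ h1).ne_near (h1.symm ▸ h0)).and
      (eventually_all.2 a3) |>.and ((C.thinQ.closed.isOpen_compl.eventually_mem hq.2.1).and
        (eventually_all.2 fun j => (a2 j).cont.eventually
          (C.thinS.closed.isOpen_compl.eventually_mem ((a1 j).symm ▸ hq.2.2 j)))))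
  obtain ⟨x, c⟩ := h.ne_fib (q := (v y, fun j => s j (v y))) ⟨b2, b3, b4⟩ (hF _ ⟨b2, b3, b4⟩) b1
    hy rfl
  exact ⟨_, c⟩

theorem pc {r : ℝ} {ψ : Cm a → M₁.X.X} (hy : y ∉ Q) (c : Pc y r ψ) :
    Pc (v y) r fun t => u (ψ t) :=
  ⟨fun t ht => (h.hu.at _).cmp (c.hol t ht), fun t ht => (h.sq.comm _).trans
    (congrArg v (c.fib t ht)), fun t ht => h.sq.log.sub _ (c.off t ht), fun t ht =>
    .comp (h.hu.at _) (c.hol t ht) (h.imu _ ((c.fib t ht).symm ▸ hy)) (c.imm t ht),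
    fun _ hs t ht e => c.inj hs ht (h.inj ((c.fib t ht).symm ▸ hy) e)⟩

theorem eqI (F : Pt M n → ℝ≥0∞) (hy : y ∉ Q) :
    h.ns.I (fun q => F (pl u v q)) y = C.I F (v y) := by
  obtain ⟨V, i, -, hi, hj, hD⟩ := h.fibre hy
  have h1 := null_img (D := {z | u (i z) ∉ C.S}) hD (W := fun z c => C.w c (u (i z)))
    fun z hz => .pi fun c => hj.hol.hol ((C.mr c).hol _ hz)
  refine lintegral_congr_ae ?_
  filter_upwards [ae_all_iff.2 fun j : Fin n => (Measure.tendsto_eval_ae_ae (i := j)).eventually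
    (measure_eq_zero_iff_ae_notMem.1 h1)] with o ho
  refine (Equiv.ofBijective (fun x : {x : Fin n → M₁.X.X // (y, x) ∈ h.ns.N n ∧
    ∀ j c, h.ns.w c (x j) = o j c} => (⟨fun j => u (x.1 j), h.mem x.2.1, x.2.2⟩ :
      {x : Fin n → M.X.X // (v y, x) ∈ C.N n ∧ ∀ j c, C.w c (x j) = o j c}))
    ⟨fun x x' e => Subtype.ext (funext fun j => h.inj ((x'.2.1.1 j).symm ▸ hy)
      (congrFun (congrArg Subtype.val e) j)), fun ⟨x, a1, a2⟩ => ?_⟩).tsum_eq
        fun x => F (v y, x.1)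
  choose z hz using fun j => (hj.ex (a1.1 j) : ∃ z, u (i z) = x j)
  have a3 : ∀ j c, C.w c (u (i (z j))) = o j c := fun j c => (congrArg (C.w c) (hz j)).trans (a2 j c)
  exact ⟨⟨fun j => i (z j), ⟨fun j => hi.fib _, hy, fun j c => ho j ⟨z j, ⟨c, show u (i (z j)) ∉ C.S
    from (hz j).symm ▸ a1.2.2 j⟩, funext (a3 j)⟩⟩, a3⟩, Subtype.ext (funext hz)⟩

end Trf.H

open Trf in
/-- **TRF** -/
theorem trf : TRF := by
  intro p a m M₁ M u v Q₁ D Q hM hM₁ hv hQ h1 h2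
  have h : H D.toNS u v Q := ⟨hM.ok, hM₁.ok, hv.sq, hQ, fun y c => (hv.imm y (h1 y c).1).1,
    fun x c => (hv.imm _ (h1 _ c).1).2 x rfl, fun y c => (h1 y c).2.1, fun y c => (h1 y c).2.2, h2⟩
  refine ⟨{ toNS := h.ns
            v := D.v
            z := fun j y => D.z j (v y)
            ρ := D.ρ
            c₀ := D.c₀
            n₁ := D.n₁
            k₁ := D.k₁
            c₁ := D.c₁
            i₁ := D.i₁
            P := fun q => D.P (pl u v q)
            B := fun j q => D.B j (pl u v q)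
            s := fun i q => D.s i (pl u v q)
            pos := D.pos
            cnt := D.cnt
            zmr := fun j => hv.sq.mv.elim fun _ c => mr_pull c (D.zmr j) h.nQ
            zind := ?_
            rfP := h.rf D.rfP
            rfB := fun j => h.rf (D.rfB j)
            rfs := fun i => h.rf (D.rfs i)
            span := fun y hy => ?_
            rel := fun j q c => D.rel j _ (h.mem c)
            neB := h.ne_base (D.rfB 0).hol D.neB
            rat := fun i q c => D.rat i _ (h.mem c)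
            nes := fun q c => D.nes _ (h.mem c)
            blk := fun r r' c1 c2 => (D.blk r r' c1 c2).imp fun A hA y hy ψ c K c3 c4 j t c5 c6 =>
              hA _ (h.nQ y hy) _ (h.pc hy c) K c3 (fun t d1 d2 => c4 t d1 fun j d => d.elim (d2 j)
                fun d => d.elim (fun d => hy (c.fib _ (d1 j) ▸ d)) fun d => d (c.off _ (d1 j)))
                j t c5 fun j d => c6 j (.inl d)
            O := D.O
            η := D.η
            K := D.K
            zO := ?_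
            opn := D.opn
            bdd := D.bdd
            eta := D.eta
            fin := D.fin
            intP := fun y hy c => (h.eqI _ hy ▸ D.intP _ (h.nQ y hy) c :)
            ints := fun y hy c i => (h.eqI _ hy ▸ D.ints _ (h.nQ y hy) c i :)
            intB := fun y hy c κ => (h.eqI _ hy ▸ D.intB _ (h.nQ y hy) c κ :) }, rfl,
    fun S φ c1 c2 => ⟨S, φ, c1, c2⟩⟩
  · obtain ⟨y₀, -, c⟩ := D.zind
    obtain ⟨y, hy, c⟩ := h.base c.near
    exact ⟨y, hy, (imm_iff_sbm.1 (h.imv y hy)).ind (h.hv.at y) c⟩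
  · obtain ⟨φ, θ, a1, a2, ⟨x, a3, a4⟩, a5⟩ := D.span _ (h.nQ y hy)
    refine ⟨fun α x => φ α (u x), θ, a1, fun g hg => ?_, ?_, fun x c => a5 _ (h.mem c)⟩
    · obtain ⟨g', b1, b2⟩ := h.fs hy hg
      exact (a2 g' b1).imp fun c hc x d1 d2 => (b2 x d1 d2).symm.trans
        (hc _ (fun d => d1 (.inl d)) ((h.sq.comm x).trans (congrArg v d2)))
    · have b1 : (v y, fun j => x (finProdFinEquiv.symm j).2) ∈ D.N (D.c₀ * D.ρ) :=
        ⟨fun _ => a3.1 _, a3.2.1, fun _ => a3.2.2 _⟩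
      obtain ⟨x', b2, b3⟩ := h.ne_fib b1 (D.rfP.hol _ b1) (by
        rw [a5 _ b1]
        refine mul_ne_zero a1 (Finset.prod_ne_zero_iff.2 fun g _ => ?_)
        simpa only [grp, sel, Equiv.symm_apply_apply] using a4) hy rfl
      rw [pl, a5 _ (h.mem b2)] at b3
      exact ⟨(grp ⟨0, D.pos.2.1⟩ (y, x')).2, ⟨fun _ => b2.1 _, hy, fun _ => b2.2.2 _⟩,
        Finset.prod_ne_zero_iff.1 (right_ne_zero_of_mul b3) ⟨0, D.pos.2.1⟩ (Finset.mem_univ _)⟩
  · obtain ⟨y₀, c1, c2⟩ := D.zO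
    exact h.base ((continuousAt_pi.2 fun j => ((D.zmr j).hol y₀ c1).cont).eventually_mem
      (D.opn.mem_nhds c2))

end Vale.Agent.P281Z.Gt
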