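import Vale.Agent.P281Z.Gt.AllB
import Vale.Agent.P281Z.Gt.Tbb
import Vale.Agent.P281Z.Gt.Midl
import Vale.Agent.P281Z.Gt.Trf
import Vale.Agent.P281Z.Gi.All
import Vale.Agent.P281Z.Pb.Ps
import Vale.Agent.P281Z.Nt.Neat
import Vale.Agent.P281Z.Md.All
import Vale.Agent.P281Z.Md.Gt
import Vale.Agent.P281Z.Vb.All

/-!
# P281Z, block III from the extension theorem and the algebraic data
-/

namespace Vale.Agent.P281Z.Gt

theorem iii_ext (hE : EXT1) (hA : PARTA) (h1 : PICK) (h2 : AZ) : III :=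
  iii_of h1 h2 (Vb.vbf rsR Nt.resl genR) hA Gi.parti
    (nmex' Nt.resl genR trf Nt.neatf Pb.psex) (partB hE (tbb onto box grow))
    (Md.modm_of remR genR) Md.modk (Md.model remR genR)

end Vale.Agent.P281Z.Gt
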