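import Vale.Agent.P281Z.Gt.Defs

/-!
# P281Z, block III: alternation (the algebra)
-/

open Function

noncomputable section

namespace Vale.Agent.P281Z.Gt.Al

variable {X I : Type} {ρ n : ℕ}

/-- interpolation, slot by slot -/
theorem interp {U : Set X} {ψ : Fin ρ → X → ℂ} {x₀ : Fin ρ → X} (h0 : ∀ b, x₀ b ∈ U) :
    ∀ (n : ℕ) (F : (Fin n → X) → ℂ),
      (∀ x, (∀ k, x k ∈ U) → ∀ k, F x = ∑ b, F (update x k (x₀ b)) * ψ b (x k)) →
      ∀ x, (∀ k, x k ∈ U) → F x = ∑ β : Fin n → Fin ρ, F (fun k => x₀ (β k)) * ∏ k, ψ (β k) (x k)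
  | 0, F, _, x, _ => by
    rw [Fintype.sum_unique, Fin.prod_univ_zero, mul_one]
    exact congrArg F (Subsingleton.elim _ _)
  | n + 1, F, h, x, hx => by
    rw [h x hx 0, ← (Fin.consEquiv fun _ => Fin ρ).sum_comp, Fintype.sum_prod_type]
    refine Finset.sum_congr rfl fun b _ => ?_
    have k := interp h0 n (fun x' => F (Fin.cons (x₀ b) x')) (fun x' hx' k => by
      simpa only [Fin.cons_update, Fin.cons_succ] using
        h (Fin.cons (x₀ b) x') (Fin.cases (h0 b) hx') k.succ) (Fin.tail x) fun k => hx k.succ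
    rw [← Fin.cons_self_tail x, Fin.update_cons_zero, k, Finset.sum_mul]
    refine Finset.sum_congr rfl fun β _ => ?_
    rw [Fin.prod_univ_succ]
    have e : (fun k => x₀ (Fin.consEquiv (fun _ => Fin ρ) (b, β) k)) =
        Fin.cons (x₀ b) fun k => x₀ (β k) := funext (Fin.cases rfl fun _ => rfl)
    rw [e]
    simp only [Fin.consEquiv_apply, Fin.cons_zero, Fin.cons_succ]
    ring

/-- a combination of the `φ α` is determined by its values at the dual points -/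
theorem dual {U : Set X} {φ : Fin ρ → X → ℂ} {x₀ : Fin ρ → X} (h0 : ∀ b, x₀ b ∈ U)
    (hd : dt φ x₀ ≠ 0) : ∃ B : Matrix (Fin ρ) (Fin ρ) ℂ, ∀ (g : X → ℂ) (c : Fin ρ → ℂ),
      (∀ u ∈ U, g u = ∑ α, c α * φ α u) → ∀ u ∈ U, g u = ∑ b, g (x₀ b) * ∑ α, B b α * φ α u := by
  refine ⟨(Matrix.of fun α β => φ α (x₀ β))⁻¹, fun g c h u hu => ?_⟩
  have k := Matrix.mul_nonsing_inv (Matrix.of fun α β => φ α (x₀ β)) (IsUnit.mk0 _ hd)
  have k1 : c = Matrix.vecMul (fun b => g (x₀ b)) (Matrix.of fun α β => φ α (x₀ β))⁻¹ := by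
    have e : (fun b => g (x₀ b)) = Matrix.vecMul c (Matrix.of fun α β => φ α (x₀ β)) :=
      funext fun b => h _ (h0 b)
    rw [e, Matrix.vecMul_vecMul, k, Matrix.vecMul_one]
  rw [h u hu]
  simp only [Finset.mul_sum, ← mul_assoc]
  rw [Finset.sum_comm]
  refine Finset.sum_congr rfl fun α _ => ?_
  rw [← Finset.sum_mul, k1]
  rfl

variable [Fintype I] [DecidableEq I] (ε : I × Fin ρ ≃ Fin n)

/-- the permutations inside the groups -/
def pm (τ : I → Equiv.Perm (Fin ρ)) : Equiv.Perm (Fin n) := ε.permCongr (Equiv.prodCongrRight τ)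

/-- the product of the signs -/
def sg (τ : I → Equiv.Perm (Fin ρ)) : ℂ := ∏ i, ((Equiv.Perm.sign (τ i) : ℤ) : ℂ)

/-- the product of the determinants -/
def pd (φ : Fin ρ → X → ℂ) (x : Fin n → X) : ℂ := ∏ i, dt φ fun j => x (ε (i, j))

omit [Fintype I] [DecidableEq I] in
theorem pm_app (τ : I → Equiv.Perm (Fin ρ)) (i : I) (j : Fin ρ) :
    pm ε τ (ε (i, j)) = ε (i, τ i j) := by simp [pm]

omit [DecidableEq I] in
theorem norm_sg (τ : I → Equiv.Perm (Fin ρ)) : ‖sg τ‖ = 1 := by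
  rw [sg, norm_prod]
  exact Finset.prod_eq_one fun i _ => by rcases Int.units_eq_one_or (τ i).sign with h | h <;> simp [h]

omit [DecidableEq I] in
theorem sg_pd (τ : I → Equiv.Perm (Fin ρ)) (φ : Fin ρ → X → ℂ) (x : Fin n → X) :
    sg τ * pd ε φ (fun k => x (pm ε τ k)) = pd ε φ x := by
  rw [sg, pd, pd, ← Finset.prod_mul_distrib]
  refine Finset.prod_congr rfl fun i _ => ?_
  have k := Matrix.det_permute' (τ i) (Matrix.of fun α β => φ α (x (ε (i, β))))
  simp only [pm_app]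
  refine (congrArg (_ * ·) k).trans ?_
  rw [← mul_assoc]
  rcases Int.units_eq_one_or (τ i).sign with h | h <;> simp [h, dt]

theorem alt_prod (ψ : Fin n → X → ℂ) (x : Fin n → X) :
    ∑ τ : I → Equiv.Perm (Fin ρ), sg τ * ∏ k, ψ k (x (pm ε τ k)) =
      ∏ i, (Matrix.of fun j j' => ψ (ε (i, j)) (x (ε (i, j')))).det := by
  simp only [← Matrix.det_transpose (Matrix.of _), Matrix.det_apply']
  rw [Finset.prod_univ_sum, Fintype.piFinset_univ]
  refine Finset.sum_congr rfl fun τ _ => ?_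
  rw [← ε.prod_comp, Fintype.prod_prod_type, sg, ← Finset.prod_mul_distrib]
  simp only [pm_app, Matrix.transpose_apply, Matrix.of_apply]

/-- the alternation is a multiple of the product of the determinants -/
theorem alt_eq {U : Set X} {φ : Fin ρ → X → ℂ} {x₀ : Fin ρ → X} (h0 : ∀ b, x₀ b ∈ U)
    (hd : dt φ x₀ ≠ 0) (F : (Fin n → X) → ℂ)
    (h : ∀ x, (∀ k, x k ∈ U) → ∀ k, ∃ c : Fin ρ → ℂ, ∀ u ∈ U, F (update x k u) = ∑ α, c α * φ α u) :
    ∃ a : ℂ, ∀ x, (∀ k, x k ∈ U) →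
      ∑ τ : I → Equiv.Perm (Fin ρ), sg τ * F (fun k => x (pm ε τ k)) = a * pd ε φ x := by
  obtain ⟨B, hB⟩ := dual h0 hd
  have k := interp (ψ := fun b u => ∑ α, B b α * φ α u) h0 n F fun x hx k => by
    obtain ⟨c, hc⟩ := h x hx k
    simpa only [update_eq_self] using hB _ c hc (x k) (hx k)
  refine ⟨∑ β : Fin n → Fin ρ, F (fun k => x₀ (β k)) *
    ∏ i, (B.submatrix (fun j => β (ε (i, j))) id).det, fun x hx => ?_⟩
  rw [Finset.sum_congr rfl fun τ _ => congrArg (sg τ * ·) (k _ fun k => hx (pm ε τ k))]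
  simp only [Finset.mul_sum (s := (Finset.univ : Finset (Fin n → Fin ρ))), Finset.sum_mul]
  rw [Finset.sum_comm]
  refine Finset.sum_congr rfl fun β _ => ?_
  simp only [mul_left_comm (sg _)]
  rw [← Finset.mul_sum, alt_prod ε (fun k u => ∑ α, B (β k) α * φ α u), mul_assoc, pd,
    ← Finset.prod_mul_distrib]
  refine congrArg _ (Finset.prod_congr rfl fun i _ => ?_)
  rw [dt, ← Matrix.det_mul]
  rfl

end Vale.Agent.P281Z.Gt.Al
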