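import Vale.Agent.P281Z.Gt.SkB
import Vale.Agent.P281Z.Gt.AltA
import Vale.Agent.P277Z.Lo.Base

/-!
# P281Z, block III: alternation
-/

open scoped Manifold ContDiff Topology
open Set Filter Function
open Vale.Agent.P272.K Vale.Agent.P285.H281.FD
open Vale.Agent.P277Z (Hol Mer Nz gen jd at_chart)
open Vale.Agent.P277Z.Slc (LEq Snc ForW)

noncomputable section

namespace Vale.Agent.P281Z.Gt

namespace Al

section ns

variable {p a n m : ℕ} {M : Fb (p + a) p} {C : NS M} {y : M.Y.X} {x : Fin n → M.X.X}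

theorem mem_upd (h : (y, x) ∈ C.N n) (k : Fin n) {u : M.X.X} (h1 : M.f u = y) (h2 : u ∉ C.S) :
    (y, update x k u) ∈ C.N n :=
  have e : ∀ j, M.f (update x k u j) = y ∧ update x k u j ∉ C.S :=
    (forall_update_iff x fun _ v => M.f v = y ∧ v ∉ C.S).2 ⟨⟨h1, h2⟩, fun j _ => ⟨h.1 j, h.2.2 j⟩⟩
  ⟨fun j => (e j).1, h.2.1, fun j => (e j).2⟩

theorem mem_sel {n' : ℕ} {q : Pt M n} (h : q ∈ C.N n) (σ : Fin n' → Fin n) : sel σ q ∈ C.N n' :=
  ⟨fun j => h.1 (σ j), h.2.1, fun j => h.2.2 (σ j)⟩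

/-- the function of one slot is a section on the fibre -/
theorem fs_slot (hM : M.Ok) {F : Chart p M.Y.X → Pt M n → ℂ} (hF : C.AF m F)
    {e' : Chart p M.Y.X} (he' : At e' y) (h : (y, x) ∈ C.N n) (k : Fin n) :
    C.FS m y fun u => F e' (y, update x k u) := by
  refine ⟨fun d T _ _ _ _ _ γ t h1 h2 h3 => hF.hol e' _ (mem_upd h k h2.self_of_nhds h3) he' d T
    (fun s => (y, update x k (γ s))) t ⟨contMDiffAt_const, fun j => ?_, h2.mono fun s hs =>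
      (forall_update_iff x fun _ v => M.f v = y).2 ⟨hs, fun j _ => h.1 j⟩⟩ rfl,
    fun x₁ hx e e₁ ζ he he₁ hζ => ?_⟩
  · rcases eq_or_ne j k with rfl | c
    · simpa only [update_self] using h1
    · simpa only [update_of_ne c] using contMDiffAt_const
  have k0 : ∀ j, ∃ (E : Chart (p + a) M.X.X) (ξ : M.κ → M.X.X → ℂ), At E (update x k x₁ j) ∧
      (∀ l, LEq (p + a) (M.G l) (update x k x₁ j) (ξ l)) ∧ (j = k → E = e 0 ∧ ξ = ζ 0) := fun j => by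
    rcases eq_or_ne j k with rfl | c
    · rw [update_self]
      exact ⟨e 0, ζ 0, he 0, hζ 0, fun _ => ⟨rfl, rfl⟩⟩
    · obtain ⟨ξ, hξ, -⟩ := hM.snc (update x k x₁ j)
      exact ⟨_, ξ, at_chart _, hξ, fun b => absurd b c⟩
  choose E ξ k1 k2 k3 using k0
  have he₂ : At e₁ y := hx ▸ he₁
  obtain ⟨K, hK⟩ := hF.bs (y, update x k x₁)
    ((forall_update_iff x fun _ v => M.f v = y).2 ⟨hx, fun j _ => h.1 j⟩) h.2.1 e' he' E e₁ ξ k1
    he₂ k2
  let b : Fin n → M.X.X → ℝ := fun j v =>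
    ‖jdw C.w (E j) e₁ v‖ ^ m * ∏ l, ‖ξ j l v‖ ^ ((m : ℝ) * M.δ l)
  have k4 : 0 < ∏ j ∈ Finset.univ.erase k, b j (x j) := Finset.prod_pos fun j hj => by
    have c := Finset.ne_of_mem_erase hj
    have a1 := k1 j
    have a2 := k2 j
    rw [update_of_ne c] at a1 a2
    exact mul_pos (pow_pos (norm_pos_iff.2 (C.et _ (h.2.2 j) _ _ a1 ((h.1 j).symm ▸ he₂))) _)
      (Finset.prod_pos fun l _ => Real.rpow_pos_of_pos (norm_pos_iff.2 fun z =>
        C.offG _ (h.2.2 j) l ((a2 l).mem.1 z)) _)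
  have k5 : Continuous fun q : Pt M 1 => ((y, update x k (q.2 0)) : Pt M n) :=
    continuous_const.prodMk (continuous_const.update k ((continuous_apply 0).comp continuous_snd))
  refine ⟨K / ∏ j ∈ Finset.univ.erase k, b j (x j), ?_⟩
  filter_upwards [mem_inf_of_left ((k5.tendsto (dg 1 x₁)).eventually hK),
    mem_inf_of_right (mem_principal_self _)] with q a1 a2 a3 a4
  have a5 := mem_upd h k ((a3.1 0).trans a2) (a3.2.2 0)
  have a6 : ‖F e' (y, update x k (q.2 0))‖ * ∏ j, b j (update x k (q.2 0) j) ≤ K :=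
    a1 a5 fun j => C.offG _ (a5.2.2 j)
  rw [← Finset.mul_prod_erase _ _ (Finset.mem_univ k), update_self, Finset.prod_congr rfl
    fun j hj => by rw [update_of_ne (Finset.ne_of_mem_erase hj)], ← mul_assoc] at a6
  rw [le_div_iff₀ k4, Fin.prod_univ_one, ← (k3 k rfl).1, ← (k3 k rfl).2]
  exact a6

/-- a local section of the fibre power through a nice point -/
theorem sec (hM : M.Ok) (h : (y, x) ∈ C.N n) : ∃ g : M.Y.X → Fin n → M.X.X, g y = x ∧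
    Tm p (fun z => ((z, g z) : Pt M n)) y ∧ ∀ᶠ z in 𝓝 y, (z, g z) ∈ C.N n := by
  have k0 : ∀ j, ∃ g : M.Y.X → M.X.X, g y = x j ∧ HolA p (p + a) g y ∧ ∀ᶠ z in 𝓝 y, M.f (g z) = z :=
    fun j => by
      have k := ((C.reg y h.2.1).sbm hM.fibn.hol hM.snc (h.1 j)).sec (hM.fibn.hol.at _)
      rwa [show M.f (x j) = y from h.1 j] at k
  choose g k1 k2 k3 using k0
  refine ⟨fun z j => g j z, funext k1, ⟨contMDiffAt_id, k2, eventually_all.2 k3⟩, ?_⟩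
  filter_upwards [eventually_all.2 k3, C.thinQ.closed.isOpen_compl.mem_nhds h.2.1,
    eventually_all.2 fun j => (k2 j).cont.eventually
      (C.thinS.closed.isOpen_compl.mem_nhds ((k1 j).symm ▸ h.2.2 j))] with z a1 a2 a3
  exact ⟨a1, a2, a3⟩

/-- the quotient of a form by a relative form, when it only depends on the point of the base -/
theorem quot (h1 : LDESC) (h2 : THN) (hM : M.Ok) (W : Pw M n (p + n * a) C.Q)
    {F : Chart p M.Y.X → Pt M n → ℂ} {R : Pt M n → ℂ} (hF : C.AF m F) (hR : C.RF m R)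
    (h0 : ∀ y ∉ C.Q, ∃ x, (y, x) ∈ C.N n ∧ R (y, x) ≠ 0)
    (h : ∀ y ∉ C.Q, ∀ e', At e' y → ∃ c : ℂ, ∀ x, (y, x) ∈ C.N n → F e' (y, x) = c * R (y, x)) :
    ∃ β, BF p m C.Q β ∧ ∀ q ∈ C.N n, ∀ e', At e' q.1 → β e' q.1 * R q = F e' q := by
  classical
  choose! c hc using h
  have k1 : ∀ e y, At e y → y ∉ C.Q → Hol p (fun y => c y e) y := fun e y he hy => by
    obtain ⟨x, a1, a2⟩ := h0 y hy
    obtain ⟨g, rfl, a3, a4⟩ := sec hM a1
    have a5 := hR.hol _ a1 p M.Y.X _ y a3 rfl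
    refine ((hF.hol e _ a1 he p M.Y.X _ y a3 rfl).div a5 a2).congr ?_
    filter_upwards [a4, a5.ne_near a2, at_near he] with z b1 b2 b3
    rw [hc z b1.2.1 e b3 _ b1, mul_div_cancel_right₀ _ b2]
  obtain ⟨t1, t2, t3, -⟩ := h2 p a n M C W hM
  have k2 : ∀ v, Mer (p + n * a) (fun v => R (W.γ v)) v := fun v =>
    hR.mer _ W.V.X W.γ v (W.tm v) ((t1.freq v).mono fun _ => not_not.1)
  have k3 : ∀ v, ∀ᶠ v' in gen {v}, R (W.γ v') ≠ 0 := fun v => by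
    have := W.conn
    refine P277Z.gen_at ((P277Z.Lo.mer_ident_conn isPreconnected_univ fun v _ => k2 v).resolve_left
      fun b => ?_) (mem_univ v)
    obtain ⟨y, hy⟩ := C.thinQ.dense.nonempty_iff.2 ⟨(W.γ v).1⟩
    obtain ⟨x, a1, a2⟩ := h0 y hy
    obtain ⟨v₀, a3, -⟩ := W.bij _ a1.1 hy
    obtain ⟨_, b1, b2⟩ := ((P277Z.gen_at b (mem_univ v₀)).and (P277Z.gen_of_nhds
      ((hR.hol _ a1 _ W.V.X W.γ v₀ (W.tm v₀) a3).ne_near (a3.symm ▸ a2)))).exists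
    exact b2 b1
  refine ⟨fun e y => c y e, ⟨k1, fun e y he => h1 _ p W.V M.Y _ C.Q _ y t2 t3 C.thinQ W.dense
    ((at_near he).mono fun z => k1 e z) fun v hv => ?_, fun e e' y he he' hy => ?_⟩,
    fun q hq e he => (hc q.1 hq.2.1 e he q.2 hq).symm⟩
  · subst hv
    refine P277Z.Lo.mer_congr (P277Z.Lo.mer_div (hF.mer _ W.V.X W.γ v (W.tm v)
      ((t1.freq v).mono fun _ => not_not.1) e he) (k2 v)) ?_
    filter_upwards [k3 v, t1.gen v, P277Z.gen_of_nhds (t2.cont.continuousAt.eventually (at_near he))]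
      with z b1 b2 b3
    have b4 : W.γ z ∈ C.N n := not_not.1 b2
    rw [show F e (W.γ z) = _ from hc _ b4.2.1 e b3 _ b4, mul_div_cancel_right₀ _ b1]
  · obtain ⟨x, a1, a2⟩ := h0 y hy
    refine mul_right_cancel₀ a2 ?_
    rw [← hc y hy e he x a1, hF.chg e e' _ a1 he he', hc y hy e' he' x a1, mul_assoc]

end ns

/-- the slots, group by group -/
def ix (s c ρ : ℕ) : (Fin s × Fin c) × Fin ρ ≃ Fin (s * (c * ρ)) :=
  (Equiv.prodAssoc _ _ _).trans (((Equiv.refl _).prodCongr finProdFinEquiv).trans finProdFinEquiv)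

variable {p a m : ℕ} (Z : Nm p a m) (s : ℕ)

theorem pb_eq {y : Z.M.Y.X} {φ : Fin Z.D.ρ → Z.M.X.X → ℂ} {θ : ℂ}
    (h : ∀ x, (y, x) ∈ Z.C.N (Z.D.c₀ * Z.D.ρ) →
      Z.D.P (y, x) = θ * ∏ g : Fin Z.D.c₀, dt φ (grp g ((y, x) : Pt Z.M _)).2)
    {x : Fin (s * (Z.D.c₀ * Z.D.ρ)) → Z.M.X.X} (hx : (y, x) ∈ Z.C.N _) :
    Z.Pb s (y, x) = θ ^ s * pd (ix s _ _) φ x := by
  refine (Finset.prod_congr rfl fun g _ =>
    h _ (mem_sel hx fun j => finProdFinEquiv (g, j))).trans ?_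
  rw [Finset.prod_mul_distrib, Finset.prod_const, Finset.card_univ, Fintype.card_fin, pd,
    Fintype.prod_prod_type]
  rfl

end Al

open Al in
theorem alt (h1 : LDESC) (h2 : THN) (h3 : ALGF) : ALT := fun p a m Z s _ ⟨W⟩ => by
  have k0 : ∀ y ∉ Z.D.Q, ∃ x, (y, x) ∈ Z.C.N (s * (Z.D.c₀ * Z.D.ρ)) ∧ Z.Pb s (y, x) ≠ 0 :=
    fun y hy => by
      obtain ⟨φ, θ, a1, -, ⟨x, a2, a3⟩, a4⟩ := Z.D.span y hy
      have a5 := mem_sel a2 fun k => ((ix s Z.D.c₀ Z.D.ρ).symm k).2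
      refine ⟨_, a5, (pb_eq Z s a4 a5).trans_ne (mul_ne_zero (pow_ne_zero _ a1)
        (Finset.prod_ne_zero_iff.2 fun i _ => ?_))⟩
      simpa only [Equiv.symm_apply_apply] using a3
  refine ⟨k0, Fin s × Fin Z.D.c₀ → Equiv.Perm (Fin Z.D.ρ), inferInstance, pm (ix s _ _), sg,
    inferInstance, norm_sg, fun τ q hq => ?_, fun F hF => ?_⟩
  · obtain ⟨φ, θ, -, -, -, a4⟩ := Z.D.span q.1 hq.2.1
    rw [show Z.Pb s q = _ from pb_eq Z s a4 hq,
      show Z.Pb s (sel _ q) = _ from pb_eq Z s a4 (mem_sel hq (pm (ix s _ _) τ)), mul_left_comm,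
      sg_pd]
  refine quot h1 h2 Z.std.ok W ((h3 p a _ Z.M Z.C Z.std.ok).2.2.1 m _ _ _ F hF)
    ((h3 p a _ Z.M Z.C Z.std.ok).2.2.2.2.2.2.1 m s (fun _ => Z.D.P) fun _ => Z.D.rfP) k0
    fun y hy e' he' => ?_
  obtain ⟨φ, θ, a1, a2, ⟨x₀, a3, a4⟩, a5⟩ := Z.D.span y hy
  obtain ⟨c, hc⟩ := alt_eq (ix s Z.D.c₀ Z.D.ρ) (U := {u | u ∉ Z.D.S ∧ Z.M.f u = y})
    (fun b => ⟨a3.2.2 b, a3.1 b⟩) a4 (fun x => F e' (y, x)) fun x hx k =>
      (a2 _ (fs_slot Z.std.ok hF he' ⟨fun j => (hx j).2, hy, fun j => (hx j).1⟩ k)).imp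
        fun c hc u hu => hc u hu.1 hu.2
  refine ⟨(Fintype.card (Fin s × Fin Z.D.c₀ → Equiv.Perm (Fin Z.D.ρ)) : ℂ)⁻¹ * c / θ ^ s,
    fun x hx => ?_⟩
  rw [pb_eq Z s a5 hx, ← mul_assoc (_ / θ ^ s),
    div_mul_cancel₀ _ (pow_ne_zero _ a1), mul_assoc _ c, ← hc x fun k => ⟨hx.2.2 k, hx.1 k⟩,
    Finset.mul_sum]
  exact Finset.sum_congr rfl fun τ _ => mul_assoc _ _ _

end Vale.Agent.P281Z.Gt
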