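import Vale.Agent.P281Z.Gt.SkB
import Vale.Agent.P281Z.Nt.Ne

/-!
# P281Z, block III, part B: boxes at the general points of the vertical components
-/

open scoped Manifold ContDiff Topology
open Set Filter Function
open Vale.Agent.P272.K
open Vale.Agent.P277Z (Hol at_chart hol_const)
open Vale.Agent.P277Z.Slc (Ind LEq Snc dd dd_mul dd_congr dd_sub_const)
open Vale.Agent.P281Z.Nt (NE Hy Small)

set_option linter.unusedSectionVars false

noncomputable section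

namespace Vale.Agent.P281Z.Gt

namespace BxH

section ps

variable {r : ℕ} (S : PS r) {q : S.P.X} {h : S.H.ι}

theorem hx_eq (hq : q ∈ S.H.U h) : ∃ t : ℂ, t ≠ 0 ∧ S.hx q = t • S.x h q :=
  ⟨_, S.lb.ne_zero _ h q (S.lb.cover q).choose_spec hq,
    funext fun a => (S.sec a).change _ h q (S.lb.cover q).choose_spec hq⟩

theorem ov_near {O : Set (Cm r)} (hO : IsOpen O) (h0 : S.hx q 0 ≠ 0) (h1 : S.aff q ∈ O) :
    ∀ᶠ y in 𝓝 q, S.hx y 0 ≠ 0 ∧ S.aff y ∈ O := by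
  have hq := (S.lb.cover q).choose_spec
  have k : ContinuousAt (fun y (j : Fin r) => S.x _ y j.succ / S.x _ y 0) q :=
    continuousAt_pi.2 fun j => ((sec_hol (S.sec j.succ) hq).div (sec_hol (S.sec 0) hq) h0).cont
  filter_upwards [lb_near S.lb hq, (sec_hol (S.sec 0) hq).ne_near h0,
    k.eventually (hO.mem_nhds h1)] with y a b c
  obtain ⟨t, ht, e⟩ := hx_eq S a
  refine ⟨by rw [e]; exact mul_ne_zero ht b, ?_⟩
  refine (funext fun j => ?_ : _ = S.aff y) ▸ c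
  simp only [PS.aff, e, Pi.smul_apply, smul_eq_mul, mul_div_mul_left _ _ ht]

theorem aff_pt (c : Cm r) :
    S.hx (S.pt (Fin.cons 1 c)) 0 ≠ 0 ∧ S.aff (S.pt (Fin.cons 1 c)) = c := by
  have hq := (S.lb.cover (S.pt (Fin.cons 1 c))).choose_spec
  obtain ⟨t, k⟩ := S.x_pt (Fin.cons 1 c) (fun k => one_ne_zero (congrFun k 0)) _ hq
  have ht : t ≠ 0 := fun m => S.xnz _ _ hq (by rw [k, m, zero_smul])
  have k' : S.hx (S.pt (Fin.cons 1 c)) = t • (Fin.cons 1 c : Cm (r + 1)) := k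
  exact ⟨by simpa [k'] using ht, funext fun j => by simp [PS.aff, k', ht]⟩

end ps

variable {n p : ℕ} {X Y : Type} [TopologicalSpace X] [ChartedSpace (Cm n) X] [TopologicalSpace Y]
  [ChartedSpace (Cm p) Y] [IsManifold 𝓘(ℂ, Cm n) ω X] [IsManifold 𝓘(ℂ, Cm p) ω Y]
  {f : X → Y} {D : Set X} {x : X} {ζ : X → ℂ}

theorem hy {κ : Type} {G : κ → Set X} (h : Snc n G) (l : κ) : Hy n (G l) := fun x =>
  let ⟨ζ, h1, _⟩ := h x
  ⟨ζ l, h1 l⟩

/-- general points of a connected hypersurface -/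
theorem gen_pt {ι : Type} [Fintype ι] {T : ι → Set X} (hc : IsPreconnected D) (hD : Hy n D)
    (hT : ∀ i, An n (T i)) (h : ∀ i, ¬ D ⊆ T i) (hx : x ∈ D) :
    ∃ᶠ y in 𝓝 x, y ∈ D ∧ ∀ i, y ∉ T i := fun c => by
  obtain ⟨y, a, i, b⟩ := (Nt.Hp.cov (fun i => (hT i).closed) hx
    (c.mono fun y k a => by simpa [a] using k)).exists
  exact h i (Nt.Hp.idh hc hD (hT i) a b)

/-- independence on the base -/
theorem ind_base {α β : Type} [Fintype α] [Fintype β] {η : α → Y → ℂ} {φ : β → Y → ℂ}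
    (hf : HolA n p f x) (hη : Ind p η (f x)) (hφ : ∀ i, Hol p (φ i) (f x)) (hζ : LEq n D x ζ)
    (hx : x ∈ D) (h0 : ∀ a, ∀ᶠ y in 𝓝 x, y ∈ D → η a (f y) = 0)
    (h : Ind n (Sum.elim (fun _ : Unit => ζ) fun i z => φ i (f z)) x) :
    Ind p (Sum.elim η φ) (f x) := by
  refine ⟨Sum.rec hη.1 hφ, fun e' he' => Fintype.linearIndependent_iff.2 fun g hg => ?_⟩
  have he := at_chart (n := n) x
  set e := chartAt (Cm n) x
  choose c c1 c2 using fun a => Nt.Hp.div hζ (hf.hol (hη.1 a)) (h0 a)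
  have k1 : ∀ a v, dd (η a) e' (f x) (df f e e' x v) = c a x * dd ζ e x v := fun a v =>
    DFunLike.congr_fun (((dd_comp (hη.1 a) hf he he').symm.trans (dd_congr (c2 a) he)).trans
      (dd_mul (c1 a) hζ.hol (hζ.mem.2 hx) he)) v
  have k2 : ∀ i v, dd (φ i) e' (f x) (df f e e' x v) = dd (fun z => φ i (f z)) e x v := fun i v =>
    (DFunLike.congr_fun (dd_comp (hφ i) hf he he') v).symm
  have k3 : ∀ i, g (.inr i) = 0 := fun i => Fintype.linearIndependent_iff.1 (h.2 e he)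
    (Sum.elim (fun _ => ∑ a, g (.inl a) * c a x) fun i => g (.inr i))
    (ContinuousLinearMap.ext fun v => by
      simpa [Fintype.sum_sum_type, k1, k2, Finset.sum_mul, mul_assoc] using
        DFunLike.congr_fun hg (df f e e' x v)) (.inr i)
  rintro (a | i)
  · exact Fintype.linearIndependent_iff.1 (hη.2 e' he') (fun a => g (.inl a))
      (ContinuousLinearMap.ext fun v => by
        simpa [Fintype.sum_sum_type, k3] using DFunLike.congr_fun hg v) a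
  · exact k3 i

/-- roots of units -/
theorem root {c : X → ℂ} (hc : Hol n c x) (h0 : c x ≠ 0) {A : ℕ} (hA : 0 < A) :
    ∃ r, Hol n r x ∧ r x ≠ 0 ∧ ∀ᶠ y in 𝓝 x, r y ^ A = c y := by
  obtain ⟨w, hw⟩ := IsAlgClosed.exists_pow_nat_eq (c x) hA
  have k : AnalyticAt ℂ (fun t => w * Complex.exp (Complex.log (t / c x) / A)) (c x) :=
    analyticAt_const.mul (((analyticAt_id.div analyticAt_const h0).clog (by
      simp [div_self h0])).div analyticAt_const (Nat.cast_ne_zero.2 hA.ne')).cexp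
  refine ⟨fun y => w * Complex.exp (Complex.log (c y / c x) / A), AnV.cmp (F := c) hc k,
    mul_ne_zero (fun m => h0 ?_) (Complex.exp_ne_zero _), ?_⟩
  · rw [← hw, m, zero_pow hA.ne']
  · filter_upwards [hc.ne_near h0] with y hy
    rw [mul_pow, hw, ← Complex.exp_nat_mul, mul_div_cancel₀ _ (Nat.cast_ne_zero.2 hA.ne'),
      Complex.exp_log (div_ne_zero hy h0), mul_div_cancel₀ _ h0]

theorem ind_unit {β : Type} {φ : β → X → ℂ} {r : X → ℂ} (c : β → ℂ) (hr : Hol n r x)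
    (h0 : r x ≠ 0) (h1 : ζ x = 0) (h : Ind n (Sum.elim (fun _ : Unit => ζ) φ) x) :
    Ind n (Sum.elim (fun (_ : Unit) y => r y * ζ y) fun i y => φ i y - c i) x := by
  refine ⟨Sum.rec (fun _ => hr.mul (h.1 (.inl ()))) fun i => (h.1 (.inr i)).sub (hol_const _ _),
    fun e he => ?_⟩
  have k := (h.2 e he).units_smul (Sum.elim (fun _ => Units.mk0 _ h0) 1)
  rwa [show (fun a => dd (Sum.elim (fun (_ : Unit) y => r y * ζ y) (fun i y => φ i y - c i) a) e x)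
    = _ from funext ?_]
  rintro (_ | i)
  · exact dd_mul hr (h.1 (.inl ())) h1 he
  · exact (dd_sub_const _ _ _ _).trans (one_smul ℂˣ _).symm

theorem co_sub {E : Type} [NormedAddCommGroup E] [NormedSpace ℂ E] {Θ : OpenPartialHomeomorph X E}
    (h : Co n Θ) (c : E) : Co n (Θ.transHomeomorph (Homeomorph.subRight c)) :=
  ⟨fun y hy => (h.an y hy).cmp (G := fun v => v - c) (analyticAt_id.sub analyticAt_const),
    fun _ hv e he => (h.inv _ hv e he).fun_comp (f := fun v => v + c)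
      (analyticAt_id.add analyticAt_const)⟩

variable {a m : ℕ} (Z : Nm p a m)

theorem hol : HolM (p + a) p Z.M.f := Z.std.ok.fibn.hol

theorem ne_of_rp {l : Z.M.κ} (h : Rp Z.M l) : ∃ x ∈ Z.M.G l, NE (p + a) p Z.M.f (Z.M.G l) x :=
  let ⟨x, hx, _, _, h1, h2, h3⟩ := h
  ⟨x, hx, Nt.ne_of_ind ((hol Z).at x) h1 h2 (by simp; omega) h3⟩

/-- the pull back of an equation of `E j` has no zeros off the boundary -/
theorem ne_off {x : Z.M.X.X} {j : Fin Z.r} {η : Z.M.Y.X → ℂ} (h : LEq p (Z.E j) (Z.M.f x) η) :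
    ∀ᶠ y in 𝓝 x, y ∈ off Z.M.G → η (Z.M.f y) ≠ 0 :=
  ((hol Z).cont.continuousAt.eventually h.1).mono fun y k a b =>
    (Z.memQ _).1 (Z.pre y a) j (k.1 b)

theorem not_two {l : Z.M.κ} (h : Rp Z.M l) {j j' : Fin Z.r} (hj : j ≠ j') :
    ¬ Z.M.G l ⊆ Z.M.f ⁻¹' (Z.E j ∩ Z.E j') := fun c => by
  obtain ⟨x, hx, ζ, φ, h1, h2, h3⟩ := h
  obtain ⟨η, k1, k2⟩ := Z.snc (Z.M.f x)
  let s : Fin 2 → {i // Z.M.f x ∈ Z.E i} := ![⟨j, (c hx).1⟩, ⟨j', (c hx).2⟩]
  have hs : Injective s := fun u v k => by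
    fin_cases u <;> fin_cases v
    exacts [rfl, absurd (congrArg Subtype.val k) hj, absurd (congrArg Subtype.val k) hj.symm, rfl]
  have k3 := ind_le (ind_base ((hol Z).at x) (k2.comp s hs) h2 h1 hx (fun u =>
    ((hol Z).cont.continuousAt.eventually (k1 (s u)).1).mono fun y b d => b.2 (by
      fin_cases u
      exacts [(c d).1, (c d).2])) h3)
  simp at k3
  omega

/-- the box at a general point -/
theorem box_at {l : Z.M.κ} {x : Z.M.X.X} (hx : x ∈ Z.M.G l) (h1 : ∀ k, k ≠ l → x ∉ Z.M.G k)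
    (h2 : NE (p + a) p Z.M.f (Z.M.G l) x) {j : Fin Z.r} (hj : Z.M.f x ∈ Z.E j)
    (h3 : ∀ j', j' ≠ j → Z.M.f x ∉ Z.E j') (hl : ∀ y ∈ Z.M.G l, Z.M.f y ∈ Z.D.Q) :
    ∃ B : Bx Z.M Z.D.Q l, B.x = x := by
  have hf := hol Z
  obtain ⟨ζ, φ, z1, z2, z3⟩ := h2.ind (hf.at x) hx
  obtain ⟨η, e1⟩ := hy Z.snc j (Z.M.f x)
  have o1 : ∀ᶠ y in 𝓝 x, ∀ k, k ≠ l → y ∉ Z.M.G k := eventually_all.2 fun k =>
    eventually_imp_distrib_left.2 fun b => (hy Z.std.ok.snc k x).elim fun _ c =>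
      c.not_mem_near (h1 k b)
  have o2 : ∀ᶠ y in 𝓝 (Z.M.f x), y ∈ Z.D.Q ↔ η y = 0 := by
    filter_upwards [e1.1, eventually_all.2 fun k => eventually_imp_distrib_left.2 fun b =>
      (hy Z.snc k (Z.M.f x)).elim fun _ c => c.not_mem_near (h3 k b)] with y b c
    rw [b, ← not_iff_not, Z.memQ]
    exact ⟨fun d => d j, fun d k => (eq_or_ne k j).elim (fun e => e ▸ d) (c k)⟩
  obtain ⟨A, c, c1, c2, c3⟩ := Nt.Hp.mon (G := fun _ : Unit => Z.M.G l) (ζ := fun _ => ζ)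
    (Nt.hy_snc (hy Z.std.ok.snc l)) (fun _ => z1) (hf.hol e1.hol) (by
      filter_upwards [ne_off Z e1, o1] with y b d e
      exact b fun k => (eq_or_ne k l).elim (fun i => i ▸ e ()) (d k))
  simp only [Finset.univ_unique, Finset.prod_singleton] at c3
  have hA : 0 < A default := Nat.pos_of_ne_zero fun k => c2 (by
    rw [← e1.mem.2 hj, c3.self_of_nhds, k, pow_zero, mul_one])
  obtain ⟨r, r1, r2, r3⟩ := root c1 c2 hA
  have i1 : Ind p (Sum.elim (fun _ : Unit => η) φ) (Z.M.f x) :=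
    ind_base (hf.at x) (Nt.Hp.ind_one e1 hj) z2 z1 hx (fun _ =>
      (hf.cont.continuousAt.eventually o2).mono fun y b d => b.1 (hl y d)) z3
  obtain ⟨θ, ι, t1, t2, t3, -, t5⟩ := Nt.Hp.exists_crd (ind_unit (fun i => φ i (Z.M.f x))
    (hol_const 1 _) one_ne_zero (e1.mem.2 hj) i1)
    (Sum.rec (fun _ => by simp [e1.mem.2 hj]) fun _ => sub_self _) o2
  have hι : Bijective ι := (Fintype.bijective_iff_injective_and_card ι).2 ⟨ι.injective, by
    have := ind_le (Nt.Hp.ind_one e1 hj)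
    simp at this ⊢
    omega⟩
  set σ := Equiv.ofBijective ι hι
  obtain ⟨Θ, s1, s2, s3, s4⟩ := exists_co ((ind_unit (fun i => φ i (Z.M.f x)) r1 r2 (z1.mem.2 hx)
    z3).comp σ.symm σ.symm.injective) (d := a) (by simp) (o1.and (c3.and (r3.and
      ((r1.ne_near r2).and (z1.1.and (hf.cont.continuousAt.eventually
        (θ.open_source.mem_nhds t2)))))))
  have s5 : (Θ x).1 = 0 := (s4 x s2).trans (funext fun i => by
    rcases σ.symm i with _ | i
    exacts [mul_eq_zero_of_right _ (z1.mem.2 hx), sub_self _])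
  have s6 : ∀ y ∈ Θ.source, ∀ s, (Θ y - Θ x).1 (ι s) =
      Sum.elim (fun (_ : Unit) y => r y * ζ y) (fun i y => φ i (Z.M.f y) - φ i (Z.M.f x)) s y :=
    fun y hy s => by
      rw [Prod.fst_sub, s5, sub_zero, s4 y hy]
      exact congrArg (fun s => Sum.elim (fun (_ : Unit) y => r y * ζ y)
        (fun i y => φ i (Z.M.f y) - φ i (Z.M.f x)) s y) (σ.symm_apply_apply s)
  refine ⟨⟨x, A default, ι (.inl ()), Θ.transHomeomorph (Homeomorph.subRight (Θ x)), θ, hA,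
    co_sub s1 _, t1, s2, sub_self _, fun y hy => ?_, fun y hy k => ?_, fun y hy => ?_⟩, rfl⟩
  · obtain ⟨-, b2, b3, -, -, b6⟩ := s3 hy
    refine ⟨b6, funext fun i => ?_⟩
    obtain ⟨s, rfl⟩ := hι.2 i
    change _ = update (Θ y - Θ x).1 _ ((Θ y - Θ x).1 _ ^ _) _
    rcases s with _ | i
    · rw [update_self, t5 _ b6, s6 y hy]
      simp only [Sum.elim_inl, one_mul, mul_pow, b2, b3]
    · rw [update_of_ne (ι.injective.ne Sum.inr_ne_inl), t5 _ b6, s6 y hy]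
      rfl
  · obtain ⟨b1, -, -, b4, b5, -⟩ := s3 hy
    change _ ↔ _ ∧ (Θ y - Θ x).1 _ = 0
    rw [s6 y hy, Sum.elim_inl, mul_eq_zero, or_iff_right b4, b5]
    exact ⟨fun d => have e : k = l := by_contra fun e => b1 k e d
      ⟨e, e ▸ d⟩, fun d => d.1 ▸ d.2⟩
  · rw [t5 y hy, Sum.elim_inl, one_mul]
    exact t3 hy

/-- the points of `Q` near the centre of a box are images of points of `G l` -/
theorem onto_Q {M : Fb (p + a) p} {Q : Set M.Y.X} {l : M.κ} (B : Bx M Q l) :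
    ∀ᶠ y in 𝓝 (M.f B.x), y ∈ Q → y ∈ M.f '' M.G l := by
  obtain ⟨h1, h2⟩ := B.map _ B.mem
  rw [B.zero, Prod.fst_zero, Pi.zero_apply, zero_pow B.pos.ne',
    show update (0 : Cm p) B.i₀ 0 = 0 from update_eq_self B.i₀ 0] at h2
  have h3 : ContinuousAt (fun y => (B.η y, (0 : Cm a))) (M.f B.x) :=
    (B.η.continuousAt h1).prodMk continuousAt_const
  filter_upwards [B.η.open_source.mem_nhds h1, h3.eventually (B.Θ.open_target.mem_nhds
    (by simp only [h2]; exact (B.zero ▸ B.Θ.map_source B.mem : 0 ∈ B.Θ.target)))] with y a b c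
  have k := B.Θ.map_target b
  have k0 := (B.base y a).1 c
  obtain ⟨k1, k2⟩ := B.map _ k
  refine ⟨_, (B.div _ k l).2 ⟨rfl, ?_⟩, B.η.injOn k1 a ?_⟩
  · rwa [B.Θ.right_inv b]
  · rw [k2, B.Θ.right_inv b, update_eq_self_iff]
    simp only [k0, zero_pow B.pos.ne']

end BxH

open BxH

/-- **BOX**: boxes exist at the general points -/
theorem box : BOX := by
  intro p a m Z l hR hl x hx U hU
  classical
  have hG := hy Z.std.ok.snc
  have hE := fun j => an_of_leq (hy Z.snc j)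
  obtain ⟨y, ⟨y1, y2⟩, y3⟩ := ((gen_pt
    (ι := Option ({k // k ≠ l} ⊕ {q : Fin Z.r × Fin Z.r // q.1 ≠ q.2}))
    (T := fun o => o.elim {x | x ∈ Z.M.G l ∧ ¬ NE (p + a) p Z.M.f (Z.M.G l) x}
      (Sum.elim (fun k => Z.M.G k) fun q => Z.M.f ⁻¹' (Z.E q.1.1 ∩ Z.E q.1.2)))
    (Z.connG l).isPreconnected (hG l) (by
      rintro (_ | k | q)
      exacts [Nt.an_ne (hol Z) (hG l), an_of_leq (hG k), ((hE _).inter (hE _)).pre (hol Z)])
    (by
      rintro (_ | k | q) c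
      · obtain ⟨z, z1, z2⟩ := ne_of_rp Z hR
        exact (c z1).2 z2
      · obtain ⟨z, z1, z2⟩ := (Nt.Hp.genp Z.std.ok.snc hx).exists
        exact z2 k k.2 (c z1)
      · exact not_two Z hR q.2 c) hx).and_eventually hU).exists
  obtain ⟨j, hj⟩ : ∃ j, Z.M.f y ∈ Z.E j := by
    by_contra! c
    exact (Z.memQ _).2 c (hl y y1)
  obtain ⟨B, hB⟩ := box_at Z y1 (fun k b => y2 (some (.inl ⟨k, b⟩)))
    (by_contra fun c => y2 none ⟨y1, c⟩) hj
    (fun j' b c => y2 (some (.inr ⟨(j', j), b⟩)) ⟨c, hj⟩) hl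
  exact ⟨B, hB ▸ y3⟩

/-- **ONTO**: there is a component of large rank over each component of `Q` -/
theorem onto : ONTO := by
  intro p a m Z j
  by_contra! c
  have hG := hy Z.std.ok.snc
  have hf := hol Z
  obtain ⟨y, hy'⟩ := (Z.connE j).nonempty
  obtain ⟨η, e1⟩ := hy Z.snc j y
  refine Nt.smu p Z.M.Y {l // ∀ x ∈ Z.M.G l, Z.M.f x ∈ Z.E j} (fun l => Z.M.f '' Z.M.G l)
    (fun l => ((an_of_leq (hG l)).closed.isCompact.image hf.cont).isClosed)
    (fun l => (Nt.sml _ _ _ _ _ _ hf (hG l) fun x hx k => ?_).1) _ y η e1 hy'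
    (.of_forall fun z hz => ?_)
  · obtain ⟨x', a, b⟩ := c l ⟨x, hx, k.ind (hf.at x) hx⟩
    exact b (l.2 x' a)
  · obtain ⟨x, rfl⟩ := Z.std.ok.fibn.surj z
    obtain ⟨ζ, z1, -⟩ := Z.std.ok.snc x
    obtain ⟨η', e2⟩ := hy Z.snc j (Z.M.f x)
    obtain ⟨A, u, -, u2, u3⟩ := Nt.Hp.mon Z.std.ok.snc z1 (hf.hol e2.hol) (ne_off Z e2)
    obtain ⟨l, -, hl⟩ := Finset.prod_eq_zero_iff.1
      ((mul_eq_zero.1 (u3.self_of_nhds.symm.trans (e2.mem.2 hz))).resolve_left u2)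
    obtain ⟨l1, l2⟩ := pow_eq_zero_iff'.1 hl
    refine mem_iUnion.2 ⟨⟨l, Nt.Hp.idh (Z.connG l).isPreconnected (hG l)
      ((an_of_leq (hy Z.snc j)).pre hf) ((z1 l).mem.1 l1) ?_⟩, x, (z1 l).mem.1 l1, rfl⟩
    filter_upwards [u3, (z1 l).1, hf.cont.continuousAt.eventually e2.1] with w a b d e
    refine d.1 ?_
    rw [a, Finset.prod_eq_zero (Finset.mem_univ l) (by rw [b.2 e, zero_pow l2]), mul_zero]

/-- **BSEX**: systems of boxes exist -/
theorem bsex (hD : DOM) (hR : REM) : BSEX := by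
  intro p a m Z
  have := Z.S.conn
  have hf := hol Z
  let ι := {l // Rp Z.M l ∧ ∀ x ∈ Z.M.G l, Z.M.f x ∈ Z.D.Q}
  let T : Z.M.κ → Set Z.S.P.X := fun l => (fun x => Z.φ (Z.M.f x)) '' Z.M.G l
  obtain ⟨σ, d, s1, s2, s3⟩ := hD _ Z.S (⋃ l : {l // T l ≠ univ}, T l) (Thin.iUnion fun l =>
    (hR _ _ _ _ _ _ (Z.hol.comp hf) (an_of_leq (hy Z.std.ok.snc l))).thin l.2)
  have key : ∀ l : ι, ∃ B : Bx Z.M Z.D.Q l, Z.Ov (Z.M.f B.x) ∨ ∀ᶠ y in 𝓝 (Z.M.f B.x), y ∈ Z.D.Q →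
      MvPolynomial.eval (Z.S.hx (Z.φ y)) σ * Z.S.hx (Z.φ y) 0 = 0 := fun l => by
    by_cases c : T l = univ
    · obtain ⟨y, y1, y2⟩ := Z.D.zO
      obtain ⟨x, x1, x2⟩ : Z.φ y ∈ T l := c ▸ mem_univ _
      have k := aff_pt Z.S fun j => Z.D.z j y
      rw [← Z.eq y y1, ← x2] at k
      obtain ⟨B, hB⟩ := box p a m Z l l.2.1 l.2.2 x x1 _
        ((Z.hol.comp hf).cont.continuousAt.eventually (ov_near Z.S Z.D.opn k.1 (k.2.symm ▸ y2)))
      exact ⟨B, .inl hB⟩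
    · obtain ⟨x, x1, -⟩ := l.2.1
      obtain ⟨B, -⟩ := box p a m Z l l.2.1 l.2.2 x x1 _ univ_mem
      refine ⟨B, .inr ((onto_Q B).mono fun y b e => ?_)⟩
      obtain ⟨w, w1, rfl⟩ := b e
      exact mul_eq_zero_of_left (s3 _ (mem_iUnion.2 ⟨⟨l, c⟩, w, w1, rfl⟩)) _
  choose B hB using key
  exact ⟨⟨ι, Subtype.val, B, fun l a b => ⟨⟨l, a, b⟩, rfl⟩, σ, d, s1, s2, hB⟩⟩

end Vale.Agent.P281Z.Gt
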