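import Vale.Agent.P281Z.Gt.SkB

/-!
# P281Z, block III, row BOXS: one step on a branch
-/

open scoped Manifold ContDiff Topology ENNReal Matrix
open Set Filter MeasureTheory
open Vale.Agent.P272.K Vale.Agent.P285.H281.FD
open Vale.Agent.P277Z (Hol Mer Nz gen jd at_chart)

noncomputable section

namespace Vale.Agent.P281Z.Gt

namespace Bxs

theorem bd_mul {X : Type} [TopologicalSpace X] {x : X} {P P' : X → Prop} {G G' N : X → ℝ}
    (hN : ContinuousAt N x) (h : ∃ K, ∀ᶠ o in 𝓝 x, P o → G o ≤ K)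
    (e : ∀ᶠ o in 𝓝 x, P' o → P o ∧ 0 ≤ G o ∧ 0 ≤ N o ∧ G' o = G o * N o) :
    ∃ K, ∀ᶠ o in 𝓝 x, P' o → G' o ≤ K := by
  obtain ⟨K, h⟩ := h
  refine ⟨K * (N x + 1), ?_⟩
  filter_upwards [h, e, hN.eventually_lt continuousAt_const (lt_add_one _)] with o h1 h2 h3 h4
  obtain ⟨a, b, c, d⟩ := h2 h4
  exact d.trans_le (mul_le_mul (h1 a) h3.le c (b.trans (h1 a)))

theorem hw_eq {r : ℕ} (S : PS r) {h : S.H.ι} {q : S.P.X} (hq : q ∈ S.H.U h) :
    S.hw q = ‖S.x h q 0‖ / ‖S.x h q‖ := by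
  have h0 := (S.lb.cover q).choose_spec
  have h1 : S.hx q = S.H.g (S.lb.cover q).choose h q • S.x h q :=
    funext fun a => (S.sec a).change _ h q h0 hq
  have h2 : S.H.g (S.lb.cover q).choose h q ≠ 0 := fun k => S.xnz _ q h0 (by
    rw [k, zero_smul] at h1; exact h1)
  rw [PS.hw, h1, Pi.smul_apply, norm_smul, norm_smul, mul_div_mul_left _ _ (norm_ne_zero_iff.2 h2)]

theorem x_ne {r : ℕ} (S : PS r) {h : S.H.ι} {z : Fin r → ℂ} (hq : S.pt (Fin.cons 1 z) ∈ S.H.U h) :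
    S.x h (S.pt (Fin.cons 1 z)) 0 ≠ 0 := by
  obtain ⟨c, hc⟩ := S.x_pt _ (fun k => one_ne_zero (congrFun k 0)) h hq
  have : c ≠ 0 := fun k => S.xnz h _ hq (by rw [hc, k, zero_smul])
  simpa [hc] using this

theorem at_eq {K : ℕ} {e : Chart K (Cm K)} {x : Cm K} (h : At e x) (o : Cm K) :
    e = chartAt (Cm K) o := chartedSpaceSelf_atlas.1 h.1

variable {p a n : ℕ} {M : Fb (p + a) p}

theorem tm_near {k : ℕ} {T : Type} [TopologicalSpace T] [ChartedSpace (Cm k) T]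
    [IsManifold 𝓘(ℂ, Cm k) ω T] {γ : T → Pt M n} {t : T} (h : Tm k γ t) :
    ∀ᶠ s in 𝓝 t, Tm k γ s := by
  filter_upwards [h.b.near, eventually_all.2 fun j => (h.x j).near, h.fp.eventually_nhds]
    with s h1 h2 h3 using ⟨h1, h2, h3⟩

variable {Q : Set M.Y.X} {l : M.κ} (B : Bx M Q l)

theorem tgt : ∀ᶠ o in 𝓝 (0 : Cm (p + n * a)), ∀ j, ((fun c => o (Fin.castAdd _ c),
    fun i => o (Fin.natAdd p (finProdFinEquiv (j, i)))) : Cm p × Cm a) ∈ B.Θ.target := by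
  refine eventually_all.2 fun j => ContinuousAt.eventually_mem (by fun_prop) ?_
  exact B.Θ.open_target.mem_nhds (B.zero ▸ B.Θ.map_source B.mem : 0 ∈ B.Θ.target)

/-- the branch is open in the fibre power -/
theorem freq (hn : 0 < n) (W : Pw M n (p + n * a) Q) {P : Pt M n → Prop}
    (hP : Dense {v | P (W.γ v)}) (tm : Tm (p + n * a) (B.γ n) 0)
    (h : ∃ᶠ o in 𝓝 0, (B.γ n o).1 ∉ Q) : ∃ᶠ o in 𝓝 0, P (B.γ n o) := by
  refine frequently_frequently_nhds.1 ((h.and_eventually ((tm_near tm).and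
    (tgt B).eventually_nhds)).mono fun y ⟨h1, h2, h3⟩ => ?_)
  obtain ⟨g, g1, g2⟩ := W.lift _ _ _ y h2 h1
  let r : Pt M n → Cm (p + n * a) := fun q => Fin.append (B.Θ (q.2 ⟨0, hn⟩)).1 fun k =>
    (B.Θ (q.2 (finProdFinEquiv.symm k).1)).2 (finProdFinEquiv.symm k).2
  have s0 : ∀ j, (W.γ (g y)).2 j ∈ B.Θ.source := fun j => by
    rw [g2.self_of_nhds]
    exact B.Θ.map_target (h3.self_of_nhds j)
  have r0 : ∀ i, Hol (p + n * a) (fun v => r (W.γ v) i) (g y) := fun i => by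
    refine Fin.addCases (fun c => ?_) (fun k => ?_) i
    · simp only [r, Fin.append_left]
      exact ((W.tm _).x _).hol (((B.coΘ.an _ (s0 _)).cmp analyticAt_fst).hol c)
    · simp only [r, Fin.append_right]
      exact ((W.tm _).x _).hol (((B.coΘ.an _ (s0 _)).cmp analyticAt_snd).hol _)
  have r1 : HolA (p + n * a) (p + n * a) (fun v => r (W.γ v)) (g y) :=
    .of_hol (continuousAt_pi.2 fun i => (r0 i).cont) (at_chart _) r0
  have r2 : ∀ᶠ s in 𝓝 y, s = r (W.γ (g s)) := by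
    filter_upwards [g2, h3] with s k1 k2
    simp only [k1, r, Bx.γ, Bx.ψ, B.Θ.right_inv (k2 _), Prod.mk.eta, Equiv.apply_symm_apply]
    exact Fin.append_castAdd_natAdd.symm
  have r3 := (imm_iff_sbm.1 (Imm.of_comp r1 g1 ((imm_id y).cng r2))).freq g1
    (mem_closure_iff_frequently.1 (hP (g y)))
  exact (r3.and_eventually g2).mono fun s k => k.2 ▸ k.1

end Bxs

open Bxs

theorem boxs (hT : TRIPLE) (hK : KEEPB) (hB : BXB) (hC : CF) (hM : MSCF) : BOXS := by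
  intro p a m Z n hn W l B k k' ε d d' d'' F Θ F' e0 e1 f1 f2 f3 f4 b1 b2 kv lt
  obtain ⟨⟨ρ, br⟩, g0, -, ⟨tn, q0⟩, j1, j2⟩ := hB p a n Z.M Z.C Z.std.ok l B hn
  have tm := tm_near br.tm
  have cf := hC p a n Z.M Z.C Z.std.ok _ (B.γ n)
  have ml : ∀ k F, Z.C.PF k F → ML _ k {o | B.γ n o ∉ Z.C.N n} (Z.C.cf k F (B.γ n)) 0 :=
    fun k F h => tm.mono fun o h1 h2 e he => ((cf o h1 (not_not.1 h2)).2.2.2.2 k F h e he).2
  obtain ⟨h, hh⟩ := Z.S.lb.cover (Z.φ (B.γ n 0).1)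
  set X := fun o => Z.S.x h (Z.φ (B.γ n o).1) with hX
  have xh : ∀ i, Hol _ (fun o => X o i) 0 := fun i => br.tm.b.hol (a := fun y => Z.S.x h (Z.φ y) i)
    (Z.hol.hol (a := fun q => Z.S.x h q i) fun e he => ((Z.S.sec i).holo h e _ he hh).analyticAt)
  have xc : ContinuousAt (fun o => ‖X o‖) 0 := (continuousAt_pi.2 fun i => (xh i).cont).norm
  have x0 : ‖X 0‖ ≠ 0 := norm_ne_zero_iff.2 (Z.S.xnz h _ hh)
  have xU : ∀ᶠ o in 𝓝 0, Z.φ (B.γ n o).1 ∈ Z.S.H.U h :=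
    (Z.hol.cont.continuousAt.comp br.tm.b.cont).eventually_mem ((Z.S.lb.isOpen h).mem_nhds hh)
  set t : Fin 2 → Cm (p + n * a) → ℂ :=
    ![fun o => o (Fin.castAdd _ B.i₀) ^ B.om m n, fun o => X o 0] with ht
  have t0 : ∀ᶠ o in 𝓝 0, (B.γ n o).1 ∉ Z.D.Q → ∀ i, t i o ≠ 0 := by
    filter_upwards [q0, xU] with o h1 h2 h3
    refine Fin.forall_fin_two.2 ⟨pow_ne_zero _ fun k => h3 (h1.2 k), ?_⟩
    change Z.S.x h (Z.φ (B.γ n o).1) 0 ≠ 0
    rw [Z.eq _ h3] at h2 ⊢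
    exact x_ne _ h2
  have eq : ∀ (k : ℕ) (d : ℤ), ∀ᶠ o in 𝓝 0, ∏ i, ‖t i o‖ ^ ![(k : ℤ), d] i =
      ‖o (Fin.castAdd _ B.i₀)‖ ^ (k * B.om m n) * Z.S.hw (Z.φ (B.γ n o).1) ^ d * ‖X o‖ ^ d := by
    intro k d
    filter_upwards [xU, xc.eventually_ne x0] with o h1 h2
    rw [hw_eq _ h1, div_zpow, mul_assoc, div_mul_cancel₀ _ (zpow_ne_zero _ h2), mul_comm k, pow_mul]
    simp [ht, hX]
  have w0 : ∀ q, 0 ≤ Z.S.hw q := fun q => div_nonneg (norm_nonneg _) (norm_nonneg _)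
  have bn : ∀ k d F, Z.BdB B k d F →
      Bn _ {o | B.γ n o ∉ Z.C.N n} (Z.C.cf (m * k) F (B.γ n)) t ![(k : ℤ), d] 0 := by
    intro k d F h e he
    obtain ⟨K, h⟩ := bd_mul (P' := fun o => B.γ n o ∈ Z.C.N n) (G' := fun o =>
      ‖Z.C.cf (m * k) F (B.γ n) e o‖ * ∏ i, ‖t i o‖ ^ ![(k : ℤ), d] i) (xc.zpow₀ d (.inl x0)) h
      ((eq k d).mono fun o h1 h2 => ⟨h2, mul_nonneg (by positivity) (zpow_nonneg (w0 _) _),
        by positivity, by rw [h1, at_eq he o]; ring⟩)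
    exact ⟨K, h.mono fun o h1 h2 _ => h1 (not_not.1 h2)⟩
  have he := at_chart (n := p + a) B.x
  have he' := at_chart (n := p) (Z.M.f B.x)
  have fr : ∃ᶠ o in 𝓝 0, ¬ B.γ n o ∉ Z.C.N n ∧
      Z.C.cf (m * k') Θ (B.γ n) (chartAt _ 0) o ≠ 0 := by
    obtain ⟨U, u1, u2, u3⟩ := j1 _ he'
    obtain ⟨U', -, -, u4⟩ := j2 _ _ he he'
    have c1 : ∀ j, Tendsto (fun o => (B.γ n o).2 j) (𝓝 0) (𝓝 B.x) := fun j => by
      simpa only [ContinuousAt, g0, dg] using (br.tm.x j).cont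
    have c2 : Tendsto (fun o => (B.γ n o).1) (𝓝 0) (𝓝 (Z.M.f B.x)) := by
      simpa only [ContinuousAt, g0, dg] using br.tm.b.cont
    have c3 : ContinuousAt (fun (o : Cm (p + n * a)) (c : Fin p) => o (Fin.castAdd _ c)) 0 :=
      continuousAt_pi.2 fun c => continuousAt_apply _ _
    refine ((freq B hn W (P := fun q => ¬ (q ∉ Z.C.N n ∨ Θ (chartAt (Cm p) q.1) q = 0))
      ((hM p a n Z.M Z.C Z.std.ok W _ Θ f2).2 f4).2 br.tm br.off).and_eventually (tm.and (u3.and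
        ((tgt B).and (q0.and ((c2.eventually (at_near he')).and
        ((Tendsto.eventually c3 (u1.eventually_ne u2)).and (eventually_all.2 fun j =>
          (c1 j).eventually (u4.and (at_near he)))))))))).mono ?_
    rintro o ⟨h1, h2, h3, h4, h5, h6, h7, h8⟩
    obtain ⟨h0, h1⟩ := not_or.1 h1
    have h9 := not_not.1 h0
    refine ⟨h0, ?_⟩
    rw [at_eq (at_chart 0) o, ((cf o h2 h9).2.2.2.2 _ Θ f2.toPF _ (at_chart o)).1 _ h6]
    refine mul_ne_zero (fun k => h1 ?_) (pow_ne_zero _ ?_)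
    · rw [f2.chg _ _ _ h9 (at_chart _) h6, k, mul_zero]
    rw [h3 h9]
    refine mul_ne_zero (mul_ne_zero h7 (pow_ne_zero _ fun k => h9.2.1 (h5.2 k)))
      (Finset.prod_ne_zero_iff.2 fun j _ k => Z.C.et _ (h9.2.2 j) _ _ (h8 j).2
        ((h9.1 j).symm ▸ h6) ?_)
    rw [(h8 j).1 (h9.2.2 j)]
    simp only [Bx.γ, Bx.ψ, B.Θ.right_inv (h4 j)]
    exact mul_eq_zero_of_right _ k
  have th : ∀ i, Hol (p + n * a) (t i) 0 :=
    Fin.forall_fin_two.2 ⟨(hol_chart (at_chart (0 : Cm (p + n * a))) _).pow _, xh 0⟩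
  have m0 : (0 : ℝ) < m := by exact_mod_cast lt_of_lt_of_le two_pos Z.std.two
  obtain ⟨g, g1, g2⟩ := hT _ _ (Fin 2) {o | B.γ n o ∉ Z.C.N n} _ _ _ (m * k) (m * k') ε t
    ![(k : ℤ), d] ![(k' : ℤ), d'] ![(k : ℤ), d''] ![0, (Z.D.v + 1 : ℕ)] _ 0 tn
    (tm.mono fun o h1 h2 => (cf o h1 (not_not.1 h2)).1.mono fun _ h => not_not.2 h.1) e0 e1
    (ml _ _ f1) (ml _ _ f2.toPF) (ml _ _ f3) ⟨_, at_chart 0, fr⟩
    (fun i => ⟨th i, fun k =>
      let ⟨_, h1, h2, h3⟩ := (br.off.and_eventually (t0.and k)).exists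
      h2 h1 i h3⟩) (bn _ _ _ b1) (bn _ _ _ b2) (Fin.forall_fin_two.2 ⟨by
        push_cast at e1
        simpa using lt_of_mul_lt_mul_left (a := (m : ℝ)) (by linarith) m0.le, by simpa using lt⟩)
    ⟨((‖X 0‖ + 1) ^ (2 * (Z.D.v + 1)))⁻¹, by positivity, by
      filter_upwards [xU, xc.eventually_ne x0, xc.eventually_lt continuousAt_const (lt_add_one _)]
        with o h1 h2 h3 _
      rw [← ENNReal.ofReal_pow (w0 _), hw_eq _ h1, div_pow, div_eq_inv_mul, Fin.prod_univ_two,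
        ← Real.rpow_natCast ‖Z.S.x h _ 0‖]
      refine ENNReal.ofReal_le_ofReal ?_
      simp only [ht, Matrix.cons_val, mul_zero, Real.rpow_zero, one_mul, Nat.cast_mul,
        Nat.cast_ofNat]
      gcongr⟩
    (hK p a n Z.M Z.C Z.std.ok W _ _ _ ρ _ _ ε F Θ F'
      (fun y => ENNReal.ofReal (Z.S.hw (Z.φ y)) ^ (2 * (Z.D.v + 1) : ℕ)) br e1 f1 f2.toPF f3 kv)
    _ (at_chart 0)
  refine bd_mul (P := fun _ => True) (G := fun o => ‖g o‖) (N := fun o => (‖X o‖ ^ d'')⁻¹)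
    ((xc.zpow₀ d'' (.inl x0)).inv₀ (zpow_ne_zero _ x0)) ⟨‖g 0‖ + 1,
      (g1.cont.norm.eventually_lt continuousAt_const (lt_add_one _)).mono fun o h _ => h.le⟩ ?_
  filter_upwards [g2, t0, eq k d'', xc.eventually_ne x0] with o h1 h2 h3 h4 h5
  refine ⟨trivial, norm_nonneg _, by positivity, ?_⟩
  rw [h1 (not_not.2 h5) (h2 h5.2.1), norm_mul, norm_prod]
  simp only [norm_zpow]
  rw [h3, at_eq (at_chart 0) o]
  field_simp

end Vale.Agent.P281Z.Gt
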