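import Vale.Agent.P281Z.Gt.BxbA

/-!
# P281Z, block III, part B: the diagonal branch (BXB)
-/

open scoped Manifold ContDiff Topology
open Set Filter
open Vale.Agent.P272.K Vale.Agent.P285.H281.FD
open Vale.Agent.P277Z (Hol at_chart)

noncomputable section

namespace Vale.Agent.P281Z.Gt

namespace BxH

variable {p a n : ℕ} {M : Fb (p + a) p}

section box

variable {Q : Set M.Y.X} {l : M.κ} (B : Bx M Q l)

theorem tgt0 : (0 : Cm p × Cm a) ∈ B.Θ.target := B.zero ▸ B.Θ.map_source B.mem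

theorem symm0 : B.Θ.symm 0 = B.x := by rw [← B.zero, B.Θ.left_inv B.mem]

variable {B} {b : Cm p} {u : Cm a}

theorem src (h : (b, u) ∈ B.Θ.target) : B.ψ b u ∈ B.Θ.source := B.Θ.map_target h

theorem th (h : (b, u) ∈ B.Θ.target) : B.Θ (B.ψ b u) = (b, u) := B.Θ.right_inv h

theorem eta_f (h : (b, u) ∈ B.Θ.target) : B.η (M.f (B.ψ b u)) = pw B.i₀ B.A b := by
  rw [(B.map _ (src h)).2, th h]
  rfl

theorem f_psi (h : (b, u) ∈ B.Θ.target) : M.f (B.ψ b u) = B.yb b :=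
  (B.η.left_inv (B.map _ (src h)).1).symm.trans (congrArg B.η.symm (eta_f h))

theorem pw_tgt (h : (b, u) ∈ B.Θ.target) : pw B.i₀ B.A b ∈ B.η.target :=
  eta_f h ▸ B.η.map_source (B.map _ (src h)).1

theorem yb_Q (h : (b, u) ∈ B.Θ.target) : B.yb b ∈ Q ↔ b B.i₀ = 0 := by
  rw [← f_psi h, B.base _ (B.map _ (src h)).1, eta_f h]
  simp [pw, B.pos.ne']

theorem f_th {x : M.X.X} (h : x ∈ B.Θ.source) : B.yb (B.Θ x).1 = M.f x :=
  (f_psi (B.Θ.map_source h)).symm.trans (congrArg M.f (B.Θ.left_inv h))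

theorem psi_hol (h : (b, u) ∈ B.Θ.target) : HolA a (p + a) (B.ψ b) u :=
  B.coΘ.holA (F := fun u => (b, u)) (anV_model (analyticAt_const.prod analyticAt_id)) h

theorem psi_imm (h : (b, u) ∈ B.Θ.target) : Imm a (p + a) (B.ψ b) u := by
  refine Imm.of_comp (g := fun x => (B.Θ x).2)
    (holA_model ((B.coΘ.an _ (src h)).cmp analyticAt_snd)) (psi_hol h) ((imm_id u).cng ?_)
  filter_upwards [(Continuous.prodMk_right b).continuousAt.eventually
    (B.Θ.open_target.mem_nhds h)] with v hv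
  rw [th hv]

variable (B)

theorem yb0 : B.yb 0 = M.f B.x := (f_psi (tgt0 B)).symm.trans (congrArg M.f (symm0 B))

theorem alpha {e' : Chart p M.Y.X} (he' : At e' (M.f B.x)) :
    ∃ U : Cm p → ℂ, ContinuousAt U 0 ∧ U 0 ≠ 0 ∧ ∀ᶠ b in 𝓝 (0 : Cm p),
      DifferentiableAt ℂ (fun b => e' (B.yb b)) b ∧
        D (fun b => e' (B.yb b)) b = U b * b B.i₀ ^ (B.A - 1) := by
  have z := pw_zero B.i₀ B.pos
  have h0 : (0 : Cm p) ∈ B.η.target := z ▸ pw_tgt (tgt0 B)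
  have s0 : B.η.symm 0 = M.f B.x := (congrArg B.η.symm z.symm).trans (yb0 B)
  have hκ : AnalyticAt ℂ (fun v => e' (B.η.symm v)) 0 := B.coη.inv 0 h0 e' (s0 ▸ he')
  have c : Tendsto (pw B.i₀ B.A) (𝓝 0) (𝓝 0) := by
    simpa only [ContinuousAt, z] using (pw_an B.i₀ B.A 0).continuousAt
  refine ⟨fun b => D (fun v => e' (B.η.symm v)) (pw B.i₀ B.A b) * B.A, ?_, ?_, ?_⟩
  · refine ContinuousAt.mul ?_ continuousAt_const
    rw [ContinuousAt, z]
    exact (D_cont hκ).tendsto.comp c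
  · show D _ (pw B.i₀ B.A 0) * _ ≠ 0
    rw [z]
    refine mul_ne_zero (D_ne (g := fun z => B.η (e'.symm z)) ?_ hκ.differentiableAt ?_)
      (Nat.cast_ne_zero.2 B.pos.ne')
    · rw [s0]
      exact (B.coη.an _ (B.map _ B.mem).1 e' he').differentiableAt
    · filter_upwards [(B.η.continuousAt_symm h0).eventually (at_near (s0 ▸ he')),
        B.η.open_target.mem_nhds h0] with v h1 h2
      rw [h1.left_inv, B.η.right_inv h2]
  · filter_upwards [c.eventually hκ.eventually_analyticAt] with b hb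
    have h := (pw_an B.i₀ B.A b).differentiableAt
    exact ⟨hb.differentiableAt.comp b h,
      (D_comp hb.differentiableAt h).trans (by rw [D_pw, mul_assoc])⟩

/-- the coordinates of the slot `j` -/
def sp (p a : ℕ) {n : ℕ} (j : Fin n) : Cm (p + n * a) →L[ℂ] Cm p × Cm a :=
  ((ContinuousLinearMap.fst ℂ (Cm p) (Fin n → Cm a)).prod
    ((ContinuousLinearMap.proj (R := ℂ) (φ := fun _ : Fin n => Cm a) j).comp
      (ContinuousLinearMap.snd ℂ (Cm p) (Fin n → Cm a)))).comp (Tw p n a).toContinuousLinearMap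

theorem ev_tgt (n : ℕ) : ∀ᶠ o in 𝓝 (0 : Cm (p + n * a)), ∀ j, sp p a j o ∈ B.Θ.target :=
  eventually_all.2 fun j => (sp p a j).continuous.continuousAt.eventually
    (B.Θ.open_target.mem_nhds ((sp p a j).map_zero.symm ▸ tgt0 B))

theorem gam0 (n : ℕ) : B.γ n 0 = dg n B.x := Prod.ext (yb0 B) (funext fun _ => symm0 B)

theorem gam_hol (j : Fin n) : HolA (p + n * a) (p + a) (fun o => (B.γ n o).2 j) 0 :=
  B.coΘ.holA (F := sp p a j) (anV_model ((sp p a j).analyticAt 0))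
    ((sp p a j).map_zero.symm ▸ tgt0 B)

theorem gam_fp (n : ℕ) : ∀ᶠ o in 𝓝 (0 : Cm (p + n * a)), Fp (B.γ n o) :=
  (ev_tgt B n).mono fun _ h j => f_psi (h j)

theorem gam_Q (j : Fin n) : ∀ᶠ o in 𝓝 (0 : Cm (p + n * a)),
    (B.γ n o).1 ∈ Q ↔ o (Fin.castAdd _ B.i₀) = 0 :=
  (ev_tgt B n).mono fun _ h => yb_Q (h j)

/-- the retraction -/
def rho (j : Fin n) (q : Pt M n) : Cm (p + n * a) :=
  (Tw p n a).symm ((B.Θ (q.2 j)).1, fun j => (B.Θ (q.2 j)).2)

theorem br (j : Fin n) : Br Q (B.γ n) 0 (rho B j) where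
  tm := ⟨B.coη.holA (F := fun o => pw B.i₀ B.A (sp p a j o).1)
      (anV_model ((pw_an _ _ _).comp (analyticAt_fst.comp ((sp p a j).analyticAt 0))))
      (pw_tgt (u := 0) (tgt0 B)), gam_hol B, gam_fp B n⟩
  inv := (ev_tgt B n).mono fun o h => by
    refine (Tw p n a).symm_apply_eq.2 (Prod.ext ?_ (funext fun j' => ?_))
    · exact (congrArg Prod.fst (B.Θ.right_inv (h j)) :)
    · exact congrArg Prod.snd (B.Θ.right_inv (h j'))
  hol k T _ _ _ _ _ g t hg e := by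
    have h : ∀ j, AnV k (fun s => B.Θ ((g s).2 j)) t := fun j =>
      anV_comp (hg.x j) (B.coΘ.an _ (by rw [e, gam0]; exact B.mem))
    refine holA_model (AnV.cmp (G := (Tw p n a).symm) (((h j).cmp analyticAt_fst).prod
      fun c hc => AnalyticAt.pi fun j => (h j).cmp analyticAt_snd c hc) ?_)
    exact (Tw p n a).symm.toContinuousLinearMap.analyticAt _
  off := by
    have h : Tendsto (fun z : ℂ => fun _ : Fin (p + n * a) => z) (𝓝[≠] 0) (𝓝 0) :=
      ((continuous_pi fun _ => continuous_id).tendsto 0).mono_left nhdsWithin_le_nhds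
    exact (h.frequently (p := fun o => o (Fin.castAdd _ B.i₀) ≠ 0)
      (Eventually.frequently (f := 𝓝[≠] (0 : ℂ)) self_mem_nhdsWithin)).mp ((gam_Q B j).mono fun o h1 h2 h3 => h2 (h1.1 h3))

end box

variable {C : NS M} {l : M.κ} {B : Bx M C.Q l} {b : Cm p} {u : Cm a}

theorem dens (h : (b, u) ∈ B.Θ.target) (hb : b B.i₀ ≠ 0) : ∃ᶠ v in 𝓝 u, B.ψ b v ∉ C.S := by
  have h1 := mem_closure_iff_frequently.1 (C.fib (B.ψ b u) (by rw [f_psi h, yb_Q h]; exact hb))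
  have c : Tendsto B.Θ (𝓝 (B.ψ b u)) (𝓝 (b, u)) := th h ▸ B.Θ.continuousAt (src h)
  refine (continuousAt_snd.tendsto.comp c).frequently (h1.mp ?_)
  filter_upwards [B.Θ.open_source.mem_nhds (src h),
    (continuousAt_fst.tendsto.comp c).eventually (pw_inj B.i₀ B.pos hb)] with x h2 h3 h4
  have e : (B.Θ x).1 = b := h3 (((B.map x h2).2.symm.trans (congrArg B.η h4.1)).trans (eta_f h))
  have e' : B.ψ b (B.Θ x).2 = x := e ▸ B.Θ.left_inv h2
  exact fun h5 => h4.2 (e' ▸ h5)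

theorem w_an (h : (b, u) ∈ B.Θ.target) (hS : B.ψ b u ∉ C.S) :
    AnalyticAt ℂ (fun v i => C.w i (B.Θ.symm v)) (b, u) :=
  AnalyticAt.pi fun i => B.coΘ.an_hol h ((C.mr i).hol _ hS)

variable (B)

theorem pieces : ∃ r > 0, ∀ᶠ b in 𝓝 (0 : Cm p), b B.i₀ ≠ 0 → B.yb b ∉ C.Q ∧
    Pc (B.yb b) r (B.ψ b) ∧
    ∀ r' > 0, r' ≤ r → Metric.ball 0 r' ⊆ closure {u ∈ Metric.ball 0 r' | B.ψ b u ∉ C.S} := by
  obtain ⟨r, hr, hs⟩ := Metric.mem_nhds_iff.1 (B.Θ.open_target.mem_nhds (tgt0 B))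
  refine ⟨r, hr, mem_of_superset (Metric.ball_mem_nhds 0 hr) fun b h0 hb => ?_⟩
  have h : ∀ u ∈ Metric.ball (0 : Cm a) r, (b, u) ∈ B.Θ.target := fun u hu =>
    hs ((ball_prod_same (0 : Cm p) (0 : Cm a) r).subset ⟨h0, hu⟩)
  refine ⟨mt (yb_Q (h 0 (Metric.mem_ball_self hr))).1 hb, ⟨fun u hu => psi_hol (h u hu),
    fun u hu => f_psi (h u hu), fun u hu l' hl => hb ?_, fun u hu => psi_imm (h u hu),
    fun u hu v hv e => ?_⟩, fun r' _ hr' u hu => mem_closure_iff_frequently.2 ?_⟩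
  · have := ((B.div _ (src (h u hu)) l').1 hl).2
    rwa [th (h u hu)] at this
  · exact congrArg Prod.snd (((th (h u hu)).symm.trans (congrArg B.Θ e)).trans (th (h v hv)))
  · exact (dens (h u (Metric.ball_subset_ball hr' hu)) hb).mp
      (mem_of_superset (Metric.isOpen_ball.mem_nhds hu) fun v h1 h2 => ⟨h1, h2⟩)

theorem tn (j : Fin n) : Tn (p + n * a) {o | B.γ n o ∉ C.N n} 0 := by
  obtain ⟨g, h1, h2, h3⟩ := C.thinS.nz B.x
  have e : ∀ j, (B.γ n 0).2 j = B.x := fun j => by rw [gam0]; rfl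
  refine ⟨fun o => ∏ j, g ((B.γ n o).2 j), P277Z.Hol.prod _ fun j _ =>
    (gam_hol B j).hol ((e j).symm ▸ h1), fun h => h2 ?_, ?_⟩
  · have c : Tendsto (fun x => rho B j (dg n x)) (𝓝 B.x) (𝓝 0) := by
      have c1 : Tendsto B.Θ (𝓝 B.x) (𝓝 0) := B.zero ▸ B.Θ.continuousAt B.mem
      have c2 : Continuous fun v : Cm p × Cm a => (Tw p n a).symm (v.1, fun _ => v.2) := by
        fun_prop
      exact (c2.tendsto' 0 0 (map_zero _)).comp c1
    filter_upwards [c.eventually h, B.Θ.open_source.mem_nhds B.mem] with x k1 k2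
    obtain ⟨j', -, k3⟩ := Finset.prod_eq_zero_iff.1 k1
    have k4 : sp p a j' (rho B j (dg n x)) = B.Θ x :=
      congrArg (fun v : Cm p × (Fin n → Cm a) => (v.1, v.2 j')) ((Tw p n a).apply_symm_apply _)
    have k5 : (B.γ n (rho B j (dg n x))).2 j' = x :=
      (congrArg B.Θ.symm k4).trans (B.Θ.left_inv k2)
    rwa [k5] at k3
  · filter_upwards [gam_fp B n, eventually_all.2 fun j =>
      (gam_hol B j).cont.eventually ((e j).symm ▸ h3)] with o k1 k2 k3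
    by_contra k4
    have k5 : ∀ j, (B.γ n o).2 j ∉ C.S := fun j k6 =>
      k4 (Finset.prod_eq_zero (Finset.mem_univ j) (k2 j k6))
    exact k3 ⟨k1, fun k6 => k5 j (C.sub _ ((k1 j).symm ▸ k6)), k5⟩

theorem jn_eq (j : Fin n) {e' : Chart p M.Y.X} (he' : At e' (M.f B.x)) :
    ∃ U : Cm p → ℂ, ContinuousAt U 0 ∧ U 0 ≠ 0 ∧
    ∀ᶠ o in 𝓝 (0 : Cm (p + n * a)), B.γ n o ∈ C.N n → C.jn e' (B.γ n) (chartAt _ o) o =
      U (fun c => o (Fin.castAdd _ c)) * o (Fin.castAdd _ B.i₀) ^ (B.A - 1) * ∏ j, jw C.w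
        (B.ψ fun c => o (Fin.castAdd _ c)) fun i => o (Fin.natAdd p (finProdFinEquiv (j, i))) := by
  obtain ⟨U, h1, h2, h3⟩ := alpha B he'
  refine ⟨U, h1, h2, ?_⟩
  have c : Tendsto (fun o => (sp p a j o).1) (𝓝 (0 : Cm (p + n * a))) (𝓝 0) :=
    (continuous_fst.comp (sp p a j).continuous).tendsto' 0 0 rfl
  filter_upwards [c.eventually h3, ev_tgt B n] with o k1 k2 k3
  have hw : ∀ j, DifferentiableAt ℂ (fun v i => C.w i (B.Θ.symm v))
      ((Tw p n a o).1, (Tw p n a o).2 j) := fun j => (w_an (k2 j) (k3.2.2 j)).differentiableAt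
  have hβ : DifferentiableAt ℂ (fun (v : Cm p × (Fin n → Cm a)) j i =>
      C.w i (B.Θ.symm (v.1, v.2 j))) ((Tw p n a o).1, (Tw p n a o).2) :=
    differentiableAt_pi.2 fun j => DifferentiableAt.comp
      (f := fun v : Cm p × (Fin n → Cm a) => (v.1, v.2 j)) _ (hw j) (by fun_prop)
  have hα : DifferentiableAt ℂ (fun b => e' (B.yb b)) (Tw p n a o).1 := k1.1
  refine (D_conj (Tw p n a) (g := fun v => (e' (B.yb v.1), fun j i =>
    C.w i (B.Θ.symm (v.1, v.2 j))))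
    ((DifferentiableAt.comp (f := Prod.fst) _ hα differentiableAt_fst).prodMk hβ)).trans ?_
  refine (D_tri hα hβ).trans (congrArg₂ _ k1.2 ?_)
  exact D_blk (φ := fun _ v i => C.w i (B.Θ.symm ((Tw p n a o).1, v))) fun j =>
    DifferentiableAt.comp (f := fun v : Cm a => ((Tw p n a o).1, v)) _ (hw j) (by fun_prop)

theorem jdw_eq {e : Chart (p + a) M.X.X} {e' : Chart p M.Y.X} (he : At e B.x)
    (he' : At e' (M.f B.x)) : ∃ U : M.X.X → ℂ, ContinuousAt U B.x ∧ U B.x ≠ 0 ∧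
    ∀ᶠ x in 𝓝 B.x, x ∉ C.S →
      jdw C.w e e' x = U x * (B.Θ x).1 B.i₀ ^ (B.A - 1) * jw C.w (B.ψ (B.Θ x).1) (B.Θ x).2 := by
  obtain ⟨U, h1, h2, h3⟩ := alpha B he'
  have hl : AnalyticAt ℂ (fun z => (T1 p a).symm (B.Θ (e.symm z))) (e B.x) :=
    ((T1 p a).symm.toContinuousLinearMap.analyticAt _).comp (B.coΘ.an _ B.mem e he)
  have c : Tendsto (fun x => (B.Θ x).1) (𝓝 B.x) (𝓝 0) :=
    continuousAt_fst.tendsto.comp (B.zero ▸ B.Θ.continuousAt B.mem : Tendsto B.Θ (𝓝 B.x) (𝓝 0))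
  have ce := e.continuousAt he.2
  refine ⟨fun x => U (B.Θ x).1 * D (fun z => (T1 p a).symm (B.Θ (e.symm z))) (e x), ?_, ?_, ?_⟩
  · refine ContinuousAt.mul ?_ ((D_cont hl).comp ce)
    rw [ContinuousAt, B.zero]
    exact h1.tendsto.comp c
  · show U (B.Θ B.x).1 * _ ≠ 0
    rw [B.zero]
    refine mul_ne_zero h2 (D_ne (g := fun v => e (B.Θ.symm (T1 p a v))) ?_ hl.differentiableAt ?_)
    · refine DifferentiableAt.comp (g := fun v => e (B.Θ.symm v)) _ ?_ (T1 p a).differentiableAt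
      rw [(T1 p a).apply_symm_apply, he.left_inv, B.zero]
      exact (B.coΘ.inv 0 (tgt0 B) e ((symm0 B).symm ▸ he)).differentiableAt
    · filter_upwards [at_ev he (B.Θ.open_source.mem_nhds B.mem),
        e.open_target.mem_nhds (e.map_source he.2)] with z k1 k2
      rw [(T1 p a).apply_symm_apply, B.Θ.left_inv k1, e.right_inv k2]
  filter_upwards [c.eventually h3, B.Θ.open_source.mem_nhds B.mem, at_near he,
    ce.eventually hl.eventually_analyticAt] with x k1 k2 k3 k4 k5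
  have hβ : DifferentiableAt ℂ (fun v i => C.w i (B.Θ.symm v)) ((B.Θ x).1, (B.Θ x).2) :=
    (w_an (B.Θ.map_source k2) ((B.Θ.left_inv k2).symm ▸ k5 :
      B.Θ.symm (B.Θ x) ∉ C.S)).differentiableAt
  have e0 : T1 p a ((T1 p a).symm (B.Θ (e.symm (e x)))) = B.Θ x := by
    rw [(T1 p a).apply_symm_apply, k3.left_inv]
  have hΨ : DifferentiableAt ℂ (fun v : Cm p × Cm a => (e' (B.yb v.1), fun i => C.w i (B.Θ.symm v)))
      (T1 p a ((T1 p a).symm (B.Θ (e.symm (e x))))) := by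
    rw [e0]
    exact (DifferentiableAt.comp (f := Prod.fst) _ k1.1 differentiableAt_fst).prodMk hβ
  have e1 : jdw C.w e e' x = D (fun z => (T1 p a).symm ((fun v : Cm p × Cm a =>
      (e' (B.yb v.1), fun i => C.w i (B.Θ.symm v))) (T1 p a ((T1 p a).symm (B.Θ (e.symm z))))))
      (e x) := by
    refine D_congr ?_
    filter_upwards [at_ev k3 (B.Θ.open_source.mem_nhds k2)] with z hz
    rw [(T1 p a).apply_symm_apply]
    funext i
    show _ = Fin.append (e' (B.yb (B.Θ (e.symm z)).1))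
      (fun i => C.w i (B.Θ.symm (B.Θ (e.symm z)))) i
    rw [f_th hz, B.Θ.left_inv hz]
    refine Fin.addCases (fun c => ?_) (fun c => ?_) i <;>
      simp only [Fin.append_left, Fin.append_right]
  rw [e1, D_comp (g := fun z => (T1 p a).symm ((fun v : Cm p × Cm a =>
      (e' (B.yb v.1), fun i => C.w i (B.Θ.symm v))) (T1 p a z)))
      (f := fun z => (T1 p a).symm (B.Θ (e.symm z))) (x := e x)
    ((T1 p a).symm.differentiableAt.comp _ (hΨ.comp _ (T1 p a).differentiableAt))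
    k4.differentiableAt, D_conj _ hΨ, e0, D_tri k1.1 hβ, k1.2]
  show _ * D (fun u i => C.w i (B.ψ (B.Θ x).1 u)) _ * _ =
    _ * _ * D (fun u i => C.w i (B.ψ (B.Θ x).1 u)) _
  ring

end BxH

open BxH in
theorem bxb : BXB := fun _ _ n _ _ _ _ B hn =>
  ⟨⟨_, br B ⟨0, hn⟩⟩, gam0 B n, pieces B, ⟨tn B ⟨0, hn⟩, gam_Q B ⟨0, hn⟩⟩,
    fun _ he' => jn_eq B ⟨0, hn⟩ he', fun _ _ he he' => jdw_eq B he he'⟩

end Vale.Agent.P281Z.Gt
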