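import Vale.Agent.P281Z.Gt.SkB
import Vale.Agent.P281Z.Gt.FinalA
import Vale.Agent.P281Z.Gl.Loc

/-!
# P281Z, block III, part B: the restriction to the diagonal
-/

open scoped Manifold ContDiff Topology
open Set Filter Function
open Vale.Agent.P272.K Vale.Agent.P285.H281.FD
open Vale.Agent.P277Z (Hol Mer Nz gen jd at_chart gen_of_nhds)
open Vale.Agent.P277Z.Slc (Ind LEq Snc isLB_can)
open Vale.Agent.P277Z.Lo (mer_congr mer_of_hol mer_mul)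
open Vale.Agent.P281Z.Md (Bnd bnd_cont)

noncomputable section

namespace Vale.Agent.P281Z.Gt

namespace Fnl

theorem mer_pow {n : ℕ} {X : Type} [TopologicalSpace X] [ChartedSpace (Cm n) X]
    [IsManifold 𝓘(ℂ, Cm n) ω X] {g : X → ℂ} {x : X} (h : Mer n g x) (k : ℕ) :
    Mer n (fun y => g y ^ k) x := by
  induction k with
  | zero => simpa only [pow_zero] using mer_of_hol (P277Z.hol_const 1 x)
  | succ k ih => simpa only [pow_succ] using mer_mul ih h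

section sg

variable {p a n : ℕ} {M : Fb (p + a) p} (C : NS M)

/-- the form on the diagonal -/
def sg (N : ℕ) (F : Chart p M.Y.X → Pt M n → ℂ) (β : Chart p M.Y.X → M.Y.X → ℂ)
    (e : Chart (p + a) M.X.X) (e' : Chart p M.Y.X) (x : M.X.X) : ℂ :=
  F e' (dg n x) * jdw C.w e e' x ^ N * β e' (M.f x)

/-- the same, with the preferred chart of the base -/
def sc (N : ℕ) (F : Chart p M.Y.X → Pt M n → ℂ) (β : Chart p M.Y.X → M.Y.X → ℂ)
    (e : Chart (p + a) M.X.X) (x : M.X.X) : ℂ := sg C N F β e (chartAt (Cm p) (M.f x)) x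

variable {C} {k k' N : ℕ} {F : Chart p M.Y.X → Pt M n → ℂ} {β : Chart p M.Y.X → M.Y.X → ℂ}
  {x : M.X.X} {e e₁ : Chart (p + a) M.X.X} {e' e₁' : Chart p M.Y.X}

theorem nQ (hx : x ∉ C.S) : M.f x ∉ C.Q := fun k => hx (C.sub x k)

theorem dg_mem (hx : x ∉ C.S) : dg n x ∈ C.N n := ⟨fun _ => rfl, nQ hx, fun _ => hx⟩

variable (hf : HolM (p + a) p M.f)
include hf

theorem tm_dg (x : M.X.X) : Tm (p + a) (dg (M := M) n) x :=
  ⟨hf.at x, fun _ => holM_id.at x, .of_forall fun _ _ => rfl⟩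

theorem hol_dg (hF : C.PF k F) (hx : x ∉ C.S) (he' : At e' (M.f x)) :
    Hol (p + a) (fun y => F e' (dg n y)) x :=
  hF.hol e' _ (dg_mem hx) he' _ _ (dg n) x (tm_dg hf x) rfl

theorem sc_ev (hF : C.PF k F) (hβ : BF p k' C.Q β) (he : At e x) (he' : At e' (M.f x)) :
    ∀ᶠ y in 𝓝 x, y ∉ C.S → sc C (k + k') F β e y = sg C (k + k') F β e e' y := by
  filter_upwards [at_near he, hf.cont.continuousAt.eventually (at_near he')] with y h1 h2 hy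
  have h3 := at_chart (n := p) (M.f y)
  rw [sc, sg, sg, hF.chg _ e' _ (dg_mem hy) h3 h2, hβ.chg _ e' _ h3 h2 (nQ hy),
    jdw_chg' (hf.at y) (fun i => (C.mr i).hol y hy) h1 h3 h2]
  simp only [dg]
  ring

theorem ms (hF : C.AF k F) (hβ : BF p k' C.Q β) :
    MS (p + a) C.S ((Bd.can (p + a) M.X.X).pow (k + k')) (sc C (k + k') F β) where
  hol e x he hx := by
    have he' := at_chart (n := p) (M.f x)
    refine (((hol_dg hf hF.toPF hx he').mul ((jdw_hol (hf.at x) (fun i => (C.mr i).hol x hx)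
      he he').pow (k + k'))).mul (hf.hol (hβ.hol _ _ he' (nQ hx)))).congr ?_
    filter_upwards [sc_ev hf hF.toPF hβ he he', C.thinS.closed.isOpen_compl.mem_nhds hx]
      with y h1 h2 using (h1 h2).symm
  chg e e₁ x he he₁ hx := by
    change _ = (jacM e e₁ x).det ^ (k + k') * _
    unfold sc sg
    rw [jdw_chg (hf.at x) (fun i => (C.mr i).hol x hx) he he₁ (at_chart _)]
    ring
  mer e x he := by
    have he' := at_chart (n := p) (M.f x)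
    refine mer_congr (mer_mul (mer_mul (hF.mer _ _ (dg n) x (tm_dg hf x)
      ((C.thinS.freq x).mono fun _ => dg_mem) _ he')
      (mer_pow (jdw_mer (hf.at x) (fun i => (C.mr i).mer x) he he') (k + k')))
      (mert _ _ _ _ C.Q (β _) M.f x (C.thinQ.an _) (hβ.mer _ _ he')
        ((at_near he').mono fun y => hβ.hol _ y) (hf.at x)
        ((C.thinS.freq x).mono fun _ => nQ))) ?_
    filter_upwards [C.thinS.gen x, gen_of_nhds (sc_ev hf hF.toPF hβ he he')] with y h1 h2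
      using (h2 h1).symm

/-- the bound over the complement of `Q` -/
theorem bnd_reg (hF : C.AF k F) (hβ : BF p k' C.Q β) (hN : k + k' = k * n) (hx : M.f x ∉ C.Q)
    (he : At e x) {ζ : M.κ → M.X.X → ℂ} (hζ : ∀ l, LEq (p + a) (M.G l) x (ζ l)) :
    Bnd C.Sᶜ (fun y => ‖sc C (k + k') F β e y‖ *
      ∏ l, ‖ζ l y‖ ^ (((k + k' : ℕ) : ℝ) * M.δ l)) x := by
  have he' := at_chart (n := p) (M.f x)
  generalize chartAt (Cm p) (M.f x) = e' at he'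
  obtain ⟨K, hK⟩ := hF.bs (dg n x) (fun _ => rfl) hx e' he' (fun _ => e) e' (fun _ => ζ)
    (fun _ => he) he' fun _ => hζ
  have h1 : ContinuousAt (dg (M := M) n) x :=
    hf.cont.continuousAt.prodMk (continuousAt_pi.2 fun _ => continuousAt_id)
  have h2 : Bnd C.Sᶜ (fun y => ‖F e' (dg n y)‖ * ∏ _j : Fin n,
      (‖jdw C.w e e' y‖ ^ k * ∏ l, ‖ζ l y‖ ^ ((k : ℝ) * M.δ l))) x :=
    ⟨K, (h1.eventually hK).mono fun y k1 k2 => k1 (dg_mem k2) fun _ => C.offG y k2⟩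
  refine (h2.mul (bnd_cont (hf.hol (hβ.hol _ _ he' hx)).cont.norm) (fun _ => by positivity)
    fun _ => norm_nonneg _).mono ((sc_ev hf hF.toPF hβ he he').mono fun y k1 k2 => ⟨k2, ?_⟩)
  have h3 : ∀ l, ‖ζ l y‖ ^ (((k * n : ℕ) : ℝ) * M.δ l) = (‖ζ l y‖ ^ ((k : ℝ) * M.δ l)) ^ n :=
    fun l => by
      rw [← Real.rpow_mul_natCast (norm_nonneg _), Nat.cast_mul, mul_right_comm]
  rw [k1 k2, hN]
  simp only [h3, sg, Finset.prod_pow, Finset.prod_const, Finset.card_univ, Fintype.card_fin,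
    norm_mul, norm_pow]
  exact le_of_eq (by ring)

end sg

theorem expo {A b r μ n m k : ℕ} (hn : 0 < n) (h : A * b + r = m * (A - 1) + μ) :
    (A - 1) * (m * k * n) + μ * k * n =
      k * ((n - 1) * r + μ + m * (A - 1)) + A * (b * ((n - 1) * k)) := by
  obtain ⟨n, rfl⟩ : ∃ n', n = n' + 1 := ⟨n - 1, by omega⟩
  generalize A - 1 = A' at h ⊢
  rw [Nat.add_sub_cancel]
  calc _ = k * n * (m * A' + μ) + k * (μ + m * A') := by ring
    _ = _ := by rw [← h]; ring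

/-- the bound at the centre of a box -/
theorem bnd_box (hA : ALGB) (hB : BXB) {p a m n k k' : ℕ} (Z : Nm p a m) (hn : 0 < n) {l : Z.M.κ}
    (B : Bx Z.M Z.D.Q l) {F : Chart p Z.M.Y.X → Pt Z.M n → ℂ} {β : Chart p Z.M.Y.X → Z.M.Y.X → ℂ}
    (hF : Z.C.PF (m * k) F) (hβ : BF p k' Z.D.Q β) (hN : m * k + k' = m * k * n)
    (h1 : Z.BdB B k 0 F) (h2 : ∀ e', At e' (Z.M.f B.x) → Bnd Z.D.Qᶜ
      (fun y => ‖β e' y‖ * ‖B.η y B.i₀‖ ^ (B.b m * ((n - 1) * k))) (Z.M.f B.x))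
    {e : Chart (p + a) Z.M.X.X} (he : At e B.x) : ∃ ζ : Z.M.κ → Z.M.X.X → ℂ,
      (∀ l, LEq (p + a) (Z.M.G l) B.x (ζ l)) ∧ Bnd Z.D.Sᶜ (fun y => ‖sc Z.C (m * k + k') F β e y‖ *
        ∏ l, ‖ζ l y‖ ^ (((m * k + k' : ℕ) : ℝ) * Z.M.δ l)) B.x := by
  classical
  have hf := Z.std.ok.fibn.hol
  have he' := at_chart (n := p) (Z.M.f B.x)
  generalize chartAt (Cm p) (Z.M.f B.x) = e' at he'
  obtain ⟨U, u1, -, u2⟩ := (hB p a n Z.M Z.C Z.std.ok l B hn).2.2.2.2.2 e e' he he'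
  obtain ⟨r, hr, K, hK⟩ := ((hA p a m Z n hn l B).2.2.2.2 k 0 F hF e' he').1 h1
  obtain ⟨μ, hμ⟩ := Z.std.itg l
  have s0 := B.Θ.open_source.eventually_mem B.mem
  have c0 : Tendsto B.Θ (𝓝 B.x) (𝓝 0) := B.zero ▸ B.Θ.continuousAt B.mem
  have t0 : ∀ y ∈ B.Θ.source, y ∉ Z.D.S → (B.Θ y).1 B.i₀ ≠ 0 := fun y k1 k2 k3 =>
    Z.D.offG y k2 l ((B.div y k1 l).2 ⟨rfl, k3⟩)
  refine ⟨fun l' y => if l' = l then (B.Θ y).1 B.i₀ else 1, fun l' => ?_, ?_⟩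
  · by_cases h : l' = l
    · simp only [if_pos h]
      refine co_leq B.coΘ B.mem ((ContinuousLinearMap.proj B.i₀).comp (.fst ℂ _ _)) (fun k => ?_)
        fun y hy => ((B.div y hy l').trans (and_iff_right h)).symm
      simpa using congrArg (fun T : Cm p × Cm a →L[ℂ] ℂ => T (fun _ => 1, 0)) k
    · simp only [if_neg h]
      exact leq_one (s0.mono fun y k1 k2 => h ((B.div y k1 l').1 k2).1)
  have b1 : Bnd Z.D.Sᶜ (fun y => ‖F e' (dg n y)‖ *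
      (‖jw Z.D.w (B.ψ (B.Θ y).1) (B.Θ y).2‖ ^ (m * k)) ^ n *
      ‖(B.Θ y).1 B.i₀‖ ^ (k * (B.om m n + m * (B.A - 1)))) B.x := by
    refine ⟨K, ?_⟩
    filter_upwards [s0, c0.fst_nhds.eventually hK,
      c0.snd_nhds.eventually (Metric.ball_mem_nhds _ hr)] with y k1 k2 k3 k4
    have k5 : B.ψ (B.Θ y).1 (B.Θ y).2 = y := B.Θ.left_inv k1
    have k6 : B.yb (B.Θ y).1 = Z.M.f y := by
      rw [Bx.yb, ← (B.map y k1).2, B.η.left_inv (B.map y k1).1]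
    have k7 := k2 (t0 y k1 k4) (fun _ => (B.Θ y).2) (fun _ => k3) fun _ => k5.symm ▸ k4
    rw [zpow_zero, mul_one, le_div_iff₀ (pow_pos (norm_pos_iff.2 (t0 y k1 k4)) _), k5, k6,
      Finset.prod_const, Finset.card_univ, Fintype.card_fin] at k7
    exact k7
  refine ((b1.mul (((h2 e' he').comp hf.cont.continuousAt).mono
    (.of_forall fun _ k => ⟨nQ k, le_rfl⟩)) (fun _ => by positivity) fun _ => by positivity).mul
    (bnd_cont (F := fun y => ‖U y‖ ^ (m * k * n)) (u1.norm.pow _)) (fun _ => by positivity)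
    fun _ => by positivity).mono ?_
  filter_upwards [s0, u2, sc_ev hf hF hβ he he'] with y k1 k2 k3 k4
  have k5 : ((m * k * n : ℕ) : ℝ) * Z.M.δ l = (μ * k * n : ℕ) := by
    have : (m : ℝ) * Z.M.δ l = μ := by exact_mod_cast hμ
    push_cast
    rw [← this]
    ring
  have k6 := expo (k := k) hn (Nat.div_add_mod (m * (B.A - 1) + μ) B.A)
  refine ⟨k4, le_of_eq ?_⟩
  rw [k3 k4, hN, Finset.prod_eq_single l (fun l' _ h => by simp [h]) (by simp), if_pos rfl, k5,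
    Real.rpow_natCast, sg, k2 k4, (B.map y k1).2, update_self, Bx.om, Bx.b, hμ, Nat.floor_natCast]
  simp only [norm_mul, norm_pow, mul_pow, ← pow_mul]
  generalize ‖(B.Θ y).1 B.i₀‖ = t
  calc _ = ‖F e' (dg n y)‖ * ‖jw Z.D.w (B.ψ (B.Θ y).1) (B.Θ y).2‖ ^ (m * k * n) *
        ‖β e' (Z.M.f y)‖ * ‖U y‖ ^ (m * k * n) * t ^ ((B.A - 1) * (m * k * n) + μ * k * n) := by
        ring
    _ = _ := by rw [k6]; ring

/-- the sections -/
theorem exs (hA : ALGB) (hB : BXB) {p a m n k k' : ℕ} (Z : Nm p a m) (hn : 0 < n) (T : Z.Bs)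
    {F : Chart p Z.M.Y.X → Pt Z.M n → ℂ} {β : Chart p Z.M.Y.X → Z.M.Y.X → ℂ}
    (hF : Z.C.AF (m * k) F) (hβ : BF p k' Z.D.Q β) (hN : m * k + k' = m * k * n)
    (h1 : ∀ c, Z.BdB (T.B c) k 0 F) (h2 : ∀ c e', At e' (Z.M.f (T.B c).x) → Bnd Z.D.Qᶜ
      (fun y => ‖β e' y‖ * ‖(T.B c).η y (T.B c).i₀‖ ^ ((T.B c).b m * ((n - 1) * k)))
      (Z.M.f (T.B c).x)) : ∃ s : Chart (p + a) Z.M.X.X → Z.M.X.X → ℂ,
      SecP (p + a) (p + a) id {x | ∀ l, x ∈ Z.M.G l → Rp Z.M l}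
        ((Bd.can (p + a) Z.M.X.X).pow (m * k + k')) Z.M.G
        (fun l => ((m * k + k' : ℕ) : ℝ) * Z.M.δ l) s ∧
      ∀ e x, At e x → x ∉ Z.D.S → s e x = sc Z.C (m * k + k') F β e x := by
  have hM := Z.std.ok
  have hf := hM.fibn.hol
  have := hM.conn
  refine secP_ext hM.snc (lb_pow isLB_can _) (fun l => (Z.connG l).2) Z.D.thinS (ms hf hF hβ)
    (fun x hx e he ζ hζ => bnd_reg hf hF hβ hN (Z.pre x hx) he hζ) fun l hl => ?_
  by_cases h : ∀ x ∈ Z.M.G l, Z.M.f x ∈ Z.D.Q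
  · obtain ⟨c, rfl⟩ := T.all l hl h
    exact ⟨_, ((T.B c).div _ (T.B c).mem _).2 ⟨rfl, by rw [(T.B c).zero]; rfl⟩, _, at_chart _,
      bnd_box hA hB Z hn (T.B c) hF.toPF hβ hN (h1 c) (h2 c) (at_chart _)⟩
  · push Not at h
    obtain ⟨x, k1, k2⟩ := h
    obtain ⟨ζ, hζ⟩ := Hyp.of_snc hM.snc x
    exact ⟨x, k1, _, at_chart _, ζ, hζ, bnd_reg hf hF hβ hN k2 (at_chart _) hζ⟩

theorem bb_mul {p a m : ℕ} {M : Fb (p + a) p} {Q : Set M.Y.X} {l : M.κ} (B : Bx M Q l)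
    {τ τ' : Chart p M.Y.X → M.Y.X → ℂ} (h : B.BB m τ) (h' : B.BB m τ') (u : ℕ)
    {e' : Chart p M.Y.X} (he' : At e' (M.f B.x)) : Bnd Qᶜ
      (fun y => ‖τ e' y * τ' e' y ^ u‖ * ‖B.η y B.i₀‖ ^ (B.b m * (u + 1))) (M.f B.x) := by
  have k1 : ∀ τ, B.BB m τ → Bnd Qᶜ (fun y => ‖τ e' y‖ * ‖B.η y B.i₀‖ ^ B.b m) (M.f B.x) :=
    fun τ h => by
      obtain ⟨K, hK⟩ := h e' he'
      refine ⟨K, ?_⟩
      filter_upwards [hK, B.η.open_source.eventually_mem (B.map _ B.mem).1] with y k1 k2 k3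
      simpa using k1 k3 fun _ k4 => k3 ((B.base y k2).2 k4)
  obtain ⟨K₀, k2⟩ := k1 _ h'
  refine ((k1 _ h).mul (F' := fun y => (‖τ' e' y‖ * ‖B.η y B.i₀‖ ^ B.b m) ^ u)
    ⟨K₀ ^ u, k2.mono fun y k3 k4 => pow_le_pow_left₀ (by positivity) (k3 k4) u⟩
    (fun _ => by positivity) fun _ => by positivity).mono (.of_forall fun y k3 => ⟨k3, le_of_eq ?_⟩)
  simp only [norm_mul, norm_pow]
  ring

/-- a point where both rank conditions hold -/
theorem ex_pt {p a m n k j : ℕ} (Z : Nm p a m) {F : Fin (a + 1) → Chart p Z.M.Y.X → Pt Z.M n → ℂ}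
    {τ : Fin (j + 1) → Chart p Z.M.Y.X → Z.M.Y.X → ℂ} (hF : ∀ i, Z.C.PF k (F i)) (hR : Z.C.RK F)
    (hτ : ∀ b, BF p m Z.D.Q (τ b)) (hτR : Rk p Z.D.Qᶜ ((Bd.can p Z.M.Y.X).pow m) τ) :
    ∃ x ∉ Z.D.S, ∃ (e : Chart (p + a) Z.M.X.X) (e' : Chart p Z.M.Y.X), At e x ∧ At e' (Z.M.f x) ∧
      F 0 e' (dg n x) ≠ 0 ∧ τ 0 e' (Z.M.f x) ≠ 0 ∧ Ind (p + a) (Fin.append
        (fun (i : Fin a) y => F i.succ e' (dg n y) / F 0 e' (dg n y))
        fun (b : Fin j) y => τ b.succ e' (Z.M.f y) / τ 0 e' (Z.M.f y)) x := by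
  have hM := Z.std.ok
  have hf := hM.fibn.hol
  have := hM.connY
  have hL := lb_pow (isLB_can (n := p) (W := Z.M.Y.X)) m
  choose K hK using fun b => secP_mer (L := (Bd.can p Z.M.Y.X).pow m) (s := τ b) Z.snc hL
    (fun e y k1 k2 => (hτ b).hol e y k1 ((Z.memQ y).2 k2))
    (fun e e' y k1 k2 k3 => (hτ b).chg e e' y k1 k2 ((Z.memQ y).2 k3)) (hτ b).mer
  have hD := dense_rk (i := id) (.of_snc Z.snc) holM_id hL hK
    (hτR.imp fun y k => ⟨(Z.memQ y).1 k.1, k.2⟩)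
  obtain ⟨x₀, a1, e, e', a2, a3, a4, a5⟩ := hR
  have a6 := fun i => hol_dg hf (hF i) a1 a3
  have a7 := ind_jd a2 (hol_app (hf.at _) (fun i => (a6 (Fin.succ i)).div (a6 0) a4) a3) a5
  have a8 : ∃ᶠ x in 𝓝 x₀, Z.M.f x ∈ off Z.E ∧ RkAt p ((Bd.can p Z.M.Y.X).pow m) τ (Z.M.f x) :=
    ((Z.D.reg _ (nQ a1)).sbm hf hM.snc rfl).freq (hf.at x₀)
      (P := fun y => y ∈ off Z.E ∧ RkAt p ((Bd.can p Z.M.Y.X).pow m) τ y)
      (mem_closure_iff_frequently.1 (hD _))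
  obtain ⟨x, ⟨b1, b2⟩, b3, b4, b5, b6, b7⟩ := (a8.and_eventually
    ((Z.D.thinS.closed.isOpen_compl.eventually_mem a1).and ((at_near a2).and
      ((hf.cont.continuousAt.eventually (at_near a3)).and (((a6 0).ne_near a4).and a7.near))))).exists
  obtain ⟨c1, c2⟩ := b2.frame (i := id) (.of_snc Z.snc) continuous_id hL hK b1 b5
  exact ⟨x, b3, e, e', b4, b5, b6, c1, ind_app (hf.at x) b5 b7 c2⟩

end Fnl

open Fnl in
/-- **FINAL** -/
theorem final (hA : ALGB) (hB : BXB) (hT : TBB) : FINAL := by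
  intro p a m Z n hn T k j F τ h2 hk hF hb hR hτ hτR
  have hf := Z.std.ok.fibn.hol
  have hm := Z.std.two
  obtain ⟨u, hu⟩ : ∃ u, (n - 1) * k = u + 1 :=
    ⟨(n - 1) * k - 1, (Nat.sub_add_cancel (Nat.mul_pos (by omega) hk)).symm⟩
  have hN : m * k + m * (u + 1) = m * k * n := by
    obtain ⟨n, rfl⟩ : ∃ n', n = n' + 1 := ⟨n - 1, by omega⟩
    rw [← hu, Nat.add_sub_cancel]
    ring
  have hβ : ∀ b, BF p (m * (u + 1)) Z.D.Q fun e y => τ b e y * τ 0 e y ^ u := fun b =>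
    ⟨fun e y k1 k2 => ((hτ b).hol e y k1 k2).mul (((hτ 0).hol e y k1 k2).pow u),
      fun e y k1 => mer_mul ((hτ b).mer e y k1) (mer_pow ((hτ 0).mer e y k1) u),
      fun e e' y k1 k2 k3 => by
        rw [(hτ b).chg e e' y k1 k2 k3, (hτ 0).chg e e' y k1 k2 k3]
        ring⟩
  choose s hs1 hs2 using fun i b => exs hA hB Z hn T (hF i) (hβ b) hN (hb i) fun c e' he' =>
    hu ▸ bb_mul (T.B c) ((hT p a m Z _ (hτ b)).1 _ _) ((hT p a m Z _ (hτ 0)).1 _ _) u he'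
  let ι : Fin (a + j + 1) → Fin (a + 1) × Fin (j + 1) :=
    Fin.cons (0, 0) (Fin.append (fun i => (i.succ, 0)) fun b => (0, b.succ))
  refine ⟨m * k + m * (u + 1), by positivity, fun c => s (ι c).1 (ι c).2, fun c => hs1 _ _, ?_⟩
  obtain ⟨x, b3, e, e', b4, b5, b6, c1, c2⟩ := ex_pt Z (fun i => (hF i).toPF) hR
    (fun b => ⟨(hτ b).hol, (hτ b).mer, (hτ b).chg⟩) hτR
  have c3 : ∀ᶠ y in 𝓝 x, (F 0 e' (dg n y) ≠ 0 ∧ jdw Z.D.w e e' y ≠ 0 ∧ τ 0 e' (Z.M.f y) ≠ 0) ∧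
      ∀ i b, s i b e y = F i e' (dg n y) * jdw Z.D.w e e' y ^ (m * k + m * (u + 1)) *
        (τ b e' (Z.M.f y) * τ 0 e' (Z.M.f y) ^ u) := by
    filter_upwards [(hol_dg hf (hF 0).toPF b3 b5).ne_near b6,
      (hf.hol ((hτ 0).hol _ _ b5 (nQ b3))).ne_near c1, at_near b4,
      hf.cont.continuousAt.eventually (at_near b5),
      Z.D.thinS.closed.isOpen_compl.eventually_mem b3,
      eventually_all.2 fun i => eventually_all.2 fun b => sc_ev hf (hF i).toPF (hβ b) b4 b5]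
      with y k1 k2 k3 k4 k5 k6
    exact ⟨⟨k1, Z.D.et y k5 e e' k3 k4, k2⟩, fun i b => (hs2 i b e y k3 k5).trans (k6 i b k5)⟩
  refine ⟨x, Z.D.offG x b3, e, b4, ?_, ind_congr c2
    (Fin.addCases (fun i => c3.mono fun y ⟨⟨k1, k2, k3⟩, k4⟩ => ?_)
      fun b => c3.mono fun y ⟨⟨k1, k2, k3⟩, k4⟩ => ?_)⟩
  · obtain ⟨⟨k1, k2, k3⟩, k4⟩ := c3.self_of_nhds
    simp only [k4, ι, Fin.cons_zero]
    positivity
  · simp only [k4, ι, Fin.cons_zero, Fin.cons_succ, Fin.append_left]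
    field_simp
  · simp only [k4, ι, Fin.cons_zero, Fin.cons_succ, Fin.append_right]
    field_simp

end Vale.Agent.P281Z.Gt
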