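import Vale.Agent.P281Z.Gt.SkB
import Vale.Agent.P281Z.Sc.L2
import Vale.Agent.P301.H98.L1

/-!
# P281Z, block III: integrability in one chart, and the inequality of Hölder
-/

open scoped Manifold ContDiff Topology ENNReal
open Set Filter MeasureTheory
open Vale.Agent.P272.K
open Vale.Agent.P277Z (Hol Nz at_chart)

set_option linter.unusedSectionVars false

noncomputable section

namespace Vale.Agent.P281Z.Gt

namespace Hold

variable {n : ℕ} {W : Type} [TopologicalSpace W] [ChartedSpace (Cm n) W]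
  [IsManifold 𝓘(ℂ, Cm n) ω W] {A : Set W} {x : W} {e e' : Chart n W}
  {u v : Chart n W → W → ℝ≥0∞} {ξ Θ ξ' : Chart n W → W → ℂ}

theorem tn_near (h : Tn n A x) : ∀ᶠ y in 𝓝 x, Tn n A y := by
  obtain ⟨g, h1, h2, h3⟩ := h
  filter_upwards [h1.near, h2.near h1, h3.eventually_nhds] with y k1 k2 k3 using ⟨g, k1, k2, k3⟩

/-- an open set of full measure which avoids `A` -/
theorem conull (hA : Tn n A x) (he : At e x) {Q : Cm n → Prop} (hQ : ∀ᶠ z in 𝓝 (e x), Q z) :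
    ∃ U O : Set (Cm n), IsOpen U ∧ e x ∈ U ∧ IsOpen O ∧ O ⊆ U ∧ O =ᵐ[volume] U ∧
      (∀ z ∈ U, Q z) ∧ ∀ z ∈ O, e.symm z ∉ A := by
  obtain ⟨g, h1, h2, h3⟩ := hA
  obtain ⟨R, hR, -, h4⟩ := P301.H98.exists_log_integrable (h1 e he)
    fun k => h2 ((P277Z.At.ev he (p := fun w => g w = 0)).1 k)
  obtain ⟨U, h5, h6, h7⟩ := _root_.eventually_nhds_iff.1 (hQ.and ((at_ev he h3).and
    ((h1 e he).eventually_analyticAt.and (Metric.ball_mem_nhds _ hR))))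
  refine ⟨U, U ∩ (fun z => g (e.symm z)) ⁻¹' {0}ᶜ, h6, h7, ContinuousOn.isOpen_inter_preimage
    (fun z hz => (h5 z hz).2.2.1.continuousAt.continuousWithinAt) h6 isOpen_compl_singleton,
    inter_subset_left, ?_, fun z hz => (h5 z hz).1, fun z hz k => hz.2 ((h5 z hz.1).2.1 k)⟩
  filter_upwards [(ae_restrict_iff' measurableSet_ball).1 h4] with z hz
  exact propext ⟨fun k => k.1, fun k => ⟨k, hz (h5 z k).2.2.2⟩⟩

variable (A u x) in
/-- near `x`, `u` is a density off `A` -/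
def Law : Prop := ∀ᶠ y in 𝓝 x, y ∉ A → ∀ e₁ e₂, At e₁ y → At e₂ y →
  u e₁ y = u e₂ y * ‖(jacM e₁ e₂ y).det‖ₑ ^ 2

theorem chg (hA : Tn n A x) (he : At e x) (he' : At e' x) (hu : Law A x u)
    (h : ∃ U ∈ 𝓝 (e x), ∫⁻ z in U, u e (e.symm z) < ⊤) :
    ∃ U ∈ 𝓝 (e' x), ∫⁻ z in U, u e' (e'.symm z) < ⊤ := by
  obtain ⟨V, hV, h⟩ := h
  obtain ⟨U, O, h1, h2, h3, h4, h5, h6, h7⟩ := conull hA he
    ((at_ev he (hu.and ((at_near he).and (at_near he')))).and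
      ((show ∀ᶠ z in 𝓝 (e x), z ∈ V from hV).and (e.eventually_right_inverse' he.2)))
  have h0 : e x ∈ (e.symm.trans e').source := by simp [e.map_source he.2, e.left_inv he.2, he'.2]
  have h8 : U ⊆ (e.symm.trans e').source := fun z hz =>
    ⟨(h6 z hz).2.2 ▸ e.map_source (h6 z hz).1.2.1.2, (h6 z hz).1.2.2.2⟩
  refine ⟨e.symm.trans e' '' U, ?_, ?_⟩
  · simpa [e.left_inv he.2] using (e.symm.trans e').image_mem_nhds h0 (h1.mem_nhds h2)
  rw [lintegral_image_eq_lintegral_abs_det_fderiv_mul volume h1.measurableSet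
    (f' := fderiv ℝ fun z => e' (e.symm z)) (fun w hw => by
      have := P277Z.trans_an (h6 w hw).1.2.2 (h6 w hw).1.2.1
      rw [(h6 w hw).2.2] at this
      exact (this.differentiableAt.restrictScalars ℝ).hasFDerivAt.hasFDerivWithinAt)
    ((e.symm.trans e').injOn.mono h8), ← setLIntegral_congr h5]
  refine lt_of_le_of_lt (le_trans (setLIntegral_mono' h3.measurableSet fun w hw => le_of_eq ?_)
    (lintegral_mono_set fun w hw => (h6 w (h4 hw)).2.1)) h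
  obtain ⟨⟨k1, k2, k3⟩, -, k4⟩ := h6 w (h4 hw)
  have k5 := INT.det_trans k2 k3
  rw [k4] at k5
  rw [k5, k1 (h7 w hw) e e' k2 k3, show e'.symm (e.symm.trans e' w) = e.symm w from
    e'.left_inv k3.2, mul_comm, abs_of_nonneg (sq_nonneg _), ENNReal.ofReal_pow (norm_nonneg _),
    ofReal_norm]

theorem li_near (hA : Tn n A x) (he : At e x) (hu : Law A x u)
    (h : ∃ U ∈ 𝓝 (e x), ∫⁻ z in U, u e (e.symm z) < ⊤) : ∀ᶠ y in 𝓝 x, LI n u y := by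
  obtain ⟨U, hU, h⟩ := h
  filter_upwards [tn_near hA, at_near he, hu.eventually_nhds,
    (e.continuousAt he.2).eventually (eventually_mem_nhds_iff.2 hU)] with y k1 k2 k3 k4 e' he'
    using chg k1 k2 he' k3 ⟨U, k4, h⟩

theorem li_mono (h : LI n v x) {C : ℝ≥0∞} (hC : C ≠ ⊤)
    (hle : ∀ᶠ y in 𝓝 x, ∀ e, u e y ≤ C * v e y) : LI n u x := fun e he =>
  lint_mono (h e he) hC (N := fun _ => True) (.of_forall fun _ => trivial)
    ((at_ev he hle).mono fun _ k _ => k e)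

theorem law_dens {k N : ℕ} {ε : ℝ} (hε : ε * N = k - 1) (h1 : ML n k A ξ x)
    (h2 : ∀ᶠ y in 𝓝 x, y ∉ A → ∀ e₁ e₂, At e₁ y → At e₂ y →
      Θ e₁ y = (jacM e₁ e₂ y).det ^ N * Θ e₂ y) : Law A x (dens ξ Θ ε) := by
  filter_upwards [h1, h2] with y k1 k2 hy e₁ e₂ m1 m2
  have a0 : ‖(jacM e₁ e₂ y).det‖ₑ ≠ 0 := enorm_ne_zero.2 (jacM_det_ne_zero m1 m2)
  have a1 : ‖(jacM e₁ e₂ y).det‖ₑ ≠ ⊤ := enorm_ne_top
  rw [dens, dens, (k1 hy e₁ m1).2 e₂ m2, k2 hy e₁ e₂ m1 m2, enorm_mul, enorm_mul, enorm_pow,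
    enorm_pow, ENNReal.mul_rpow_of_ne_top (ENNReal.pow_ne_top a1) enorm_ne_top,
    ENNReal.mul_rpow_of_ne_top (ENNReal.pow_ne_top a1) enorm_ne_top, ← ENNReal.rpow_natCast,
    ← ENNReal.rpow_natCast, ← ENNReal.rpow_natCast, ← ENNReal.rpow_mul, ← ENNReal.rpow_mul,
    mul_mul_mul_comm, ← ENNReal.rpow_add _ _ a0 a1, mul_comm]
  congr 2
  push_cast
  linear_combination -2 * hε

theorem geo_le (p q : ℝ≥0∞) {s : ℝ} (h0 : 0 ≤ s) (h1 : s ≤ 1) : p ^ (1 - s) * q ^ s ≤ p + q := by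
  refine (mul_le_mul' (ENNReal.rpow_le_rpow (le_self_add : p ≤ p + q) (sub_nonneg.2 h1))
    (ENNReal.rpow_le_rpow (le_add_self : q ≤ p + q) h0)).trans_eq ?_
  rw [← ENNReal.rpow_add_of_nonneg _ _ (sub_nonneg.2 h1) h0, sub_add_cancel, ENNReal.rpow_one]

theorem pt_le (a b t : ℂ) (u₁ : ℕ) {ε : ℝ} (h0 : 0 ≤ ε) (h1 : ε * u₁ ≤ 1) (h : b ^ u₁ * t ≠ 0) :
    ‖a‖ₑ ^ (2 : ℝ) * ‖a ^ u₁ * t‖ₑ ^ (-(2 * ε)) ≤ ‖b‖ₑ ^ (2 : ℝ) * ‖b ^ u₁ * t‖ₑ ^ (-(2 * ε)) +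
      ‖a‖ₑ ^ (2 : ℝ) * ‖b ^ u₁ * t‖ₑ ^ (-(2 * ε)) := by
  rcases eq_or_ne a 0 with rfl | ha
  · simp
  rcases Nat.eq_zero_or_pos u₁ with rfl | hu
  · simp
  have hb : b ≠ 0 := fun k => h (by simp [k, hu.ne'])
  rw [add_comm]
  refine le_of_eq_of_le ?_ (geo_le _ _ (s := ε * u₁) (by positivity) h1)
  have f : ∀ {c : ℂ}, c ≠ 0 → ‖c‖ₑ = ENNReal.ofReal (Real.exp (Real.log ‖c‖)) := fun hc => by
    rw [Real.exp_log (norm_pos_iff.2 hc), ofReal_norm]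
  simp only [enorm_mul, enorm_pow]
  rw [f ha, f hb, f (right_ne_zero_of_mul h)]
  simp only [← ENNReal.ofReal_pow (Real.exp_pos _).le, ← Real.exp_nat_mul,
    ← ENNReal.ofReal_mul (Real.exp_pos _).le, ← Real.exp_add,
    ENNReal.ofReal_rpow_of_pos (Real.exp_pos _), ← Real.exp_mul]
  congr 2
  ring

end Hold

open Hold

theorem lic : LIC := fun _ _ _ _ _ _ _ _ _ _ _ hA he hu h => li_near hA he hu h

theorem hold : HOLD := by
  intro n W _ _ _ _ _ A ξ Θ ξ' k k' u₁ u₂ ε o x hA h0 h1 hε m1 m2 _ hne ⟨κ, hκ, ho⟩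
    ⟨h, hh, hz, hl⟩ hK
  have l1 : Law A x (dens ξ (fun e y => ξ e y ^ u₁ * Θ e y ^ u₂) ε) := by
    refine law_dens (N := k * u₁ + k' * u₂) (by push_cast; exact hε) m1 ?_
    filter_upwards [m1, m2] with y k1 k2 hy e₁ e₂ r1 r2
    rw [(k1 hy e₁ r1).2 e₂ r2, (k2 hy e₁ r1).2 e₂ r2]
    ring
  have l2 := li_near (u := fun e y => dens ξ (fun e y => ξ e y ^ u₁ * Θ e y ^ u₂) ε e y *
    ‖h y‖ₑ ^ (1 : ℝ)) hA (at_chart x) (l1.mono fun y k1 hy e₁ e₂ r1 r2 => by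
      simp only [k1 hy e₁ e₂ r1 r2, mul_right_comm]) (hl 1 one_pos _ (at_chart x))
  have l3 := hK h hh (by
    filter_upwards [l2, hh.near] with y k1 k2 k3
    obtain ⟨C, -, hC⟩ := bdd_near (k2.cont.norm.inv₀ (norm_ne_zero_iff.2 k3))
    refine li_mono k1 (C := ENNReal.ofReal C) ENNReal.ofReal_ne_top ?_
    filter_upwards [hC, k2.ne_near k3] with w r1 r2 e
    rw [mul_left_comm, ENNReal.rpow_one]
    refine le_mul_of_one_le_right' ?_
    rw [← ofReal_norm, mul_comm, ← ENNReal.ofReal_mul (norm_nonneg _), ENNReal.one_le_ofReal]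
    exact (inv_le_iff_one_le_mul₀' (norm_pos_iff.2 r2)).1 r1)
  refine ⟨h, hh, hz, fun η hη e he => ?_⟩
  have hκ' : min κ 1 ≠ 0 := (lt_min hκ one_pos).ne'
  obtain ⟨U₁, a1, b1⟩ := hl η hη e he
  obtain ⟨U₂, a2, b2⟩ := li_mono (u := fun e y =>
    dens ξ' (fun e y => ξ e y ^ u₁ * Θ e y ^ u₂) ε e y * ‖h y‖ₑ ^ η) (l3 η hη)
    (ENNReal.inv_ne_top.2 hκ') (ho.mono fun y r e => by
      rw [mul_right_comm, mul_left_comm]
      refine le_mul_of_one_le_right' ?_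
      exact (ENNReal.inv_mul_cancel hκ' (ne_top_of_le_ne_top ENNReal.one_ne_top
        (min_le_right _ _))).ge.trans (mul_le_mul_right ((min_le_left _ _).trans r) _)) e he
  obtain ⟨U, O, c1, c2, c3, c4, c5, c6, c7⟩ := conull hA he
    ((at_ev he (m1.and (m2.and (hne.and (hh.near.and (at_near he)))))).and
      ((show ∀ᶠ z in 𝓝 (e x), z ∈ U₁ ∩ U₂ from inter_mem a1 a2).and
        (e.eventually_right_inverse' he.2)))
  have ms : ∀ {f : W → ℂ}, (∀ z ∈ O, Hol n f (e.symm z)) →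
      AEMeasurable (fun z => f (e.symm z)) (volume.restrict O) := fun hf =>
    ContinuousOn.aemeasurable (fun z hz => by
      have := hf z hz e (c6 z (c4 hz)).1.2.2.2.2
      rw [(c6 z (c4 hz)).2.2] at this
      exact this.continuousAt.continuousWithinAt) c3.measurableSet
  have s1 := ms fun z hz => ((c6 z (c4 hz)).1.1 (c7 z hz) e (c6 z (c4 hz)).1.2.2.2.2).1
  have s2 := ms fun z hz => ((c6 z (c4 hz)).1.2.1 (c7 z hz) e (c6 z (c4 hz)).1.2.2.2.2).1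
  have s3 := ms fun z hz => (c6 z (c4 hz)).1.2.2.2.1
  refine ⟨U, c1.mem_nhds c2, ?_⟩
  rw [← setLIntegral_congr c5]
  refine lt_of_le_of_lt ?_ (ENNReal.add_lt_top.2 ⟨b1, b2⟩)
  refine le_trans ?_ (add_le_add (lintegral_mono_set fun z hz => (c6 z (c4 hz)).2.1.1)
    (lintegral_mono_set fun z hz => (c6 z (c4 hz)).2.1.2))
  refine le_trans (setLIntegral_mono' c3.measurableSet fun z hz => ?_) (lintegral_add_left'
    (((s1.enorm.pow_const _).mul (((s1.pow_const _).mul (s2.pow_const _)).enorm.pow_const _)).mul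
      (s3.enorm.pow_const _)) _).le
  exact (mul_le_mul_left (pt_le _ _ _ _ h0 h1.le
    ((c6 z (c4 hz)).1.2.2.1 (c7 z hz) e (c6 z (c4 hz)).1.2.2.2.2)) _).trans (add_mul _ _ _).le

end Vale.Agent.P281Z.Gt
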