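import Vale.Agent.P281Z.Gt.SkB
import Vale.Agent.P281Z.Sc.L2
import Vale.Agent.P271.H879.Null

/-!
# P281Z, block III, part B: the start of the second stage
-/

open scoped Manifold ContDiff Topology ENNReal
open Set Filter MeasureTheory Metric
open Vale.Agent.P272.K Vale.Agent.P285.H281.FD
open Vale.Agent.P277Z (Hol Mer Nz jd at_chart)

set_option linter.unusedSectionVars false

noncomputable section

namespace Vale.Agent.P281Z.Gt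

namespace In2

section li

variable {n : ℕ} {X : Type} [TopologicalSpace X] [ChartedSpace (Cm n) X]
  [IsManifold 𝓘(ℂ, Cm n) ω X]

/-- the values on a thin set do not matter -/
theorem li_mono {A : Set X} (hA : Thin n A) {u u' : Chart n X → X → ℝ≥0∞} {x : X} (h : LI n u x)
    {C : ℝ≥0∞} (hC : C ≠ ⊤) (hle : ∀ᶠ y in 𝓝 x, y ∉ A → ∀ e, At e y → u' e y ≤ C * u e y) :
    LI n u' x := by
  intro e he
  obtain ⟨g, hg, h0, h1⟩ := hA.nz x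
  obtain ⟨r, hr, hB⟩ := Metric.eventually_nhds_iff_ball.1 (hg e he).eventually_analyticAt
  have h2 : ∃ᶠ z in 𝓝 (e x), g (e.symm z) ≠ 0 := fun k =>
    h0 ((P277Z.At.ev he (p := fun y => g y = 0)).1 (k.mono fun _ => not_not.1))
  obtain ⟨z₀, k0, k1⟩ := (h2.and_eventually (ball_mem_nhds _ hr)).exists
  have hn := P271.H879.null_zeros volume
    (fun z hz => (hB z hz).differentiableAt.differentiableWithinAt) k1 k0
  refine lint_mono (h e he) hC (N := fun z => ¬ (z ∈ ball (e x) r ∧ g (e.symm z) = 0))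
    (ae_iff.2 (by simpa only [not_not] using hn)) ?_
  filter_upwards [at_ev he (h1.and (hle.and (at_near he))), ball_mem_nhds _ hr] with z a b c
  exact a.2.1 (fun k => c ⟨b, a.1 k⟩) e a.2.2

theorem jd_congr {g g' : Fin n → X → ℂ} {e : Chart n X} {x : X} (he : At e x)
    (h : ∀ᶠ y in 𝓝 x, ∀ i, g i y = g' i y) : jd g e x = jd g' e x := by
  have h1 : (fun z i => g i (e.symm z)) =ᶠ[𝓝 (e x)] fun z i => g' i (e.symm z) :=
    (at_ev he h).mono fun z hz => funext hz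
  rw [jd, jd, h1.fderiv_eq]

end li

section alg

theorem en_prod {ι : Type} (s : Finset ι) (f : ι → ℂ) : ‖∏ i ∈ s, f i‖ₑ = ∏ i ∈ s, ‖f i‖ₑ := by
  simp only [enorm_eq_nnnorm, nnnorm_prod, ENNReal.ofNNReal_finsetProd]

theorem alg1 {f θ J : ℝ≥0∞} (hf : f ≠ ⊤) (hθ : θ ≠ ⊤) (hJ : J ≠ ⊤) (hJ0 : J ≠ 0) {γ d ε : ℝ}
    {k k' u₁ u₂ : ℕ} (h1 : 2 * (ε * u₁) = 2 - γ) (h2 : ε * u₂ = d) (h3 : ε * k' = k - 1) :
    (f * J ^ k) ^ (2 : ℝ) * (f ^ u₁ * θ ^ u₂ * J ^ k') ^ (-(2 * ε)) ≤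
      f ^ γ * θ ^ (-(2 * d)) * J ^ 2 := by
  rcases eq_or_ne f 0 with rfl | h0
  · rw [zero_mul, ENNReal.zero_rpow_of_pos two_pos, zero_mul]
    exact zero_le
  have e1 : f ^ (2 : ℝ) * f ^ (u₁ * -(2 * ε)) = f ^ γ := by
    rw [← ENNReal.rpow_add _ _ h0 hf]
    congr 1
    linarith
  have e2 : J ^ ((k : ℝ) * 2) * J ^ (k' * -(2 * ε)) = J ^ 2 := by
    rw [← ENNReal.rpow_add _ _ hJ0 hJ, ← ENNReal.rpow_two]
    congr 1
    linarith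
  have e3 : (u₂ : ℝ) * -(2 * ε) = -(2 * d) := by linarith
  rw [ENNReal.mul_rpow_of_ne_top hf (ENNReal.pow_ne_top hJ), ENNReal.mul_rpow_of_ne_top
    (ENNReal.mul_ne_top (ENNReal.pow_ne_top hf) (ENNReal.pow_ne_top hθ)) (ENNReal.pow_ne_top hJ),
    ENNReal.mul_rpow_of_ne_top (ENNReal.pow_ne_top hf) (ENNReal.pow_ne_top hθ)]
  simp only [← ENNReal.rpow_natCast _ k, ← ENNReal.rpow_natCast _ k', ← ENNReal.rpow_natCast _ u₁,
    ← ENNReal.rpow_natCast _ u₂, ← ENNReal.rpow_mul]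
  rw [← e1, ← e2, e3]
  exact le_of_eq (by ring)

theorem alg2 {N n₁ : ℕ} {a b : ℝ≥0∞} {σ : Fin (N * n₁) → ℝ≥0∞} {B : Fin N → ℝ≥0∞} (ha : a ≠ ⊤)
    (hb : b ≠ ⊤) (hσ : ∀ i, σ i ≠ ⊤) (hB : ∀ g, B g ≠ ⊤) {γ η μ : ℝ} {K i₁ t : ℕ} (hγ : 0 < γ)
    (hi : 0 < i₁) (ht : 0 < t) (h4 : i₁ * γ - N * (2 * (η / t)) = μ) :
    (a ^ K * (b ^ i₁ * ∏ i, σ i)) ^ γ * (∏ g, b * B g ^ t) ^ (-(2 * (η / t))) ≤
      (a ^ K) ^ γ * (b ^ μ * ∏ g, (∏ j, σ (finProdFinEquiv (g, j)) ^ γ) * B g ^ (-(2 * η))) := by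
  rcases eq_or_ne b 0 with rfl | h0
  · rw [zero_pow hi.ne', zero_mul, mul_zero, ENNReal.zero_rpow_of_pos hγ, zero_mul]
    exact zero_le
  have hp : ∏ i, σ i ≠ ⊤ := ENNReal.prod_ne_top fun i _ => hσ i
  have e1 : (b ^ i₁) ^ γ * (b ^ N) ^ (-(2 * (η / t))) = b ^ μ := by
    rw [← ENNReal.rpow_natCast, ← ENNReal.rpow_natCast, ← ENNReal.rpow_mul, ← ENNReal.rpow_mul,
      ← ENNReal.rpow_add _ _ h0 hb]
    congr 1
    linarith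
  have e2 : ∀ g, (B g ^ t) ^ (-(2 * (η / t))) = B g ^ (-(2 * η)) := fun g => by
    have : (t : ℝ) ≠ 0 := Nat.cast_ne_zero.2 ht.ne'
    rw [← ENNReal.rpow_natCast, ← ENNReal.rpow_mul]
    congr 1
    field_simp
  have e3 : (∏ i, σ i) ^ γ = ∏ g, ∏ j, σ (finProdFinEquiv (g, j)) ^ γ := by
    rw [← ENNReal.prod_rpow_of_ne_top fun i _ => hσ i, ← Fintype.prod_prod_type',
      ← finProdFinEquiv.prod_comp]
  rw [ENNReal.mul_rpow_of_ne_top (ENNReal.pow_ne_top ha)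
    (ENNReal.mul_ne_top (ENNReal.pow_ne_top hb) hp),
    ENNReal.mul_rpow_of_ne_top (ENNReal.pow_ne_top hb) hp, Finset.prod_mul_distrib,
    Finset.prod_mul_distrib, Finset.prod_const, Finset.card_univ, Fintype.card_fin,
    ENNReal.mul_rpow_of_ne_top (ENNReal.pow_ne_top hb)
      (ENNReal.prod_ne_top fun g _ => ENNReal.pow_ne_top (hB g)),
    ← ENNReal.prod_rpow_of_ne_top fun g _ => ENNReal.pow_ne_top (hB g), ← e1, e3]
  simp only [e2]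
  exact le_of_eq (by ring)

theorem alg3 {b : ℝ≥0∞} (hb : b ≠ ⊤) {m : ℕ} (hm : 0 < m) :
    b ^ (2 / m : ℝ) ≤ b ^ (2 : ℝ) * (b ^ (m - 1)) ^ (-(2 * (1 / m : ℝ))) := by
  have h1 : (0 : ℝ) < m := Nat.cast_pos.2 hm
  rcases eq_or_ne b 0 with rfl | h0
  · rw [ENNReal.zero_rpow_of_pos (by positivity)]
    exact zero_le
  rw [← ENNReal.rpow_natCast, ← ENNReal.rpow_mul, ← ENNReal.rpow_add _ _ h0 hb,
    Nat.cast_pred hm]
  refine le_of_eq ?_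
  congr 1
  field_simp
  ring

end alg

section ov

variable {p a m : ℕ} (Z : Nm p a m) {y : Z.M.Y.X}

theorem hx_eq {r : ℕ} (S : PS r) {q : S.P.X} {h : S.H.ι} (hq : q ∈ S.H.U h) :
    ∃ c : ℂ, c ≠ 0 ∧ ∀ i, S.hx q i = c * S.x h q i :=
  ⟨_, S.lb.ne_zero _ h q (S.lb.cover q).choose_spec hq, fun i =>
    (S.sec i).change _ h q (S.lb.cover q).choose_spec hq⟩

theorem ov_near (hy : Z.Ov y) : ∀ᶠ y' in 𝓝 y, Z.Ov y' := by
  obtain ⟨h, hh⟩ := Z.S.lb.cover (Z.φ y)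
  have key : ∀ q ∈ Z.S.H.U h, (Z.S.hx q 0 ≠ 0 ∧ Z.S.aff q ∈ Z.D.O) ↔
      (Z.S.x h q 0 ≠ 0 ∧ (fun j : Fin Z.D.v => Z.S.x h q j.succ / Z.S.x h q 0) ∈ Z.D.O) := by
    intro q hq
    obtain ⟨c, hc, e⟩ := hx_eq Z.S hq
    have : Z.S.aff q = fun j : Fin Z.D.v => Z.S.x h q j.succ / Z.S.x h q 0 := funext fun j => by
      rw [PS.aff, e, e, mul_div_mul_left _ _ hc]
    rw [this, e, mul_ne_zero_iff_left hc]
  have hc : ∀ i, ContinuousAt (fun q => Z.S.x h q i) (Z.φ y) := fun i =>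
    Hol.cont (n := Z.D.v) fun e he => ((Z.S.sec i).holo h e _ he hh).analyticAt
  obtain ⟨h1, h2⟩ := (key _ hh).1 hy
  have h3 : ContinuousAt (fun q (j : Fin Z.D.v) => Z.S.x h q j.succ / Z.S.x h q 0) (Z.φ y) :=
    continuousAt_pi.2 fun j => (hc _).div (hc 0) h1
  filter_upwards [Z.hol.cont.continuousAt.eventually (((Z.S.lb.isOpen h).eventually_mem hh).and
    (((hc 0).eventually_ne h1).and (h3.eventually (Z.D.opn.eventually_mem h2))))] with y' k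
  exact (key _ k.1).2 k.2

theorem ov_z (hQ : y ∉ Z.D.Q) (hy : Z.Ov y) : (fun j => Z.D.z j y) ∈ Z.D.O := by
  obtain ⟨h1, h2⟩ := hy
  rw [Z.eq y hQ] at h1 h2
  obtain ⟨c, hc⟩ := Z.S.x_pt (Fin.cons 1 fun j => Z.D.z j y)
    (fun k => one_ne_zero (congrFun k 0)) _ (Z.S.lb.cover _).choose_spec
  have h3 : c ≠ 0 := by simpa [PS.hx, hc] using h1
  have : Z.S.aff (Z.S.pt (Fin.cons 1 fun j => Z.D.z j y)) = fun j => Z.D.z j y :=
    funext fun j => by simp [PS.aff, PS.hx, hc, h3]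
  rwa [this] at h2

end ov

section ms

variable {p a n : ℕ} {M : Fb (p + a) p} {C : NS M} {u u' : Pt M n → ℝ≥0∞}

theorem ms_mul (h : C.Ms u) (h' : C.Ms u') : C.Ms fun q => u q * u' q := by
  let : MeasurableSpace (Pt M n) := borel _
  have e : (C.N n).indicator (fun q => u q * u' q) =
      fun q => (C.N n).indicator u q * (C.N n).indicator u' q := funext fun q => by
    by_cases hq : q ∈ C.N n <;> simp [hq]
  rw [NS.Ms, e]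
  exact Measurable.mul h h'

variable (hI : ICALC) (hM : M.Ok)
include hI hM

theorem ms_rf {F : Pt M n → ℂ} (hF : ∀ q ∈ C.N n, HolT F q) (r : ℝ) :
    C.Ms fun q => ‖F q‖ₑ ^ r := by
  have := (hI p a n M C hM).2.2.2.2.2.1 Unit (fun _ => F) univ (fun v => ‖v ()‖ₑ ^ r) isOpen_univ
    ((measurable_pi_apply ()).enorm.pow_const r) fun _ q hq _ => hF q hq
  simpa only [indicator_univ] using this

theorem ms_prod {ι : Type} (s : Finset ι) {u : ι → Pt M n → ℝ≥0∞} (h : ∀ i, C.Ms (u i)) :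
    C.Ms fun q => ∏ i ∈ s, u i q := by
  classical
  induction s using Finset.induction_on with
  | empty =>
    simpa using ms_rf hI hM (C := C) (F := fun _ : Pt M n => 1)
      (fun _ _ _ _ _ _ _ _ _ _ t _ _ => P277Z.hol_const 1 t) 0
  | insert i s hi ih => simpa only [Finset.prod_insert hi] using ms_mul (h i) ih

theorem ms_base {O : Set M.Y.X} (hO : IsOpen O) {β h : M.Y.X → ℂ}
    (hβ : ∀ y ∈ O, y ∉ C.Q → Hol p β y) (hh : ∀ y ∈ O, Hol p h y) (r s : ℝ) :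
    C.Ms fun q : Pt M n => O.indicator (fun y => ‖β y‖ₑ ^ r * ‖h y‖ₑ ^ s) q.1 :=
  (hI p a n M C hM).2.2.2.2.2.1 Bool (fun i q => cond i (β q.1) (h q.1)) O
    (fun v => ‖v true‖ₑ ^ r * ‖v false‖ₑ ^ s) hO
    (((measurable_pi_apply true).enorm.pow_const r).mul
      ((measurable_pi_apply false).enorm.pow_const s)) fun i q hq hq' _ _ _ _ _ _ _ _ _ hγ e => by
      cases i
      · exact hγ.b.hol (e ▸ hh _ hq')
      · exact hγ.b.hol (e ▸ hβ _ hq' hq.2.1)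

end ms

section main

variable {p a m : ℕ} (Z : Nm p a m) {n : ℕ}

/-- the product of the `s` over the slots -/
def R (κ : Fin n → Fin (a + 1)) (q : Pt Z.M n) : ℂ := ∏ j, Z.D.s (κ j) (sel (fun _ => j) q)

include Z in
theorem m_pos : 0 < m := lt_of_lt_of_le two_pos Z.std.two

theorem le_R {κ : Fin n → Fin (a + 1)} {k : ℕ} {y : Z.M.Y.X} {ψ : Cm a → Z.M.X.X} {r A : ℝ}
    (h : ∀ i, Z.C.Le k (Z.D.s i) y ψ r A) : Z.C.Le k (R Z κ) y ψ r (A ^ n) := by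
  intro u hu hS
  rw [R, norm_prod, ← Finset.prod_mul_distrib, ← Fin.prod_const]
  refine Finset.prod_le_prod (fun j _ => by positivity) fun j _ => ?_
  have := h (κ j) (fun _ => u j) (fun _ => hu j) fun _ => hS j
  rwa [Fin.prod_univ_one] at this

theorem yb_tend {l : Z.M.κ} (B : Bx Z.M Z.D.Q l) : Tendsto B.yb (𝓝 0) (𝓝 (Z.M.f B.x)) := by
  obtain ⟨h1, h2⟩ := B.map B.x B.mem
  have h3 : Continuous fun b : Cm p => Function.update b B.i₀ (b B.i₀ ^ B.A) :=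
    continuous_id.update B.i₀ ((continuous_apply B.i₀).pow B.A)
  refine (B.η.tendsto_symm h1).comp ?_
  rw [h2, B.zero]
  exact h3.tendsto 0

theorem bd0 (hB : BBD) (hP : IPC) (hX : BXB) (hn : 0 < n) {l : Z.M.κ} (B : Bx Z.M Z.D.Q l)
    {β : Chart p Z.M.Y.X → Z.M.Y.X → ℂ} (hO : Z.Ov (Z.M.f B.x)) (bf : BF p m Z.D.Q β)
    (bb : B.BB m β) {κ : Fin n → Fin (a + 1)} (hR : Z.C.RF (m * Z.D.i₁) (R Z κ)) :
    Z.BdB B Z.D.i₁ 0 fun e q => β e q.1 ^ Z.D.i₁ * R Z κ q := by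
  have hi := Z.D.pos.2.2.2.2.2
  obtain ⟨r, hr, h1⟩ := (hX p a n Z.M Z.C Z.std.ok l B hn).2.2.1
  obtain ⟨A, hA⟩ := hP a 1 (m * Z.D.i₁) r (r / 2) Z.D.K (Nat.mul_pos (m_pos Z) hi) (half_pos hr)
    (half_lt_self hr) Z.D.fin
  refine hB p a m Z n hn l B _ β _ hi hO bf bb hR ⟨r / 2, half_pos hr, A ^ n, ?_⟩
  filter_upwards [h1, (yb_tend Z B).eventually (ov_near Z hO)] with b h2 h3 h4
  obtain ⟨h5, h6, -⟩ := h2 h4
  refine le_R Z fun i => hA p Z.M Z.C _ _ _ Z.std.ok (Z.D.rfs i) h5 h6 ?_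
  simpa only [Nat.cast_mul] using Z.D.ints _ h5 (ov_z Z h5 h3) i

theorem R_dg (j₀ : Fin n) (j : Fin (a + 1)) (x : Z.M.X.X) :
    R Z (fun i => if i = j₀ then j else 0) (dg n x) =
      Z.D.s j (dg 1 x) * ∏ _i ∈ Finset.univ.erase j₀, Z.D.s 0 (dg 1 x) := by
  rw [R, ← Finset.mul_prod_erase _ _ (Finset.mem_univ j₀), if_pos rfl]
  congr 1
  exact Finset.prod_congr rfl fun i hi => by rw [if_neg (Finset.ne_of_mem_erase hi)]; rfl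

theorem dg_mem {x : Z.M.X.X} (hx : x ∉ Z.D.S) : dg n x ∈ Z.C.N n :=
  ⟨fun _ => rfl, fun k => hx (Z.D.sub x k), fun _ => hx⟩

theorem rk {g : Z.M.Y.X → ℂ} (hg : Mr p Z.D.Q g) (hg' : Thin p (Z.D.Q ∪ {y | g y = 0}))
    {β : Chart p Z.M.Y.X → Z.M.Y.X → ℂ} (bf : BF p m Z.D.Q β)
    (ne : ∃ y ∉ Z.D.Q, ∃ e', At e' y ∧ β e' y ≠ 0) (j₀ : Fin n) (K : ℕ) :
    Z.C.RK fun j e q => g q.1 ^ K * (β e q.1 ^ Z.D.i₁ *
      R Z (fun i => if i = j₀ then j else 0) q) := by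
  obtain ⟨y₀, h0, e', he', h1⟩ := ne
  obtain ⟨y, h2, h3, h4⟩ := ((hg'.freq y₀).and_eventually
    ((at_near he').and ((bf.hol e' y₀ he' h0).ne_near h1))).exists
  have hQ : y ∉ Z.D.Q := fun k => h2 (.inl k)
  obtain ⟨x₁, rfl⟩ := Z.std.ok.fibn.surj y
  obtain ⟨x, hx, hS⟩ := closure_nonempty_iff.1 ⟨_, Z.D.fib x₁ hQ⟩
  rw [← hx] at h2 h3 h4 hQ
  have hf := Z.std.ok.fibn.hol.cont.continuousAt (x := x)
  have h5 : ∀ᶠ x' in 𝓝 x, x' ∉ Z.D.S ∧ g (Z.M.f x') ^ K ≠ 0 ∧ β e' (Z.M.f x') ^ Z.D.i₁ ≠ 0 := by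
    filter_upwards [Z.D.thinS.closed.isOpen_compl.mem_nhds hS, hf.eventually
      (((hg.hol _ hQ).ne_near fun k => h2 (.inr k)).and ((bf.hol e' _ h3 hQ).ne_near h4))]
      with x' k1 k2 using ⟨k1, pow_ne_zero _ k2.1, pow_ne_zero _ k2.2⟩
  have h6 : ∀ x' ∉ Z.D.S, Z.D.s 0 (dg 1 x') ≠ 0 := fun x' k => Z.D.nes _ (dg_mem Z k)
  refine ⟨x, hS, chartAt _ x, e', at_chart x, h3, ?_, ?_⟩
  · obtain ⟨k1, k2, k3⟩ := h5.self_of_nhds
    beta_reduce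
    rw [R_dg]
    exact mul_ne_zero k2 (mul_ne_zero k3 (mul_ne_zero (h6 x k1)
      (Finset.prod_ne_zero_iff.2 fun _ _ => h6 x k1)))
  · refine (jd_congr (at_chart x) ?_).trans_ne (Z.D.et x hS _ e' (at_chart x) h3)
    filter_upwards [h5] with x' ⟨k1, k2, k3⟩ i
    refine Fin.addCases (fun c => ?_) (fun c => ?_) i
    · simp only [Fin.append_left]
    · simp only [Fin.append_right]
      have k4 : ∏ _i ∈ Finset.univ.erase j₀, Z.D.s 0 (dg 1 x') ≠ 0 :=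
        Finset.prod_ne_zero_iff.2 fun _ _ => h6 x' k1
      rw [R_dg, R_dg, Z.D.rat c _ (dg_mem Z k1)]
      change g (Z.M.f x') ^ K * (β e' (Z.M.f x') ^ Z.D.i₁ * (Z.D.w c x' * _ * _)) /
        (g (Z.M.f x') ^ K * (β e' (Z.M.f x') ^ Z.D.i₁ * _)) = _
      have := h6 x' k1
      field_simp

theorem nz_pull (hT : THN) (W : Z.W n) {h : Z.M.Y.X → ℂ} {v : W.V.X} (hh : Hol p h (W.γ v).1)
    (h0 : Nz h (W.γ v).1) : Nz (fun v' => h (W.γ v').1) v := by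
  intro k
  obtain ⟨-, h1, -, -, h2, -⟩ := hT p a n Z.M Z.C W Z.std.ok
  obtain ⟨v', k1, k2, k3⟩ := ((mem_closure_iff_frequently.1 (W.dense v)).and_eventually
    (k.eventually_nhds.and (h1.cont.continuousAt.eventually (h0.near hh)))).exists
  exact k3 (((h2 v' k1).1.ev (h1.at v') k2).mono fun z ⟨w, a, b⟩ => b ▸ a)

theorem lv (hI : ICALC) (h1 : I1) (hC : CF) (hT : THN) {t : ℕ} (ht : 0 < t)
    (W : Z.W (Z.D.k₁ * t * Z.D.n₁)) {g : Z.M.Y.X → ℂ}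
    (hg : ∀ y, Z.Ov y → ∃ K : ℝ, ∀ᶠ y' in 𝓝 y, y' ∉ Z.D.Q → ‖g y'‖ ≤ K)
    {β : Chart p Z.M.Y.X → Z.M.Y.X → ℂ} (bf : BF p m Z.D.Q β) (bl : Z.BL β) {u₁ u₂ K : ℕ} {ε : ℝ}
    (e1 : ε * u₁ = 1 - (1 + Z.D.η * (m * Z.D.k₁)) / (m * Z.D.i₁)) (e2 : ε * u₂ = Z.D.η / t)
    {κ : Fin (Z.D.k₁ * t * Z.D.n₁) → Fin (a + 1)}
    {F : Chart p Z.M.Y.X → Pt Z.M (Z.D.k₁ * t * Z.D.n₁) → ℂ}
    (eF : ∀ e q, F e q = g q.1 ^ K * (β e q.1 ^ Z.D.i₁ * R Z κ q)) (hF : Z.C.PF (m * Z.D.i₁) F)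
    (hΘ : Z.C.PF (m * (Z.D.i₁ * u₁ + Z.D.k₁ * t * u₂)) fun e q => F e q ^ u₁ * Z.th t β e q ^ u₂) :
    Z.LV W (m * Z.D.i₁) (m * (Z.D.i₁ * u₁ + Z.D.k₁ * t * u₂)) ε F
      fun e q => F e q ^ u₁ * Z.th t β e q ^ u₂ := by
  intro v hv
  have hM := Z.std.ok
  have hi := Z.D.pos.2.2.2.2.2
  have hm : (0 : ℝ) < m := Nat.cast_pos.2 (m_pos Z)
  have hi' : (0 : ℝ) < Z.D.i₁ := Nat.cast_pos.2 hi
  have ht' : (0 : ℝ) < t := Nat.cast_pos.2 ht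
  have hη : (0 : ℝ) < Z.D.η := Rat.cast_pos.2 Z.D.eta.1
  obtain ⟨tn, hol, -, hJ, -⟩ := hT p a _ Z.M Z.C W hM
  obtain ⟨h, hh, h0, hL⟩ := bl _ hv
  refine ⟨fun v' => h (W.γ v').1, (W.tm v).b.hol hh, nz_pull Z hT W hh h0, fun η' hη' => ?_⟩
  have he' := at_chart (n := p) (W.γ v).1
  set e' := chartAt (Cm p) (W.γ v).1
  obtain ⟨A, hA⟩ := hg _ hv
  obtain ⟨O, hO, hOo, hyO⟩ := eventually_nhds_iff.1
    ((at_near he').and (hh.near.and (hA.and (ov_near Z hv))))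
  set γ : ℝ := 2 * (1 + Z.D.η * (m * Z.D.k₁)) / (m * Z.D.i₁) with hγ
  have hγ0 : 0 < γ := by positivity
  let c : Z.M.Y.X → ℝ≥0∞ := O.indicator fun y => ‖β e' y‖ₑ ^ (2 / m : ℝ) * ‖h y‖ₑ ^ η'
  let u : Fin (Z.D.k₁ * t) → Pt Z.M Z.D.n₁ → ℝ≥0∞ := fun k q =>
    (∏ j, ‖Z.D.s (κ (finProdFinEquiv (k, j))) (sel (fun _ => j) q)‖ₑ ^ γ) *
      ‖Z.D.B 0 q‖ₑ ^ (-(2 * Z.D.η) : ℝ)
  have hu : ∀ k, Z.C.Ms (u k) := fun k => ms_mul (ms_prod hI hM _ fun j =>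
    (hI p a _ Z.M Z.C hM).2.2.2.2.2.2 _ _ _ (ms_rf hI hM (Z.D.rfs _).hol γ))
      (ms_rf hI hM (Z.D.rfB 0).hol _)
  have hU : Z.C.Ms fun q : Pt Z.M (Z.D.k₁ * t * Z.D.n₁) => ∏ k, u k (grp k q) :=
    ms_prod hI hM _ fun k => (hI p a _ Z.M Z.C hM).2.2.2.2.2.2 _ _ _ (hu k)
  have hc : Z.C.Ms fun q : Pt Z.M (Z.D.k₁ * t * Z.D.n₁) => c q.1 :=
    ms_base hI hM hOo (fun y hy hQ => bf.hol e' y (hO y hy).1 hQ) (fun y hy => (hO y hy).2.1) _ _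
  have hK : Z.D.K ^ (Z.D.k₁ * t) ≠ ⊤ := ENNReal.pow_ne_top Z.D.fin.ne
  have hLI := (h1 p a _ Z.M Z.C hM W _ _ e' he' (ms_mul hc hU)).2 (lint_mono (hL η' hη' e' he') hK
    (N := fun _ => True) (.of_forall fun _ => trivial) (.of_forall fun b _ => by
      generalize e'.symm b = y
      by_cases hQ : y ∈ Z.D.Q
      · exact ((hI p a _ Z.M Z.C hM).2.2.2.2.1 _ (fun _ => 0) y
          fun x hx => (hx.2.1 hQ).elim).trans (by simp [NS.I])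
      rw [(hI p a _ Z.M Z.C hM).2.2.2.1 _ c hU, (hI p a _ Z.M Z.C hM).1 _ u hu y hQ, mul_comm]
      by_cases hy : y ∈ O
      swap
      · simp [c, hy]
      refine mul_le_mul' ?_ ?_
      · rw [← Fin.prod_const]
        exact Finset.prod_le_prod' fun k _ => Z.D.intB y hQ (ov_z Z hQ (hO y hy).2.2.2) _
      · simp only [c, indicator_of_mem hy, dens, enorm_pow]
        exact mul_le_mul' (alg3 enorm_ne_top (m_pos Z)) le_rfl)) v rfl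
  refine li_mono tn hLI (C := (ENNReal.ofReal A ^ K) ^ γ) (ENNReal.rpow_ne_top_of_nonneg hγ0.le
    (ENNReal.pow_ne_top ENNReal.ofReal_ne_top)) ?_
  filter_upwards [hol.cont.continuousAt.eventually (hOo.mem_nhds hyO)] with v' hv' hN e he
  replace hv' : (W.γ v').1 ∈ O := hv'
  have hN : W.γ v' ∈ Z.C.N _ := not_not.1 hN
  obtain ⟨a1, -, a2, -⟩ := hO _ hv'
  have a3 := (hC p a _ Z.M Z.C hM W.V.X W.γ v' (W.tm v') hN).2.2.2.2
  have a4 : ‖g (W.γ v').1‖ₑ ≤ ENNReal.ofReal A := by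
    rw [← ofReal_norm]
    exact ENNReal.ofReal_le_ofReal (a2 hN.2.1)
  rw [dens, (a3 _ _ hF e he).1 e' a1, (a3 _ _ hΘ e he).1 e' a1]
  simp only [enorm_mul, enorm_pow]
  have a5 := alg1 (f := ‖F e' (W.γ v')‖ₑ) (θ := ‖Z.th t β e' (W.γ v')‖ₑ) (γ := γ)
    (k := m * Z.D.i₁) (k' := m * (Z.D.i₁ * u₁ + Z.D.k₁ * t * u₂)) enorm_ne_top enorm_ne_top
    enorm_ne_top (enorm_ne_zero.2 (hJ v' hN e e' he a1)) (by rw [e1, hγ]; ring) e2 (by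
      have : ε * (m * (Z.D.i₁ * u₁ + Z.D.k₁ * t * u₂)) =
        m * Z.D.i₁ * (ε * u₁) + m * Z.D.k₁ * t * (ε * u₂) := by ring
      push_cast
      rw [this, e1, e2]
      field_simp
      ring)
  have a6 := alg2 (a := ‖g (W.γ v').1‖ₑ) (b := ‖β e' (W.γ v').1‖ₑ) (K := K) (μ := 2 / m)
    (σ := fun j => ‖Z.D.s (κ j) (sel (fun _ => j) (W.γ v'))‖ₑ) (η := Z.D.η)
    (B := fun k => ‖Z.D.B 0 (grp k (W.γ v'))‖ₑ) enorm_ne_top enorm_ne_top (fun _ => enorm_ne_top)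
    (fun _ => enorm_ne_top) hγ0 hi ht (by
      rw [hγ]
      push_cast
      field_simp
      ring)
  have a7 : ‖F e' (W.γ v')‖ₑ = ‖g (W.γ v').1‖ₑ ^ K * (‖β e' (W.γ v').1‖ₑ ^ Z.D.i₁ *
      ∏ j, ‖Z.D.s (κ j) (sel (fun _ => j) (W.γ v'))‖ₑ) := by
    simp only [eF, R, enorm_mul, enorm_pow, en_prod]
  have a8 : ‖Z.th t β e' (W.γ v')‖ₑ =
      ∏ k, ‖β e' (W.γ v').1‖ₑ * ‖Z.D.B 0 (grp k (W.γ v'))‖ₑ ^ t := by
    simp only [Nm.th, enorm_mul, enorm_pow, en_prod]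
  rw [← a7, ← a8] at a6
  refine (mul_le_mul' (a5.trans (mul_le_mul' (a6.trans (mul_le_mul' (ENNReal.rpow_le_rpow
    (pow_le_pow_left' a4 K) hγ0.le) le_rfl)) le_rfl)) le_rfl).trans (le_of_eq ?_)
  simp only [c, indicator_of_mem hv', u, grp, sel]
  ring

end main

end In2

open In2 in
/-- **INIT2** -/
theorem init2 (hS : SIG) (hB : BBD) (hP : IPC) (hI : ICALC) (h1 : I1) (hA : ALGF) (hC : CF)
    (hT : THN) (hX : BXB) : INIT2 := by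
  intro p a m Z t ht T β W u₁ u₂ ε h0 _ e1 e2
  have hM := Z.std.ok
  have hn : 0 < Z.D.k₁ * t * Z.D.n₁ :=
    Nat.mul_pos (Nat.mul_pos Z.D.pos.2.2.2.1 ht) Z.D.pos.2.2.1
  obtain ⟨A1, A2, -, A4, A5, -, -, A8, A9, -, A11, -⟩ := hA p a (Z.D.k₁ * t * Z.D.n₁) Z.M Z.C hM
  obtain ⟨-, -, -, -, -, A6, A7, -⟩ := hA p a Z.D.n₁ Z.M Z.C hM
  obtain ⟨g1, g2, g3, g4⟩ := hS p a m Z _ hn T
  set g : Z.M.Y.X → ℂ := fun y => MvPolynomial.eval (Fin.cons 1 fun j => Z.D.z j y) T.σ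
  let κ : Fin (a + 1) → Fin (Z.D.k₁ * t * Z.D.n₁) → Fin (a + 1) := fun j i =>
    if i = ⟨0, hn⟩ then j else 0
  have hR : ∀ j, Z.C.RF (m * Z.D.i₁) (R Z (κ j)) := fun j => A8 _ _ fun i => Z.D.rfs _
  have hF : ∀ j, Z.C.AF (m * Z.D.i₁) fun e q => β e q.1 ^ Z.D.i₁ * R Z (κ j) q := fun j =>
    A4 _ _ _ (A11 _ _ _ h0.bf) (hR j)
  choose K₀ hK using fun j => g4 _ _ (hF j) fun i hi =>
    bd0 Z hB hP hX hn (T.B i) hi h0.bf (h0.bb i hi) (hR j)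
  have hG : ∀ j K, Z.C.AF (m * Z.D.i₁) fun e q =>
      g q.1 ^ K * (β e q.1 ^ Z.D.i₁ * R Z (κ j) q) := fun j K => by
    induction K with
    | zero => simpa only [pow_zero, one_mul] using hF j
    | succ K ih => simpa only [pow_succ', mul_assoc] using A5 _ _ _ g1 ih
  have hΘ : Z.C.AF (m * (Z.D.k₁ * t)) (Z.th t β) := by
    have := A7 _ (Z.D.k₁ * t) _ fun _ => A6 _ t _ (Z.D.rfB 0)
    rw [mul_assoc m] at this
    refine A9 _ _ _ (A4 _ _ _ (A11 _ (Z.D.k₁ * t) _ h0.bf) this) fun q _ e _ => ?_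
    rw [Nm.th, Finset.prod_mul_distrib, Fin.prod_const]
  refine ⟨fun j e q => g q.1 ^ Finset.univ.sup K₀ * (β e q.1 ^ Z.D.i₁ * R Z (κ j) q), _,
    fun j => hG j _, fun j i => hK j _ (Finset.le_sup (Finset.mem_univ j)) i, fun j =>
      lv Z hI h1 hC hT ht W g3 h0.bf h0.bl e1 e2 (fun _ _ => rfl) (hG j _).toPF ?_,
    rk Z g1 g2 h0.bf h0.ne _ _⟩
  have := (A1 _ _ _ _ (A2 _ u₁ _ (hG j (Finset.univ.sup K₀))) (A2 _ u₂ _ hΘ)).toPF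
  rwa [mul_assoc m, mul_assoc m, ← mul_add] at this

end Vale.Agent.P281Z.Gt
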