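import Vale.Agent.P281Z.Gt.SkB
import Vale.Agent.P281Z.Gl.Thn
import Vale.Agent.P281Z.Bs.Push

/-!
# P281Z, block III, part B: `Keep` passes from a model to a branch
-/

open scoped Manifold ContDiff Topology ENNReal
open Set Filter MeasureTheory
open Vale.Agent.P272.K
open Vale.Agent.P277Z (Hol Nz jd at_chart)

noncomputable section

namespace Vale.Agent.P281Z.Gt

namespace Kb

section gen

variable {n p : ℕ} {X Y : Type} [TopologicalSpace X] [ChartedSpace (Cm n) X]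
  [IsManifold 𝓘(ℂ, Cm n) ω X] [TopologicalSpace Y] {x : X}

section
variable [ChartedSpace (Cm p) Y] [IsManifold 𝓘(ℂ, Cm p) ω Y] {f g : X → Y}

/-- the identity theorem -/
theorem ident (hf : HolA n p f x) (hg : HolA n p g x) (h : f x = g x)
    (k : ∃ᶠ y in 𝓝 x, ∀ᶠ z in 𝓝 y, f z = g z) : ∀ᶠ y in 𝓝 x, f y = g y := by
  have he := at_chart (n := p) (f x)
  generalize chartAt (Cm p) (f x) = e at he
  have a : ∀ c, ∀ᶠ y in 𝓝 x, e (f y) c - e (g y) c = 0 := fun c => by_contra fun d => by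
    obtain ⟨y, b1, b2⟩ := (k.and_eventually (Nz.near d
      ((hf.hol (hol_chart he c)).sub (hg.hol (hol_chart (h ▸ he) c))))).exists
    exact b2 (b1.mono fun z m => sub_eq_zero.2 (congrArg (e · c) m))
  filter_upwards [eventually_all.2 a, hf.cont.eventually (at_near he),
    hg.cont.eventually (at_near (h ▸ he))] with y b1 b2 b3
  exact e.injOn b2.2 b3.2 (funext fun c => sub_eq_zero.1 (b1 c))

theorem pre_ae {B : Set Y} (hB : An p B) (hf : HolA n p f x) (k : ∃ᶠ y in 𝓝 x, f y ∉ B)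
    {e : Chart n X} (he : At e x) : ∀ᶠ z in 𝓝 (e x) ⊓ ae volume, f (e.symm z) ∉ B := by
  obtain ⟨m, g, h1, h2⟩ := hB (f x)
  obtain ⟨i, hi⟩ : ∃ i, Nz (fun y => g i (f y)) x := by
    by_contra c
    refine k ?_
    filter_upwards [hf.cont.eventually h2,
      eventually_all.2 fun i => not_not.1 (not_exists.1 c i)] with y a b using not_not.2 (a.2 b)
  obtain ⟨R, hR, -, h4⟩ := P301.H98.exists_log_integrable (hf.hol (h1 i) e he) fun c =>
    hi ((P277Z.At.ev he (p := fun y => g i (f y) = 0)).1 c)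
  filter_upwards [mem_inf_of_left (Metric.ball_mem_nhds _ hR),
    mem_inf_of_left (at_ev he (hf.cont.eventually h2)),
    mem_inf_of_right ((ae_restrict_iff' measurableSet_ball).1 h4)] with z a b c d
  exact c a (b.1 d i)

end

variable [ChartedSpace (Cm n) Y] [IsManifold 𝓘(ℂ, Cm n) ω Y] {b : X → Y} {e₁ : Chart n X}
  {e : Chart n Y}

/-- the change of variables -/
theorem cov {A : Set X} (hA : IsOpen A) (h : ∀ x ∈ A, At e₁ x ∧ At e (b x) ∧ HolA n n b x)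
    (hi : InjOn b A) {u : X → ℝ≥0∞} {g : Y → ℝ≥0∞}
    (k : ∀ x ∈ A, u x = g (b x) * ‖(df b e₁ e x).det‖ₑ ^ 2) :
    ∫⁻ z in e '' (b '' A), g (e.symm z) = ∫⁻ z in e₁ '' A, u (e₁.symm z) := by
  have hS := (e₁.isOpen_image_of_subset_source hA fun x a => (h x a).1.2).measurableSet
  have a : e '' (b '' A) = (fun z => e (b (e₁.symm z))) '' (e₁ '' A) := by
    simp only [image_image]
    exact image_congr fun x c => by rw [(h x c).1.left_inv]
  rw [a, lintegral_image_eq_lintegral_abs_det_fderiv_mul volume hS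
    (f' := fun z => (fderiv ℂ (fun z => e (b (e₁.symm z))) z).restrictScalars ℝ)]
  · refine setLIntegral_congr_fun hS ?_
    rintro _ ⟨x, c, rfl⟩
    beta_reduce
    rw [Bs.Push.det_rs, (h x c).1.left_inv, (h x c).2.1.left_inv, k x c, mul_comm]
    rfl
  · rintro _ ⟨x, c, rfl⟩
    exact (((h x c).2.2.an (h x c).1 (h x c).2.1).differentiableAt.hasFDerivAt.restrictScalars
      ℝ).hasFDerivWithinAt
  · rintro _ ⟨x, c, rfl⟩ _ ⟨x', c', rfl⟩ d
    simp only [(h x c).1.left_inv, (h x' c').1.left_inv] at d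
    rw [hi c c' (e.injOn (h x c).2.1.2 (h x' c').2.1.2 d)]

/-- the chain rule -/
theorem jd_comp {G : Y → Cm n} {G' : X → Cm n} (hG : ∀ i, Hol n (fun y => G y i) (b x))
    (hb : HolA n n b x) (he₁ : At e₁ x) (he : At e (b x)) (k : ∀ᶠ z in 𝓝 x, G' z = G (b z)) :
    jd (fun i z => G' z i) e₁ x = jd (fun i y => G y i) e (b x) * (df b e₁ e x).det := by
  have h0 : (fun z i => G' (e₁.symm z) i) =ᶠ[𝓝 (e₁ x)]
      (fun z i => G (e.symm z) i) ∘ fun z => e (b (e₁.symm z)) := by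
    filter_upwards [at_map hb.cont he₁ he, at_ev he₁ k] with z a c
    rw [Function.comp_apply, a.left_inv, c]
  have h1 := (AnV.pi hG e he).differentiableAt
  rw [jd, h0.fderiv_eq, fderiv_comp _ (by rw [he₁.left_inv]; exact h1)
    (hb.an he₁ he).differentiableAt, he₁.left_inv]
  exact LinearMap.det_comp _ _

end gen

theorem dens_mul {a c J : ℂ} {k k' : ℕ} {ε : ℝ} (hJ : J ≠ 0) (h : ε * k' = k - 1) :
    ‖a * J ^ k‖ₑ ^ (2 : ℝ) * ‖c * J ^ k'‖ₑ ^ (-(2 * ε)) =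
      ‖a‖ₑ ^ (2 : ℝ) * ‖c‖ₑ ^ (-(2 * ε)) * ‖J‖ₑ ^ 2 := by
  rw [enorm_mul, enorm_mul, ENNReal.mul_rpow_of_ne_top enorm_ne_top enorm_ne_top,
    ENNReal.mul_rpow_of_ne_top enorm_ne_top enorm_ne_top, mul_mul_mul_comm, enorm_pow, enorm_pow,
    ← ENNReal.rpow_natCast, ← ENNReal.rpow_natCast, ← ENNReal.rpow_mul, ← ENNReal.rpow_mul,
    ← ENNReal.rpow_add _ _ (enorm_ne_zero.2 hJ) enorm_ne_top, ← ENNReal.rpow_two]
  congr 2
  linarith

section tm

variable {p a n k : ℕ} {M : Fb (p + a) p} {C : NS M} {T : Type} [TopologicalSpace T]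
  [ChartedSpace (Cm k) T] [IsManifold 𝓘(ℂ, Cm k) ω T] {γ : T → Pt M n} {t : T}

theorem tm_near (h : Tm k γ t) : ∀ᶠ s in 𝓝 t, Tm k γ s := by
  filter_upwards [h.b.near, eventually_all.2 fun j => (h.x j).near, h.fp.eventually_nhds]
    with s a b c using ⟨a, b, c⟩

theorem nice_ae (h : Tm k γ t) (c : ∃ᶠ s in 𝓝 t, γ s ∈ C.N n) {e : Chart k T} (he : At e t) :
    ∃ U ∈ 𝓝 (e t), ∀ᵐ z, z ∈ U → γ (e.symm z) ∈ C.N n := by
  have : ∀ᶠ z in 𝓝 (e t) ⊓ ae volume, γ (e.symm z) ∈ C.N n := by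
    filter_upwards [mem_inf_of_left (at_ev he h.fp),
      pre_ae C.thinQ.an h.b (c.mono fun _ d => d.2.1) he, eventually_all.2 fun j =>
        pre_ae C.thinS.an (h.x j) (c.mono fun _ d => d.2.2 j) he] with z a1 a2 a3
      using ⟨a1, a2, a3⟩
  obtain ⟨U, h1, V, h2, h3⟩ := eventually_inf.1 this
  exact ⟨U, h1, mem_of_superset h2 fun z d d' => h3 z ⟨d', d⟩⟩

theorem hol_co (h : Tm k γ t) (c : γ t ∈ C.N n) {e' : Chart p M.Y.X} (he' : At e' (γ t).1)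
    (i : Fin (p + n * a)) : Hol k (fun s => C.co e' (γ s) i) t := by
  refine i.addCases (fun c => ?_) fun d => ?_
  · simpa only [NS.co, Fin.append_left] using h.b.hol (hol_chart he' c)
  · simpa only [NS.co, Fin.append_right] using (h.x _).hol ((C.mr _).hol _ (c.2.2 _))

end tm

variable {p a n : ℕ} {M : Fb (p + a) p} {C : NS M} {W : Pw M n (p + n * a) C.Q} {T : Type}
  [TopologicalSpace T] [ChartedSpace (Cm (p + n * a)) T] [IsManifold 𝓘(ℂ, Cm (p + n * a)) ω T]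
  [T2Space T] [SecondCountableTopology T] {γ : T → Pt M n} {t : T} {ρ : Pt M n → T} {v : W.V.X}

variable (W γ ρ) in
/-- near `v` the model factors through the branch -/
structure Gd (v : W.V.X) : Prop where
  hol : HolA (p + n * a) (p + n * a) (fun v => ρ (W.γ v)) v
  tm : Tm (p + n * a) γ (ρ (W.γ v))
  eq : ∀ᶠ v' in 𝓝 v, γ (ρ (W.γ v')) = W.γ v'

omit [T2Space T] [SecondCountableTopology T] in
theorem Gd.near (h : Gd W γ ρ v) : ∀ᶠ v' in 𝓝 v, Gd W γ ρ v' := by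
  filter_upwards [h.hol.near, h.hol.cont.eventually (tm_near h.tm), h.eq.eventually_nhds]
    with s a b c using ⟨a, b, c⟩

omit [T2Space T] [SecondCountableTopology T] in
theorem Gd.dens (h : Gd W γ ρ v) (hM : M.Ok) (c : W.γ v ∈ C.N n) {e₁ : Chart (p + n * a) W.V.X}
    {e : Chart (p + n * a) T} (he₁ : At e₁ v) (he : At e (ρ (W.γ v))) {k k' : ℕ} {ε : ℝ}
    (hε : ε * k' = k - 1) (F Θ : Chart p M.Y.X → Pt M n → ℂ) :
    dens (C.cf k F W.γ) (C.cf k' Θ W.γ) ε e₁ v = dens (C.cf k F γ) (C.cf k' Θ γ) ε e (ρ (W.γ v)) *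
      ‖(df (fun v => ρ (W.γ v)) e₁ e v).det‖ₑ ^ 2 := by
  have a1 := h.eq.self_of_nhds
  have he' := at_chart (n := p) (W.γ v).1
  have a2 : C.jn (chartAt (Cm p) (W.γ v).1) W.γ e₁ v = C.jn (chartAt (Cm p) (W.γ v).1) γ e
      (ρ (W.γ v)) * (df (fun v => ρ (W.γ v)) e₁ e v).det :=
    jd_comp (G := fun s => C.co _ (γ s)) (b := fun v => ρ (W.γ v)) (G' := fun s => C.co _ (W.γ s))
      (hol_co h.tm (a1.symm ▸ c) (a1.symm ▸ he')) h.hol he₁ he
      (h.eq.mono fun _ d => congrArg _ d.symm)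
  have a3 := Thn.jn W hM.fibn.hol c he₁ he'
  simp only [Gt.dens, NS.cf, a1, a2, mul_pow, ← mul_assoc]
  exact dens_mul (right_ne_zero_of_mul (a2 ▸ a3)) hε

omit [T2Space T] [SecondCountableTopology T] in
/-- the change of variables on the nice points near a good point -/
theorem Gd.cov (h : Gd W γ ρ v) (hM : M.Ok) {e₁ : Chart (p + n * a) W.V.X}
    {e : Chart (p + n * a) T} (he₁ : At e₁ v) (he : At e (ρ (W.γ v))) {u : W.V.X → ℝ≥0∞}
    {g : T → ℝ≥0∞} (k : ∀ x, Gd W γ ρ x → W.γ x ∈ C.N n → At e₁ x → At e (ρ (W.γ x)) →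
      u x = g (ρ (W.γ x)) * ‖(df (fun v => ρ (W.γ v)) e₁ e x).det‖ₑ ^ 2) {O : Set W.V.X}
    (hO : O ∈ 𝓝 v) : ∃ O' ∈ 𝓝 v, O' ⊆ O ∩ e₁.source ∧
      ∫⁻ z in e '' ((fun v => ρ (W.γ v)) '' (O' ∩ W.γ ⁻¹' C.N n)), g (e.symm z) =
        ∫⁻ z in e₁ '' (O' ∩ W.γ ⁻¹' C.N n), u (e₁.symm z) := by
  obtain ⟨O', o1, o2, o3⟩ := eventually_nhds_iff.1 (h.near.and ((at_near he₁).and
    ((h.hol.cont.eventually (at_near he)).and hO)))
  have hN : IsOpen (W.γ ⁻¹' C.N n) := isClosed_compl_iff.1 (thn p a n M C W hM).1.closed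
  refine ⟨O', o2.mem_nhds o3, fun x c => ⟨(o1 x c).2.2.2, (o1 x c).2.1.2⟩, Kb.cov (o2.inter hN)
    (fun x c => ⟨(o1 x c.1).2.1, (o1 x c.1).2.2.1, (o1 x c.1).1.hol⟩) (fun x c x' c' d => ?_)
    fun x c => k x (o1 x c.1).1 c.2 (o1 x c.1).2.1 (o1 x c.1).2.2.1⟩
  refine Thn.inj W c'.2.2.1 ?_
  rw [← (o1 x c.1).1.eq.self_of_nhds, ← (o1 x' c'.1).1.eq.self_of_nhds]
  exact congrArg γ d

variable (hB : Br C.Q γ t ρ)
include hB

omit [T2Space T] [SecondCountableTopology T] [IsManifold 𝓘(ℂ, Cm (p + n * a)) ω T] in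
theorem near_fib {P : W.V.X → Prop} (h : ∀ v, W.γ v = γ t → ∀ᶠ v' in 𝓝 v, P v') :
    ∀ᶠ s in 𝓝 t, ∀ v, W.γ v = γ s → P v :=
  (hB.tm.b.cont.prodMk (continuousAt_pi.2 fun j => (hB.tm.x j).cont)).eventually
    ((Thn.cont W).isClosedMap.eventually_nhds_fiber (γ t) h)

theorem lift_near : ∀ᶠ s in 𝓝 t, ∀ v, W.γ v = γ s → (γ s).1 ∉ C.Q → ∃ l : T → W.V.X,
    map l (𝓝 s) = 𝓝 v ∧ ∀ᶠ s' in 𝓝 s, W.γ (l s') = γ s' ∧ ρ (γ s') = s' := by
  filter_upwards [tm_near hB.tm, hB.inv.eventually_nhds,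
    near_fib (W := W) hB fun v h => (hB.hol _ _ W.γ v (W.tm v) h).near] with s a1 a2 a3 v h hQ
  obtain ⟨l, b1, b2, b3⟩ := Thn.lift W a1 (h ▸ hQ) h.symm
  have b4 := Imm.of_comp (g := fun v => ρ (W.γ v)) (b1.symm ▸ a3 v h) b2 ((imm_id s).cng (by
    filter_upwards [a2, b3] with s' c1 c2
    rw [c2, c1]))
  exact ⟨l, b1 ▸ (imm_iff_sbm.1 b4).map_nhds b2, b3.and a2⟩

theorem freq (W : Pw M n (p + n * a) C.Q) (hM : M.Ok) : ∃ᶠ s in 𝓝 t, γ s ∈ C.N n := by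
  refine frequently_frequently_nhds.1
    ((hB.off.and_eventually (hB.tm.fp.and (lift_near (W := W) hB))).mono ?_)
  rintro s ⟨a1, a2, a3⟩
  obtain ⟨v, h, -⟩ := W.bij _ a2 a1
  obtain ⟨l, b1, b2⟩ := a3 v h a1
  have := (thn p a n M C W hM).1.freq v
  rw [← b1, frequently_map] at this
  exact (this.and_eventually b2).mono fun s' c => c.2.1 ▸ not_not.1 c.1

theorem dich (h : W.γ v = γ t) :
    Gd W γ ρ v ∨ ∀ᶠ v' in 𝓝 v, ¬ ((W.γ v').1 ∉ C.Q ∧ γ (ρ (W.γ v')) = W.γ v') := by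
  refine or_iff_not_imp_right.2 fun k => ?_
  have a1 := hB.hol _ _ W.γ v (W.tm v) h
  have a2 : ρ (W.γ v) = t := h ▸ hB.inv.self_of_nhds
  have a3 : Tm (p + n * a) γ (ρ (W.γ v)) := a2 ▸ hB.tm
  have a4 : γ (ρ (W.γ v)) = W.γ v := by rw [a2, h]
  have a5 : ∃ᶠ v' in 𝓝 v, ∀ᶠ z in 𝓝 v', γ (ρ (W.γ z)) = W.γ z := by
    refine (Filter.Frequently.and_eventually k
      (a1.cont.eventually (a2 ▸ lift_near (W := W) hB))).mono ?_
    rintro v' ⟨⟨b1, b2⟩, b3⟩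
    obtain ⟨l, c1, c2⟩ := b3 v' b2.symm (b2.symm ▸ b1)
    rw [← c1, eventually_map]
    exact c2.mono fun s' d => by rw [d.1, d.2]
  refine ⟨a1, a3, ?_⟩
  filter_upwards [ident (HolA.cmp (g := fun s => (γ s).1) a3.b a1) (W.tm v).b
    (congrArg Prod.fst a4) (a5.mono fun _ d => d.mono fun _ => congrArg Prod.fst),
    eventually_all.2 fun j => ident (HolA.cmp (g := fun s => (γ s).2 j) (a3.x j) a1) ((W.tm v).x j)
      (congrArg (fun q => q.2 j) a4)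
      (a5.mono fun _ d => d.mono fun _ => congrArg fun q : Pt M n => q.2 j)]
    with z c1 c2 using Prod.ext c1 (funext c2)

end Kb

open Kb in
theorem keepb' : KEEPB := by
  intro p a n M C hM W T _ _ _ _ _ γ t ρ k k' ε F Θ F' o hB hε _ _ _ hK h hh hL η hη e he
  have key : ∀ v ∈ W.γ ⁻¹' {γ t}, ∃ O ∈ 𝓝 v, ∫⁻ z in e '' ((fun v => ρ (W.γ v)) ''
      {x | x ∈ O ∧ W.γ x ∈ C.N n ∧ γ (ρ (W.γ x)) = W.γ x}),
      dens (C.cf k F' γ) (C.cf k' Θ γ) ε e (e.symm z) * o (γ (e.symm z)).1 *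
        ‖h (e.symm z)‖ₑ ^ η < ⊤ := fun v hv => by
    rcases dich hB hv with c | c
    · have a2 : ρ (W.γ v) = t := hv ▸ hB.inv.self_of_nhds
      obtain ⟨U, hU, a3⟩ := hK v (fun x => h (ρ (W.γ x))) (c.hol.hol (a2 ▸ hh)) (by
        filter_upwards [c.near, c.hol.cont.eventually (a2 ▸ hL)] with x b1 b2 b3 e₁ he₁
        obtain ⟨U, hU, b4⟩ := b2 b3 _ (at_chart _)
        obtain ⟨U', hU', b5⟩ := nice_ae (W.tm x)
          (((thn p a n M C W hM).1.freq x).mono fun _ => not_not.1) he₁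
        obtain ⟨O, b6, b7, b8⟩ := b1.cov hM he₁ (at_chart _) (fun _ d1 d2 d3 d4 =>
          d1.dens hM d2 d3 d4 hε F Θ) (inter_mem ((e₁.continuousAt he₁.2).eventually_mem hU')
            ((((chartAt _ _).continuousAt (at_chart _).2).comp b1.hol.cont).eventually_mem hU))
        refine ⟨e₁ '' O, e₁.image_mem_nhds he₁.2 b6, (lintegral_mono_set' ?_).trans_lt
          ((b8.ge.trans (lintegral_mono_set ?_)).trans_lt b4)⟩
        · filter_upwards [b5] with z d1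
          rintro ⟨y, d2, rfl⟩
          exact ⟨y, ⟨d2, e₁.left_inv (b7 d2).2 ▸ d1 (b7 d2).1.1⟩, rfl⟩
        · rintro _ ⟨_, ⟨y, d, rfl⟩, rfl⟩
          exact (b7 d.1).1.2) η hη _ (at_chart v)
      obtain ⟨O, b6, b7, b8⟩ := c.cov hM (at_chart v) (a2 ▸ he)
        (u := fun x => dens (C.cf k F' W.γ) (C.cf k' Θ W.γ) ε (chartAt _ v) x * o (W.γ x).1 *
          ‖h (ρ (W.γ x))‖ₑ ^ η)
        (g := fun s => dens (C.cf k F' γ) (C.cf k' Θ γ) ε e s * o (γ s).1 * ‖h s‖ₑ ^ η)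
        (fun _ d1 d2 d3 d4 => by
          rw [d1.dens hM d2 d3 d4 hε F' Θ, d1.eq.self_of_nhds]
          ring) (((chartAt _ v).continuousAt (at_chart v).2).eventually_mem hU)
      refine ⟨O, b6, lt_of_le_of_lt (le_trans (lintegral_mono_set (image_mono (image_mono
        (t := O ∩ W.γ ⁻¹' C.N n) fun x d => ⟨d.1, d.2.1⟩)))
        (b8.le.trans (lintegral_mono_set ?_))) a3⟩
      rintro _ ⟨y, d, rfl⟩
      exact (b7 d.1).1
    · refine ⟨_, c, lt_of_le_of_lt (lintegral_mono_set (t := ∅) ?_) (by simp)⟩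
      rintro _ ⟨_, ⟨x, d, -⟩, -⟩
      exact d.1 ⟨d.2.1.2.1, d.2.2⟩
  choose! O h1 h2 using key
  obtain ⟨S, h3, h4⟩ :=
    (isClosed_singleton.preimage (Thn.cont W)).isCompact.elim_nhds_subcover_nhdsSet h1
  obtain ⟨U, hU, h5⟩ := nice_ae hB.tm (freq hB W hM) he
  refine ⟨_, inter_mem (inter_mem hU he.nhds_target) (at_ev he (hB.inv.and
    (near_fib hB fun v c => nhds_le_nhdsSet (s := W.γ ⁻¹' {γ t}) c h4))),
    (lintegral_mono_set' ?_).trans_lt ((lintegral_iUnion_le _ _).trans_lt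
      ((tsum_fintype _).trans_lt (ENNReal.sum_lt_top.2 fun (i : S) _ => h2 i (h3 i i.2))))⟩
  filter_upwards [h5] with z c1 c2
  have c3 := c1 c2.1.1
  obtain ⟨v, c4, -⟩ := W.bij _ c3.1 c3.2.1
  obtain ⟨i, c5, c6⟩ := mem_iUnion₂.1 (c2.2.2 v c4)
  have c7 : ρ (W.γ v) = e.symm z := c4 ▸ c2.2.1
  exact mem_iUnion.2 ⟨⟨i, c5⟩, _, ⟨v, ⟨c6, c4 ▸ c3, by rw [c7, c4]⟩, c7⟩, e.right_inv c2.1.2⟩

theorem keepb (_ : CF) (_ : THN) (_ : LIC) : KEEPB := keepb'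

end Vale.Agent.P281Z.Gt
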