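import Vale.Agent.P281Z.Gt.SkB
import Vale.Agent.P281Z.Bs.Pre
import Vale.Agent.P281Z.Sc.L2
import Vale.Agent.P271.Inst.Null

/-!
# P281Z, block III, part B: the rows LV1 and KEEPY
-/

open scoped Manifold ContDiff Topology ENNReal
open Set Filter MeasureTheory
open Vale.Agent.P272.K Vale.Agent.P285.H281.FD
open Vale.Agent.P277Z (Hol Mer Nz at_chart hol_const)

noncomputable section

namespace Vale.Agent.P281Z.Gt

namespace Ky

section one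

variable {n : ℕ} {X : Type} [TopologicalSpace X] [ChartedSpace (Cm n) X] {x : X}

omit [ChartedSpace (Cm n) X] in
/-- integrable near `x` in the chart `e` -/
def L1 (e : Chart n X) (x : X) (f : X → ℝ≥0∞) : Prop :=
  ∃ U ∈ 𝓝 (e x), ∫⁻ z in U, f (e.symm z) < ⊤

theorem li_iff {u : Chart n X → X → ℝ≥0∞} : LI n u x ↔ ∀ e, At e x → L1 e x (u e) := Iff.rfl

/-- thin sets do not matter -/
theorem lint_thin [IsManifold 𝓘(ℂ, Cm n) ω X] {A : Set X} {e : Chart n X} {f g : X → ℝ≥0∞}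
    {C : ℝ≥0∞} (hA : Thin n A) (he : At e x) (hC : C ≠ ⊤) (h : L1 e x g)
    (hle : ∀ᶠ y in 𝓝 x, y ∉ A → f y ≤ C * g y) : L1 e x f := by
  obtain ⟨a, h1, h2, h3⟩ := hA.nz x
  obtain ⟨r, hr, k⟩ := P271.Inst.exists_null (h1 e he) fun m => h2 ((P277Z.At.ev he).1 m)
  refine lint_mono h hC (compl_mem_ae_iff.2 k) ?_
  filter_upwards [at_ev he (h3.and hle), Metric.ball_mem_nhds _ hr] with z a b c
  exact a.2 fun d => c ⟨b, a.1 d⟩

end one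

theorem hw_cont {r : ℕ} (S : PS r) (q : S.P.X) : ContinuousAt S.hw q := by
  have h := Bs.Ps.ix_mem S q
  refine (((S.xhol h 0).cont.norm).div (Bs.Ps.cont_x S h) (norm_ne_zero_iff.2 (S.xnz _ _ h))).congr
    ((lb_near S.lb h).mono fun y hy => ?_)
  rw [PS.hw, Bs.Ps.hx_eq S hy, Pi.smul_apply, norm_smul, norm_smul,
    mul_div_mul_left _ _ (norm_ne_zero_iff.2 (Bs.Ps.g_ne S hy)), Pi.div_apply]

theorem hw_low {r : ℕ} (S : PS r) {q : S.P.X} (h : S.hx q 0 ≠ 0) (N : ℕ) :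
    ∃ C : ℝ≥0∞, C ≠ ⊤ ∧ ∀ᶠ y in 𝓝 q, 1 ≤ C * ENNReal.ofReal (S.hw y) ^ N := by
  have h1 : 0 < S.hw q := div_pos (norm_pos_iff.2 h) (norm_pos_iff.2 (Bs.Ps.hx_ne S q))
  have h2 : ENNReal.ofReal (S.hw q / 2) ^ N ≠ 0 :=
    pow_ne_zero _ (ENNReal.ofReal_pos.2 (half_pos h1)).ne'
  refine ⟨_, ENNReal.inv_ne_top.2 h2, ((hw_cont S q).eventually
    (le_mem_nhds (half_lt_self h1))).mono fun y hy => ?_⟩
  rw [← ENNReal.inv_mul_cancel h2 (ENNReal.pow_ne_top ENNReal.ofReal_ne_top)]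
  gcongr

/-- the density `|a|² |b|^(-2(m-1)/m)` -/
def D (m : ℕ) (a b : ℂ) : ℝ≥0∞ := ‖a‖ₑ ^ (2 : ℝ) * ‖b ^ (m - 1)‖ₑ ^ (-(2 * (1 / m : ℝ)))

section den

variable {m : ℕ} {a b b' : ℂ}

theorem D_self (hm : 0 < m) (a : ℂ) : D m a a = ‖a‖ₑ ^ (2 / m : ℝ) := by
  have h : (0 : ℝ) < m := Nat.cast_pos.2 hm
  by_cases k : a = 0
  · rw [D, k, enorm_zero, ENNReal.zero_rpow_of_pos two_pos, zero_mul,
      ENNReal.zero_rpow_of_pos (by positivity)]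
  · rw [D, enorm_pow, ← ENNReal.rpow_natCast, ← ENNReal.rpow_mul,
      ← ENNReal.rpow_add _ _ (enorm_ne_zero.2 k) enorm_ne_top, Nat.cast_pred hm]
    congr 1
    field_simp
    ring

theorem D_mul (hm : 0 < m) (a b c : ℂ) : D m (a * c) (b * c) = D m a b * ‖c‖ₑ ^ (2 / m : ℝ) := by
  rw [← D_self hm, D, D, D, mul_pow, enorm_mul, enorm_mul,
    ENNReal.mul_rpow_of_ne_top enorm_ne_top enorm_ne_top,
    ENNReal.mul_rpow_of_ne_top enorm_ne_top enorm_ne_top, mul_mul_mul_comm]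

theorem D_jac (hm : 0 < m) (a b j : ℂ) :
    D m (a * j ^ (m * 1)) (b * j ^ (m * 1)) = D m a b * ‖j‖ₑ ^ 2 := by
  have h : (m : ℝ) ≠ 0 := Nat.cast_ne_zero.2 hm.ne'
  rw [D_mul hm, mul_one, enorm_pow, ← ENNReal.rpow_natCast, ← ENNReal.rpow_mul,
    mul_div_cancel₀ _ h, ENNReal.rpow_two]

theorem D_congr (h : ‖b‖ₑ = ‖b'‖ₑ) : D m a b = D m a b' := by
  rw [D, D, enorm_pow, enorm_pow, h]

theorem D_sum {Γ : Type} [Fintype Γ] (c F : Γ → ℂ) :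
    D m (∑ g, c g * F g) b ≤ (∑ g, ‖c g‖ₑ ^ 2) * ∑ g, D m (F g) b := by
  simp only [D, ← Finset.sum_mul, ← mul_assoc, ENNReal.rpow_two]
  gcongr
  have h := (pow_le_pow_left₀ zero_le (nnnorm_sum_le Finset.univ fun g => c g * F g) 2).trans
    (by simpa only [nnnorm_mul] using
      Finset.sum_mul_sq_le_sq_mul_sq Finset.univ (fun g => ‖c g‖₊) fun g => ‖F g‖₊)
  simp only [enorm]
  exact_mod_cast h

theorem D_meas (m : ℕ) (η : ℝ) :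
    Measurable fun w : Fin 3 → ℂ => D m (w 0) (w 1) * ‖w 2‖ₑ ^ η := by
  unfold D
  fun_prop

end den

section ns

variable {p a n m : ℕ} {M : Fb (p + a) p} {C : NS M}

theorem ms_sum {ι : Type} (t : Finset ι) {u : ι → Pt M n → ℝ≥0∞} (h : ∀ i, C.Ms (u i)) :
    C.Ms fun q => ∑ i ∈ t, u i q := by
  let := borel (Pt M n)
  have h1 : (C.N n).indicator (fun q => ∑ i ∈ t, u i q) =
      fun q => ∑ i ∈ t, (C.N n).indicator (u i) q :=
    funext fun q => by by_cases k : q ∈ C.N n <;> simp [k]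
  rw [NS.Ms, h1]
  exact Finset.measurable_sum t fun i _ => h i

theorem I_sum (hI : ICALC) (hM : M.Ok) {ι : Type} (t : Finset ι) {u : ι → Pt M n → ℝ≥0∞}
    (h : ∀ i, C.Ms (u i)) (y : M.Y.X) :
    C.I (fun q => ∑ i ∈ t, u i q) y = ∑ i ∈ t, C.I (u i) y := by
  classical
  induction t using Finset.induction_on with
  | empty => simp [NS.I]
  | insert i t k ih =>
    simp only [Finset.sum_insert k]
    rw [(hI p a n M C hM).2.2.1 _ _ (h i) (ms_sum t h), ih]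

theorem holT_base {h : M.Y.X → ℂ} {q : Pt M n} (hh : Hol p h q.1) :
    HolT (fun q : Pt M n => h q.1) q := fun _ _ _ _ _ _ _ _ _ hγ e => hγ.b.hol (e ▸ hh :)

theorem sel_mem {n' : ℕ} (σ : Fin n' → Fin n) {q : Pt M n} (h : q ∈ C.N n) : sel σ q ∈ C.N n' :=
  ⟨fun _ => h.1 _, h.2.1, fun _ => h.2.2 _⟩

theorem holT_sel {n' : ℕ} (σ : Fin n' → Fin n) {F : Pt M n' → ℂ} {q : Pt M n}
    (h : HolT F (sel σ q)) : HolT (fun q => F (sel σ q)) q := fun k T _ _ _ _ _ γ t hγ e =>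
  h k T (fun s => sel σ (γ s)) t ⟨hγ.b, fun _ => hγ.x _, hγ.fp.mono fun _ k _ => k _⟩
    (congrArg _ e)

theorem ms_rpow (hI : ICALC) (hM : M.Ok) {F : Pt M n → ℂ} (h : ∀ q ∈ C.N n, HolT F q) (r : ℝ) :
    C.Ms fun q => ‖F q‖ₑ ^ r := by
  simpa only [indicator_univ] using (hI p a n M C hM).2.2.2.2.2.1 Unit (fun _ => F) univ
    (fun w => ‖w ()‖ₑ ^ r) isOpen_univ (by fun_prop) fun _ q hq _ => h q hq

/-- local integrability on the model and fibre integrals -/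
theorem key (h1 : I1) (hI : ICALC) (hC : CF) (hT : THN) (hM : M.Ok) (hm : 0 < m)
    (W : Pw M n (p + n * a) C.Q) {F B : Chart p M.Y.X → Pt M n → ℂ} (hF : C.PF (m * 1) F)
    (hB : C.PF (m * 1) B) {y : M.Y.X} {e' : Chart p M.Y.X} (he : At e' y) {h : M.Y.X → ℂ}
    (hh : Hol p h y) (η : ℝ) : ∃ u : Pt M n → ℝ≥0∞, C.Ms u ∧
      (∀ᶠ y' in 𝓝 y, ∀ q, q.1 = y' → u q = D m (F e' q) (B e' q) * ‖h y'‖ₑ ^ η) ∧
      ((∀ v, (W.γ v).1 = y → LI (p + n * a) (fun e v' => dens (C.cf (m * 1) F W.γ)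
        (C.cf (m * (m - 1)) (fun e q => B e q ^ (m - 1)) W.γ) (1 / m) e v' *
          ‖h (W.γ v').1‖ₑ ^ η) v) ↔ L1 e' y (C.I u)) := by
  obtain ⟨O, o1, o2, o3⟩ := _root_.eventually_nhds_iff.1 (hh.near.and (at_near he))
  have ms := (hI p a n M C hM).2.2.2.2.2.1 (Fin 3) ![F e', B e', fun q => h q.1] O _ o2
    (D_meas m η) fun i q hq k => by
      fin_cases i
      exacts [hF.hol e' q hq (o1 _ k).2, hB.hol e' q hq (o1 _ k).2, holT_base (o1 _ k).1]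
  refine ⟨_, ms, eventually_of_mem (o2.mem_nhds o3) fun y' k q e => ?_,
    Iff.trans (forall₂_congr fun v hv => li_iff.trans ((forall₂_congr fun e k => ?_).trans
      li_iff.symm)) (h1 p a n M C hM W _ y e' he ms)⟩
  · subst e
    exact indicator_of_mem k _
  obtain ⟨t1, t2, -⟩ := hT p a n M C W hM
  have h2 : ∀ᶠ v' in 𝓝 v, v' ∉ {v | W.γ v ∉ C.N n} → dens (C.cf (m * 1) F W.γ)
      (C.cf (m * (m - 1)) (fun e q => B e q ^ (m - 1)) W.γ) (1 / m) e v' * ‖h (W.γ v').1‖ₑ ^ η =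
        O.indicator (fun _ => D m (F e' (W.γ v')) (B e' (W.γ v')) * ‖h (W.γ v').1‖ₑ ^ η)
          (W.γ v').1 * ‖C.jn e' W.γ e v'‖ₑ ^ 2 := by
    filter_upwards [at_near k, t2.cont.continuousAt.eventually (o2.mem_nhds (hv ▸ o3 :))]
      with v' k1 k2 k3
    have k4 := (hC p a n M C hM _ W.γ v' (W.tm v') (not_not.1 k3)).2.2.2.2
    rw [indicator_of_mem k2, mul_right_comm, ← D_jac hm, ← (k4 _ _ hF e k1).1 e' (o1 _ k2).2,
      ← (k4 _ _ hB e k1).1 e' (o1 _ k2).2, dens, D, NS.cf, NS.cf, NS.cf, mul_pow (B _ _),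
      ← pow_mul, mul_one m]
  exact ⟨fun l => lint_thin t1 k ENNReal.one_ne_top l
      (h2.mono fun _ a b => (a b).ge.trans (one_mul _).ge),
    fun l => lint_thin t1 k ENNReal.one_ne_top l
      (h2.mono fun _ a b => (a b).le.trans (one_mul _).ge)⟩

end ns

variable {p a m : ℕ} (Z : Nm p a m) {s : ℕ} {β : Chart p Z.M.Y.X → Z.M.Y.X → ℂ} {y : Z.M.Y.X}

include Z in
theorem m_pos : 0 < m := two_pos.trans_le Z.std.two

theorem ov_near (h : Z.Ov y) : ∀ᶠ y' in 𝓝 y, Z.Ov y' :=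
  Z.hol.cont.continuousAt.eventually ((Bs.Ps.isOpen_aff Z.S Z.D.opn).mem_nhds h)

theorem ov_mem (h : Z.Ov y) (k : y ∉ Z.D.Q) : (fun j => Z.D.z j y) ∈ Z.D.O := by
  have h2 := h.2
  rwa [Z.eq y k, (Bs.Ps.pt_cons Z.S _).2] at h2

theorem holT_Pb {q : Pt Z.M (s * (Z.D.c₀ * Z.D.ρ))} (h : q ∈ Z.C.N _) : HolT (Z.Pb s) q :=
  fun k T _ _ _ _ _ γ t hγ e => .prod _ fun _ _ =>
    holT_sel _ (Z.D.rfP.hol _ (sel_mem _ h)) k T γ t hγ e

theorem pf_bp (h : BF p m Z.D.Q β) : Z.C.PF (m * 1) (Z.bp s β) :=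
  ⟨fun e' q hq he k T _ _ _ _ _ γ t hγ e =>
    (holT_base (h.hol e' _ he hq.2.1) k T γ t hγ e).mul (holT_Pb Z hq k T γ t hγ e),
   fun e' e₁ q hq k k₁ => by rw [Nm.bp, Nm.bp, h.chg e' e₁ _ k k₁ hq.2.1, mul_assoc, mul_one]⟩

/-- the fibre integrals of `|P ... P|^(2/m)` -/
theorem I_Pb (hI : ICALC) (h : Z.Ov y) (k : y ∉ Z.D.Q) (c : Z.M.Y.X → ℝ≥0∞) :
    Z.C.I (fun q => c q.1 * ‖Z.Pb s q‖ₑ ^ (2 / m : ℝ)) y ≤ Z.D.K ^ s * c y ∧
      c y ≤ Z.D.K ^ s * Z.C.I (fun q => c q.1 * ‖Z.Pb s q‖ₑ ^ (2 / m : ℝ)) y := by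
  have hM := Z.std.ok
  obtain ⟨h1, h2⟩ := Z.D.intP y k (ov_mem Z h k)
  have h3 : Z.D.K ≠ 0 := fun l => by simp [l] at h2; simp [l, h2] at h1
  have h4 : (fun q => ‖Z.Pb s q‖ₑ ^ (2 / m : ℝ)) =
      fun q => ∏ g, (fun q => ‖Z.D.P q‖ₑ ^ (2 / m : ℝ)) (grp g q) := funext fun q => by
    rw [ENNReal.prod_rpow_of_nonneg (by positivity), Nm.Pb, enorm_eq_nnnorm, nnnorm_prod,
      ENNReal.ofNNReal_finsetProd]
    rfl
  rw [(hI p a _ Z.M Z.C hM).2.2.2.1 _ c (ms_rpow hI hM (fun _ => holT_Pb Z) _), h4,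
    (hI p a _ Z.M Z.C hM).1 s _ (fun _ => ms_rpow hI hM Z.D.rfP.hol _) y k, Finset.prod_const,
    Finset.card_fin, mul_left_comm, ← mul_pow, mul_comm (_ ^ s)]
  refine ⟨by gcongr, le_mul_of_one_le_right' (one_le_pow₀ ?_)⟩
  rw [← ENNReal.mul_inv_cancel h3 Z.D.fin.ne]
  gcongr

theorem up (h1 : I1) (hI : ICALC) (hC : CF) (hT : THN) (W : Z.W (s * (Z.D.c₀ * Z.D.ρ)))
    (hβ : BF p m Z.D.Q β) (hy : Z.Ov y) {h : Z.M.Y.X → ℂ} (hh : Hol p h y) {η : ℝ}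
    (hl : LI p (fun e y => dens β (fun e y => β e y ^ (m - 1)) (1 / m) e y * ‖h y‖ₑ ^ η) y)
    (v : W.V.X) (hv : (W.γ v).1 = y) :
    LI (p + s * (Z.D.c₀ * Z.D.ρ) * a) (fun e v' => dens (Z.C.cf (m * 1) (Z.bp s β) W.γ)
      (Z.C.cf (m * (m - 1)) (fun e q => Z.bp s β e q ^ (m - 1)) W.γ) (1 / m) e v' *
        ‖h (W.γ v').1‖ₑ ^ η) v := by
  have he := at_chart (n := p) y
  obtain ⟨u, -, h2, h3⟩ := key h1 hI hC hT Z.std.ok (m_pos Z) W (pf_bp Z hβ) (pf_bp Z hβ) he hh η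
  refine h3.2 (lint_thin Z.D.thinQ he (ENNReal.pow_ne_top (n := s) Z.D.fin.ne)
    (li_iff.1 hl _ he) ?_) v hv
  filter_upwards [h2, ov_near Z hy] with y' k1 k2 k3
  refine le_trans ((hI p a _ Z.M Z.C Z.std.ok).2.2.2.2.1 _ _ y' fun x _ => ?_)
    (I_Pb Z hI k2 k3 fun y' => D m (β (chartAt _ y) y') (β (chartAt _ y) y') * ‖h y'‖ₑ ^ η).1
  rw [k1 _ rfl, Nm.bp, D_mul (m_pos Z), mul_right_comm]

end Ky

open Ky

/-- **LV1** -/
theorem lv1 (h1 : I1) (hI : ICALC) (hC : CF) (hT : THN) : LV1 := by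
  intro p a m Z s _ W β hβ hL v hv
  obtain ⟨h, k1, k2, k3⟩ := hL _ hv
  obtain ⟨t1, t2, -, -, t3, -⟩ := hT p a _ Z.M Z.C W Z.std.ok
  refine ⟨fun v => h (W.γ v).1, t2.hol k1, fun k => ?_, fun η hη =>
    up Z h1 hI hC hT W hβ hv k1 (k3 η hη) v rfl⟩
  obtain ⟨v', a, b, c⟩ := ((t1.freq v).and_eventually (k.eventually_nhds.and
    (t2.cont.continuousAt.eventually (k2.near k1)))).exists
  refine c ?_
  rwa [← (t3 v' (not_not.1 a).2.1).1.map_nhds (t2.at v'), eventually_map]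

/-- **KEEPY** -/
theorem keepy (h1 : I1) (hI : ICALC) (hC : CF) (hT : THN) : KEEPY := by
  intro p a m Z s _ W β β' F Γ _ σ c c' hβ _ hF hc hP hs hK y hy h hh hl η hη
  refine li_iff.2 fun e' he => ?_
  have hM := Z.std.ok
  have I := hI p a (s * (Z.D.c₀ * Z.D.ρ)) Z.M Z.C hM
  have t2 := (hT p a _ Z.M Z.C W hM).2.1
  obtain ⟨u, ms, h2, h3⟩ := key h1 hI hC hT hM (m_pos Z) W hF (pf_bp Z hβ) he hh η
  obtain ⟨A, hA, h4⟩ := hw_low Z.S hy.1 (2 * (Z.D.v + 1))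
  have h5 := h3.1 fun v hv => li_iff.2 fun e k => by
    subst hv
    refine lint_thin thin_empty k hA (li_iff.1 (hK v _ (t2.hol hh) ?_ η hη) e k) ?_
    · filter_upwards [t2.cont.continuousAt.eventually (hl.and (ov_near Z hy))] with v' k1 k2
      simpa using up Z h1 hI hC hT W hβ k1.2 (hol_const 1 _) (η := 0) (by simpa using k1.1 k2) v' rfl
    · filter_upwards [(Z.hol.comp t2).cont.continuousAt.eventually h4] with v' k1 _
      rw [← mul_assoc A, mul_left_comm A]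
      gcongr
      exact le_mul_of_one_le_right' k1
  refine lint_thin Z.D.thinQ he (C := Z.D.K ^ s * ((∑ g, ‖c' g‖ₑ ^ 2) * Fintype.card Γ))
    (ENNReal.mul_ne_top (ENNReal.pow_ne_top Z.D.fin.ne) (ENNReal.mul_ne_top (ENNReal.sum_ne_top.2
      fun _ _ => ENNReal.pow_ne_top enorm_ne_top) (ENNReal.natCast_ne_top _))) h5 ?_
  filter_upwards [h2, ov_near Z hy, at_near he] with y' k1 k2 k3 k4
  have m1 : ∀ g, Z.C.Ms fun q => u (sel (σ g) q) := fun g => I.2.2.2.2.2.2 _ _ u ms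
  have h6 := I.2.2.2.1 _ (fun _ => ∑ g, ‖c' g‖ₑ ^ 2) (ms_sum Finset.univ m1) y'
  rw [I_sum hI hM _ m1, Finset.sum_congr rfl fun g _ => I.2.1 (σ g) u y', Finset.sum_const,
    nsmul_eq_mul, Finset.card_univ] at h6
  refine (I_Pb Z (s := s) hI k2 k4 fun y => D m (β' e' y) (β e' y) * ‖h y‖ₑ ^ η).2.trans ?_
  rw [mul_assoc, mul_assoc, ← h6]
  gcongr
  refine I.2.2.2.2.1 _ _ y' fun x hx => ?_
  have h7 : ∀ g, u (sel (σ g) (y', x)) =
      D m (F e' (sel (σ g) (y', x))) (Z.bp s β e' (y', x)) * ‖h y'‖ₑ ^ η := fun g => by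
    rw [k1 _ rfl, D_congr (b' := Z.bp s β e' (y', x))]
    rw [Nm.bp, Nm.bp, ← hP g _ hx, enorm_mul, enorm_mul, enorm_mul, ← ofReal_norm (c g), hc,
      ENNReal.ofReal_one, one_mul]
    rfl
  simp only [h7]
  rw [mul_right_comm, ← D_mul (m_pos Z), ← Finset.sum_mul, ← mul_assoc (∑ g, _)]
  gcongr
  exact (congrArg (D m · _) (hs _ hx e' k3)).trans_le (D_sum _ _)

end Vale.Agent.P281Z.Gt
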