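import Vale.Agent.P281Z.Gt.SkB
import Vale.Agent.P281Z.Gl.Thn
import Vale.Agent.P281Z.Sc.Riem
import Vale.Agent.P277Z.Lo.Jac

/-!
# P281Z, block III, part B: forms on a model (rows MSCF, MERV)
-/

open scoped Manifold ContDiff Topology
open Set Filter
open Vale.Agent.P272.K Vale.Agent.P285.H281.FD
open Vale.Agent.P277Z (Hol Mer Nz gen jd at_chart hol_const gen_of_nhds nz_of_gen)
open Vale.Agent.P277Z.Lo (mer_of_hol mer_congr mer_mul)

noncomputable section

namespace Vale.Agent.P281Z.Gt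

namespace Msc

section

variable {k : ℕ} {T : Type} [TopologicalSpace T] [ChartedSpace (Cm k) T]
  [IsManifold 𝓘(ℂ, Cm k) ω T] {t : T}

theorem mer_pow {g : T → ℂ} (h : Mer k g t) (j : ℕ) : Mer k (fun s => g s ^ j) t := by
  induction j with
  | zero => simpa only [pow_zero] using mer_of_hol (hol_const 1 t)
  | succ j ih => simpa only [pow_succ] using mer_mul ih h

theorem tm_near {N p n : ℕ} {M : Fb N p} {γ : T → Pt M n} (h : Tm k γ t) :
    ∀ᶠ s in 𝓝 t, Tm k γ s := by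
  filter_upwards [h.b.near, eventually_all.2 fun j => (h.x j).near, h.fp.eventually_nhds]
    with s a b c using ⟨a, b, c⟩

omit [IsManifold 𝓘(ℂ, Cm k) ω T] in
theorem tm_cont {N p n : ℕ} {M : Fb N p} {γ : T → Pt M n} (h : Tm k γ t) : ContinuousAt γ t :=
  h.b.cont.prodMk (continuousAt_pi.2 fun j => (h.x j).cont)

omit [ChartedSpace (Cm k) T] [IsManifold 𝓘(ℂ, Cm k) ω T] in
/-- an equation of `S` which does not vanish identically along `γ` -/
theorem ex_eq {n : ℕ} {X : Type} [TopologicalSpace X] [ChartedSpace (Cm n) X] {S : Set X}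
    (hS : Thin n S) {γ : T → X} (hγ : ContinuousAt γ t) (hf : ∃ᶠ s in 𝓝 t, γ s ∉ S) :
    ∃ h, Hol n h (γ t) ∧ Nz (fun s => h (γ s)) t ∧ ∀ᶠ y in 𝓝 (γ t), y ∈ S → h y = 0 := by
  obtain ⟨m, a, h1, h2⟩ := hS.1 (γ t)
  by_contra c
  refine hf ?_
  filter_upwards [hγ.eventually h2, eventually_all.2 fun i => not_not.1 fun d =>
    c ⟨a i, h1 i, d, h2.mono fun y k1 k2 => k1.1 k2 i⟩] with s k1 k2 k3 using k3 (k1.2 k2)

end

variable {p a n : ℕ} {M : Fb (p + a) p} {C : NS M} {d : ℕ} {T : Type} [TopologicalSpace T]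
  [T2Space T] [SecondCountableTopology T]

theorem jn_mer (hM : MERT) [ChartedSpace (Cm (p + n * a)) T] [IsManifold 𝓘(ℂ, Cm (p + n * a)) ω T]
    {γ : T → Pt M n} {t : T} (h : Tm (p + n * a) γ t) (hf : ∃ᶠ s in 𝓝 t, γ s ∈ C.N n)
    {e : Chart (p + n * a) T} {e' : Chart p M.Y.X} (he : At e t) (he' : At e' (γ t).1) :
    Mer (p + n * a) (C.jn e' γ e) t := by
  refine P277Z.Lo.Jc.jd_mer he fun i => ?_
  refine Fin.addCases (fun c => ?_) (fun c => ?_) i
  · simpa only [NS.co, Fin.append_left] using mer_of_hol (h.b.hol (hol_chart he' c))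
  · simpa only [NS.co, Fin.append_right] using hM _ _ _ T C.S _ _ t (C.thinS.1 _)
      ((C.mr _).mer _) (.of_forall (C.mr _).hol) (h.x _) (hf.mono fun s k => k.2.2 _)

theorem zero_iff {k : ℕ} {F : Chart p M.Y.X → Pt M n → ℂ} (hF : C.PF k F) {q : Pt M n}
    (hq : q ∈ C.N n) {e' : Chart p M.Y.X} (he' : At e' q.1) :
    F (chartAt (Cm p) q.1) q = 0 ↔ F e' q = 0 := by
  rw [hF.chg e' _ q hq he' (at_chart _), mul_eq_zero]
  exact (or_iff_right
    (pow_ne_zero _ (P277Z.Slc.isLB_can.ne_zero e' _ _ he' (at_chart _)))).symm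

end Msc

open Msc

/-- **MSCF** -/
theorem mscf (hC : CF) (hZ : ZERO) (hM : MERT) : MSCF := by
  intro p a n M C ok W k F hF
  have hA := (thn p a n M C W ok).1
  have cf := fun v hv => hC p a n M C ok W.V.X W.γ v (W.tm v) hv
  have fr : ∀ v, ∃ᶠ s in 𝓝 v, W.γ s ∈ C.N n := fun v => (hA.freq v).mono fun _ => not_not.1
  refine ⟨⟨fun e v he hv => ((cf v (not_not.1 hv)).2.2.2.2 k F hF.toPF e he).2.1,
    fun e e₁ v he he₁ hv => ((cf v (not_not.1 hv)).2.2.2.2 k F hF.toPF e he).2.2 e₁ he₁,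
    fun e v he => ?_⟩, fun ⟨q, hq, e', he', h0⟩ => ?_⟩
  · refine mer_congr (mer_mul (hF.mer _ _ W.γ v (W.tm v) (fr v) _ (at_chart _))
      (mer_pow (jn_mer hM (W.tm v) (fr v) he (at_chart _)) k)) ?_
    filter_upwards [hA.gen v, gen_of_nhds (at_near he),
      gen_of_nhds ((W.tm v).b.cont.eventually (at_near (at_chart (n := p) (W.γ v).1)))] with y h1 h2 h3
    exact (((cf y (not_not.1 h1)).2.2.2.2 k F hF.toPF e h2).1 _ h3).symm
  · refine hZ _ W.V _ {v | F (chartAt (Cm p) (W.γ v).1) (W.γ v) = 0} W.conn hA (fun v => ⟨_,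
      hF.mer _ _ W.γ v (W.tm v) (fr v) _ (at_chart _), ?_⟩) ?_
    · filter_upwards [(W.tm v).b.cont.eventually (at_near (at_chart (n := p) (W.γ v).1))] with y h1 h2
      exact ⟨hF.hol _ _ (not_not.1 h2) h1 _ _ W.γ y (W.tm y) rfl,
        zero_iff hF.toPF (not_not.1 h2) h1⟩
    · obtain ⟨v, rfl, -⟩ := W.bij q hq.1 hq.2.1
      exact ⟨v, not_not.2 hq, mt (zero_iff hF.toPF hq he').1 h0⟩

/-- **MERV** -/
theorem merv (hG : GROW) : MERV := by
  intro p a n M C _ W F q hq hv d T _ _ _ _ _ γ t tm e hf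
  subst e
  obtain ⟨h₀, a1, a2, a3⟩ := ex_eq C.thinQ tm.b.cont (hf.mono fun s k => k.2.1)
  choose h b1 b2 b3 using fun j => ex_eq C.thinS (tm.x j).cont (hf.mono fun s k => k.2.2 j)
  let H : Pt M n → ℂ := fun q => h₀ q.1 * ∏ j, h j (q.2 j)
  have hH : HolT H (γ t) := fun _ _ _ _ _ _ _ g s k e =>
    (k.b.hol (by rw [e]; exact a1)).mul (Hol.prod _ fun j _ => (k.x j).hol (by rw [e]; exact b1 j))
  have hN : ∀ᶠ q in 𝓝 (γ t), Fp q → H q ≠ 0 → q ∈ C.N n ∧ HolT F q := by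
    filter_upwards [hq, continuousAt_fst.eventually a3, eventually_all.2 fun j =>
      ((continuous_apply j).comp continuous_snd).continuousAt.eventually (b3 j)] with q c1 c2 c3 c4 c5
    have c6 : q ∈ C.N n := ⟨c4, fun c => left_ne_zero_of_mul c5 (c2 c), fun j c =>
      Finset.prod_ne_zero_iff.1 (right_ne_zero_of_mul c5) j (Finset.mem_univ j) (c3 j c)⟩
    exact ⟨c6, c1 c6⟩
  have h1 := hH d T γ t tm rfl
  have h2 : Nz (fun s => H (γ s)) t := nz_of_gen (by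
    filter_upwards [a2.gen (tm.b.hol a1), eventually_all.2 fun j => (b2 j).gen
      ((tm.x j).hol (b1 j))] with s c1 c2
      using mul_ne_zero c1 (Finset.prod_ne_zero_iff.2 fun j _ => c2 j))
  have h3 : ∀ᶠ z : ℕ × W.V.X in atTop ×ˢ 𝓝ˢ (W.γ ⁻¹' {γ t}), H (W.γ z.2) ≠ 0 →
      ‖H (W.γ z.2) ^ z.1 * F (W.γ z.2)‖ ≤ (‖H (γ t)‖ + 1) ^ z.1 * z.1 := by
    refine (isClosed_singleton.preimage (Thn.cont W)).isCompact.mem_prod_nhdsSet_of_forall
      fun v (e : W.γ v = γ t) => ?_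
    have k1 := hH _ _ W.γ v (W.tm v) e
    by_cases k2 : Nz (fun v => H (W.γ v)) v
    · obtain ⟨K, g, k3, k4⟩ := hG _ W.V.X _ _ v (hv v e) k1 k2 (by
        filter_upwards [(Thn.cont W).continuousAt.eventually (e ▸ hN)] with y c1 c2
          using (c1 (Thn.fp W y) c2).2 _ _ W.γ y (W.tm y) rfl)
      filter_upwards [prod_mem_prod ((eventually_ge_atTop K).and
        (tendsto_natCast_atTop_atTop.eventually_ge_atTop (‖g v‖ + 1))) (k4.and
        ((k1.cont.norm.eventually (ge_mem_nhds (lt_add_one _))).and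
          (k3.cont.norm.eventually (ge_mem_nhds (lt_add_one _)))))] with z ⟨c1, c2⟩ c3
      obtain ⟨j, c4⟩ := Nat.exists_eq_add_of_le' c1.1
      rw [c4, pow_add, mul_assoc, ← c2.1 c3, norm_mul, norm_pow, ← c4]
      refine mul_le_mul ((pow_le_pow_left₀ (norm_nonneg _) (e ▸ c2.2.1) j).trans
        (pow_le_pow_right₀ (le_add_of_nonneg_left (norm_nonneg _)) (by omega)))
        (c2.2.2.trans c1.2) (norm_nonneg _) (by positivity)
    · filter_upwards [prod_mem_prod univ_mem (not_not.1 k2)] with z c1 c2 using (c2 c1.2).elim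
  obtain ⟨N, h4⟩ := h3.curry.exists
  have h5 := (Thn.cont W).isClosedMap.eventually_nhds_fiber (γ t)
    fun v hv => h4.filter_mono (nhds_le_nhdsSet hv)
  obtain ⟨b, c1, c2⟩ := riem (f := fun s => H (γ s) ^ N * F (γ s)) h1 h2 (by
    filter_upwards [(tm_cont tm).eventually (hN.and h5), tm_near tm, h1.near] with s k1 k2 k3 k4
    obtain ⟨k5, k6⟩ := k1.1 k2.fp.self_of_nhds k4
    obtain ⟨v, k7, -⟩ := W.bij _ k5.1 k5.2.1
    exact ⟨(k3.pow N).mul (k6 d T γ s k2 rfl), k7 ▸ k1.2 v k7 (k7 ▸ k4)⟩)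
  refine ⟨b, _, c1, h1.pow N, nz_of_gen ((h2.gen h1).mono fun _ => pow_ne_zero N), ?_⟩
  filter_upwards [h2.gen h1, gen_of_nhds c2] with s k1 k2 using (mul_comm _ _).trans (k2 k1).symm

end Vale.Agent.P281Z.Gt
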