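import Vale.Agent.P281Z.Gt.SkB
import Vale.Agent.P281Z.Bs.Tr
import Vale.Agent.P281Z.Sc.Riem
import Vale.Agent.P277Z.Lo.Jac
import Vale.Agent.P277Z.Hl.Defs

/-!
# P281Z, block III, part B: the first bound
-/

open scoped Manifold ContDiff Topology ENNReal Matrix
open Set Filter
open Vale.Agent.P272.K Vale.Agent.P285.H281.FD
open Vale.Agent.P277Z (Hol Mer Nz gen jd at_chart hol_const gen_of_nhds gen_le_nhds)
open Vale.Agent.P277Z.Lo (mer_of_hol mer_congr mer_add mer_mul)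
open Vale.Agent.P277Z.Hl (cn cn_at cn_hol cn_gen)
open Vale.Agent.P277Z.Slc (LEq)
open MvPolynomial (eval)

noncomputable section

namespace Vale.Agent.P281Z.Gt

namespace Sg

theorem bdd {X E : Type} [TopologicalSpace X] [NormedAddCommGroup E] {f : X → E} {x : X}
    (h : ContinuousAt f x) : ∃ C : ℝ, 0 ≤ C ∧ ∀ᶠ y in 𝓝 x, ‖f y‖ ≤ C :=
  ⟨‖f x‖ + 1, by positivity, (h.norm.eventually_lt_const (lt_add_one _)).mono fun _ => le_of_lt⟩

theorem ind_eval {Y ι : Type} (P : (Y → ℂ) → Prop) (h0 : ∀ c, P fun _ => c)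
    (h1 : ∀ a b, P a → P b → P fun y => a y + b y) (h2 : ∀ a b, P a → P b → P fun y => a y * b y)
    (z : Y → ι → ℂ) (hz : ∀ i, P fun y => z y i) (σ : MvPolynomial ι ℂ) :
    P fun y => eval (z y) σ := by
  induction σ using MvPolynomial.induction_on with
  | C c => simpa using h0 c
  | add σ τ k1 k2 => simpa using h1 _ _ k1 k2
  | mul_X σ i k => simpa using h2 _ _ k (hz i)

theorem ev_smul {ι : Type} {σ : MvPolynomial ι ℂ} {k : ℕ} (h : σ.IsHomogeneous k) (c : ℂ)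
    (w : ι → ℂ) : eval (c • w) σ = c ^ k * eval w σ := by
  rw [MvPolynomial.eval_eq, MvPolynomial.eval_eq, Finset.mul_sum]
  refine Finset.sum_congr rfl fun m hm => ?_
  simp only [Pi.smul_apply, smul_eq_mul, mul_pow]
  rw [Finset.prod_mul_distrib, Finset.prod_pow_eq_pow_sum, ← h.degree_eq_sum_deg_support hm]
  ring

/-- a homogeneous polynomial does not vanish on an open subset of the affine space -/
theorem ex_ne {v d : ℕ} {σ : MvPolynomial (Fin (v + 1)) ℂ} (h0 : σ ≠ 0) (h : σ.IsHomogeneous d)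
    {O : Set (Cm v)} (h1 : IsOpen O) (h2 : O.Nonempty) :
    ∃ c ∈ O, eval (Fin.cons 1 c : Fin (v + 1) → ℂ) σ ≠ 0 := by
  by_contra! k
  obtain ⟨c, hc⟩ := h2
  have k1 : ContinuousAt (fun w : Fin (v + 1) → ℂ => (fun j => w j.succ / w 0 : Cm v))
      (Fin.cons 1 c) := continuousAt_pi.2 fun j =>
    (continuousAt_apply _ _).div (continuousAt_apply _ _) (by simp)
  have k2 : ∀ᶠ w : Fin (v + 1) → ℂ in 𝓝 (Fin.cons 1 c), w 0 ≠ 0 :=
    (continuousAt_apply 0 _).eventually_ne (by simp)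
  obtain ⟨ε, hε, k3⟩ := Metric.eventually_nhds_iff_ball.1
    (k2.and (k1.eventually (h1.eventually_mem (by simpa using hc))))
  refine h0 (MvPolynomial.funext_set
    (fun i => Metric.ball ((Fin.cons 1 c : Fin (v + 1) → ℂ) i) ε)
    (fun i => infinite_of_mem_nhds _ (Metric.ball_mem_nhds _ hε)) fun w hw => ?_)
  obtain ⟨a, b⟩ := k3 w (by rwa [ball_pi _ hε])
  have e : w = w 0 • (Fin.cons 1 fun j => w j.succ / w 0 : Fin (v + 1) → ℂ) :=
    funext fun i => Fin.cases (by simp) (fun j => by simp [mul_div_cancel₀ _ a]) i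
  rw [e, ev_smul h, k _ b, mul_zero, map_zero]

/-- a holomorphic function which vanishes on a coordinate hyperplane -/
theorem lip {N : ℕ} {f : Cm N → ℂ} (i : Fin N) (hf : AnalyticAt ℂ f 0)
    (h0 : ∀ᶠ o in 𝓝 (0 : Cm N), o i = 0 → f o = 0) :
    ∃ L : ℝ, 0 ≤ L ∧ ∀ᶠ o in 𝓝 (0 : Cm N), ‖f o‖ ≤ L * ‖o i‖ := by
  obtain ⟨L, s, hs, k⟩ := hf.hasStrictFDerivAt.exists_lipschitzOnWith
  have c : Tendsto (fun o : Cm N => Function.update o i 0) (𝓝 0) (𝓝 0) := by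
    simpa using (continuous_id.update i (continuous_const (y := (0 : ℂ)))).tendsto (0 : Cm N)
  refine ⟨L, L.2, ?_⟩
  filter_upwards [hs, c.eventually hs, c.eventually h0] with o h1 h2 h3
  have := k.dist_le_mul _ h1 _ h2
  rw [h3 (Function.update_self ..), dist_zero_right] at this
  refine this.trans (mul_le_mul_of_nonneg_left ((dist_pi_le_iff (norm_nonneg _)).2 fun j => ?_) L.2)
  rcases eq_or_ne j i with rfl | e
  · simp
  · simp [Function.update_of_ne e]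

section

variable {n : ℕ} {W : Type} [TopologicalSpace W] [ChartedSpace (Cm n) W]
  [IsManifold 𝓘(ℂ, Cm n) ω W] {x : W} {A : Set W} {u h : W → ℂ}

theorem tn_gen (hA : Tn n A x) : ∀ᶠ y in gen {x}, y ∉ A :=
  let ⟨_, h1, h2, h3⟩ := hA
  ((h2.gen h1).and (gen_of_nhds h3)).mono fun _ k m => k.1 (k.2 m)

theorem tn_freq (hA : Tn n A x) : ∃ᶠ y in 𝓝 x, y ∉ A :=
  (tn_gen hA).frequently.filter_mono (gen_le_nhds x)

theorem mer_pow (hu : Mer n u x) (k : ℕ) : Mer n (fun y => u y ^ k) x := by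
  induction k with
  | zero => simpa using mer_of_hol (hol_const (n := n) 1 x)
  | succ k ih => simpa only [pow_succ] using mer_mul ih hu

/-- a meromorphic function which is locally bounded off the zeros of `h` -/
theorem pole0 [T2Space W] [SecondCountableTopology W] (hG : GROW) (hA : Tn n A x) (hu : Mer n u x)
    (hh : Hol n h x) (h0 : Nz h x) (h1 : ∀ᶠ y in 𝓝 x, y ∉ A → Hol n u y)
    (h2 : ∀ᶠ y in 𝓝 x, h y ≠ 0 → ∃ C, ∀ᶠ z in 𝓝 y, z ∉ A → ‖u z‖ ≤ C) :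
    ∃ (K : ℕ) (C : ℝ), ∀ᶠ y in 𝓝 x, y ∉ A → h y ≠ 0 → ‖u y‖ * ‖h y‖ ^ K ≤ C := by
  obtain ⟨g, g1, g2, g3⟩ := hA
  obtain ⟨K, b, k1, k2⟩ := hG n W (cn n u) h x (mer_congr hu ((cn_gen hu).mono fun _ => Eq.symm))
    hh h0 (by
      filter_upwards [g1.near, g2.near g1, g3.eventually_nhds, h1.eventually_nhds, h2]
        with y a1 a2 a3 a4 a5 a6
      obtain ⟨C, hC⟩ := a5 a6
      obtain ⟨c, c1, c2⟩ := riem (f := u) (C := C) a1 a2 (by
        filter_upwards [a3, a4, hC] with z b1 b2 b3 b4 using ⟨b2 (mt b1 b4), b3 (mt b1 b4)⟩)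
      exact cn_hol c1 (by
        filter_upwards [a2.gen a1, gen_of_nhds c2] with z b1 b2 using (b2 b1).symm))
  obtain ⟨C, -, hC⟩ := bdd k1.cont
  refine ⟨K, C, ?_⟩
  filter_upwards [h1, k2, hC] with y a1 a2 a3 a4 a5
  rwa [a2 a5, cn_at (a1 a4) (.of_forall fun _ => rfl), norm_mul, norm_pow, mul_comm] at a3

end

section

variable {N p n k : ℕ} {M : Fb N p} {T : Type} [TopologicalSpace T] [ChartedSpace (Cm k) T]
  {γ : T → Pt M n} {t : T}

theorem tm_cont (h : Tm k γ t) : ContinuousAt γ t :=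
  h.b.cont.prodMk (continuousAt_pi.2 fun j => (h.x j).cont)

theorem tm_near [IsManifold 𝓘(ℂ, Cm k) ω T] (h : Tm k γ t) : ∀ᶠ s in 𝓝 t, Tm k γ s := by
  filter_upwards [h.b.near, eventually_all.2 fun j => (h.x j).near, h.fp.eventually_nhds]
    with s a b c using ⟨a, b, c⟩

end

theorem leq_one {n : ℕ} {W κ : Type} [TopologicalSpace W] [ChartedSpace (Cm n) W] {G : κ → Set W}
    (h : P277Z.Slc.Snc n G) {x : W} {l : κ} (hx : x ∉ G l) : LEq n (G l) x fun _ => 1 :=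
  let ⟨_, k, _⟩ := h x
  ⟨((k l).not_mem_near hx).mono fun _ m => iff_of_false one_ne_zero m,
    fun _ _ => ⟨analyticAt_const, fun m => (one_ne_zero m).elim⟩⟩

section pole

variable {p a n : ℕ} {M : Fb (p + a) p} {C : NS M} {l : M.κ} {k : ℕ}
  {F : Chart p M.Y.X → Pt M n → ℂ}

/-- the Jacobian determinant along a test map is meromorphic -/
theorem jn_mer (hM : MERT) {T : Type} [TopologicalSpace T] [ChartedSpace (Cm (p + n * a)) T]
    [IsManifold 𝓘(ℂ, Cm (p + n * a)) ω T] [T2Space T] [SecondCountableTopology T]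
    {γ : T → Pt M n} {t : T} (h : Tm (p + n * a) γ t) (hf : ∃ᶠ s in 𝓝 t, γ s ∈ C.N n) {e e'}
    (he : At e t) (he' : At e' (γ t).1) : Mer (p + n * a) (C.jn e' γ e) t := by
  refine P277Z.Lo.Jc.jd_mer he fun i => ?_
  refine Fin.addCases (fun c => ?_) (fun c => ?_) i
  · simpa only [NS.co, Fin.append_left] using mer_of_hol (h.b.hol (hol_chart he' c))
  · simpa only [NS.co, Fin.append_right] using hM (p + a) M.X.X (p + n * a) T C.S (C.w _)
      (fun s => (γ s).2 _) t (C.thinS.1 _) ((C.mr _).mer _) (.of_forall (C.mr _).hol) (h.x _)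
      (hf.mono fun s m => m.2.2 _)

/-- **the poles of a good form on the diagonal branch have bounded order** -/
theorem pole (hG : GROW) (hM : MERT) (hC : CF) (hB : BXB) (ok : M.Ok) (B : Bx M C.Q l) (hn : 0 < n)
    (hF : C.AF k F) : ∃ (K : ℕ) (c : ℝ), ∀ᶠ o in 𝓝 (0 : Cm (p + n * a)), B.γ n o ∈ C.N n →
      ‖C.cf k F (B.γ n) (chartAt _ o) o‖ * ‖o (Fin.castAdd _ B.i₀)‖ ^ K ≤ c := by
  obtain ⟨⟨ρ, hρ⟩, h0, -, ⟨hT, hQ⟩, hjn, hjd⟩ := hB p a n M C ok l B hn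
  have he' := at_chart (n := p) (M.f B.x)
  have he₁ := at_chart (n := p + a) B.x
  set e' := chartAt (Cm p) (M.f B.x)
  set e₁ := chartAt (Cm (p + a)) B.x
  obtain ⟨U, U1, U2, hU⟩ := hjn e' he'
  obtain ⟨V, V1, V2, hV⟩ := hjd e₁ e' he₁ he'
  set e := chartAt (Cm (p + n * a)) (0 : Cm (p + n * a))
  have he : ∀ o, At e o := fun o => at_chart o
  have f1 : (B.γ n 0).1 = M.f B.x := congrArg Prod.fst h0
  have f2 : ∀ j, (B.γ n 0).2 j = B.x := fun j => congrFun (congrArg Prod.snd h0) j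
  have c1 : Tendsto (fun o => (B.γ n o).1) (𝓝 0) (𝓝 (M.f B.x)) := f1 ▸ hρ.tm.b.cont
  have c2 : ∀ j, Tendsto (fun o => (B.γ n o).2 j) (𝓝 0) (𝓝 B.x) := fun j =>
    f2 j ▸ (hρ.tm.x j).cont
  have fr : ∃ᶠ o in 𝓝 (0 : Cm (p + n * a)), B.γ n o ∈ C.N n := (tn_freq hT).mono fun _ => not_not.1
  have k1 : ∀ᶠ o in 𝓝 (0 : Cm (p + n * a)), B.γ n o ∈ C.N n →
      C.cf k F (B.γ n) e o = F e' (B.γ n o) * C.jn e' (B.γ n) e o ^ k ∧
        Hol (p + n * a) (C.cf k F (B.γ n) e) o := by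
    filter_upwards [tm_near hρ.tm, c1.eventually (at_near he')] with o a1 a2 a3
    obtain ⟨b1, b2, -⟩ := (hC p a n M C ok _ _ o a1 a3).2.2.2.2 k F hF.toPF e (he o)
    exact ⟨b1 e' a2, b2⟩
  have k2 : ∀ᶠ o in 𝓝 (0 : Cm (p + n * a)), ∀ j, (B.γ n o).2 j ∈ B.Θ.source ∧
      B.Θ ((B.γ n o).2 j) = (fun c => o (Fin.castAdd _ c),
        fun i => o (Fin.natAdd p (finProdFinEquiv (j, i)))) := by
    refine eventually_all.2 fun j => ?_
    have : ContinuousAt (fun o : Cm (p + n * a) => ((fun c => o (Fin.castAdd _ c),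
        fun i => o (Fin.natAdd p (finProdFinEquiv (j, i)))) : Cm p × Cm a)) 0 := by fun_prop
    filter_upwards [this.eventually (B.Θ.open_target.eventually_mem
      (B.zero ▸ B.Θ.map_source B.mem :))] with o m using ⟨B.Θ.map_target m, B.Θ.right_inv m⟩
  have cV : ContinuousAt (fun o : Cm (p + n * a) =>
      U (fun c => o (Fin.castAdd _ c)) / ∏ j, V ((B.γ n o).2 j)) 0 := by
    have : ContinuousAt (fun (o : Cm (p + n * a)) (c : Fin p) => o (Fin.castAdd _ c)) 0 :=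
      continuousAt_pi.2 fun _ => continuousAt_apply _ _
    refine (ContinuousAt.comp_of_eq U1 this rfl).div
      (tendsto_finsetProd _ fun j _ => ContinuousAt.comp_of_eq V1 (hρ.tm.x j).cont (f2 j)) ?_
    exact Finset.prod_ne_zero_iff.2 fun j _ => f2 j ▸ V2
  obtain ⟨c, c0, hc⟩ := bdd cV
  have k3 : ∀ᶠ o in 𝓝 (0 : Cm (p + n * a)), B.γ n o ∈ C.N n → o (Fin.castAdd _ B.i₀) ≠ 0 →
      C.jn e' (B.γ n) e o = U (fun c => o (Fin.castAdd _ c)) / (∏ j, V ((B.γ n o).2 j)) *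
        (o (Fin.castAdd _ B.i₀) ^ (B.A - 1) / ∏ _j : Fin n, o (Fin.castAdd _ B.i₀) ^ (B.A - 1)) *
          ∏ j, jdw C.w e₁ e' ((B.γ n o).2 j) := by
    filter_upwards [hU, k2, eventually_all.2 fun j => (c2 j).eventually hV,
      eventually_all.2 fun j => (c2 j).eventually (V1.eventually_ne V2)] with o a1 a2 a3 a4 a5 a6
    have b1 : ∀ j, jdw C.w e₁ e' ((B.γ n o).2 j) = V ((B.γ n o).2 j) *
        o (Fin.castAdd _ B.i₀) ^ (B.A - 1) * jw C.w (B.ψ fun c => o (Fin.castAdd _ c))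
          fun i => o (Fin.natAdd p (finProdFinEquiv (j, i))) := fun j => by
      rw [a3 j (a5.2.2 j), (a2 j).2]
    have b2 : ∏ j, V ((B.γ n o).2 j) ≠ 0 := Finset.prod_ne_zero_iff.2 fun j _ => a4 j
    have b3 : ∏ _j : Fin n, o (Fin.castAdd _ B.i₀) ^ (B.A - 1) ≠ 0 :=
      Finset.prod_ne_zero_iff.2 fun j _ => pow_ne_zero _ a6
    refine (a1 a5).trans ?_
    simp only [b1, Finset.prod_mul_distrib]
    field_simp
  obtain ⟨K, c', h⟩ := pole0 (u := C.cf k F (B.γ n) e) (h := fun o => o (Fin.castAdd _ B.i₀)) hG hT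
    (mer_congr (mer_mul (hF.mer _ _ _ 0 hρ.tm fr e' (f1 ▸ he'))
      (mer_pow (jn_mer hM hρ.tm fr (he 0) (f1 ▸ he')) k)) (by
        filter_upwards [tn_gen hT, gen_of_nhds k1] with o a1 a2 using (a2 (not_not.1 a1)).1.symm))
    (hol_chart (he 0) _) (fun m => hρ.off (by
      filter_upwards [m, hQ] with o a1 a2 a3 using a3 (a2.2 a1)))
    (k1.mono fun o a1 a2 => (a1 (not_not.1 a2)).2) (by
      filter_upwards [tm_near hρ.tm, c1.eventually (at_near he'), hQ, k2,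
        eventually_all.2 fun j => (c2 j).eventually (at_near he₁), k1.eventually_nhds,
        k3.eventually_nhds, hc.eventually_nhds] with o a1 a2 a3 a4 a5 a6 a7 a8 a9
      obtain ⟨K, hK⟩ := hF.bs _ a1.fp.self_of_nhds (mt a3.1 a9) e' a2 (fun _ => e₁) e'
        (fun _ _ _ => 1) a5 a2 fun j l' => leq_one ok.snc fun m =>
          a9 (by simpa only [(a4 j).2] using ((B.div _ (a4 j).1 l').1 m).2)
      have cD : ContinuousAt (fun o : Cm (p + n * a) => o (Fin.castAdd _ B.i₀) ^ (B.A - 1) /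
          ∏ _j : Fin n, o (Fin.castAdd _ B.i₀) ^ (B.A - 1)) o :=
        ((continuousAt_apply _ o).pow _).div
          (tendsto_finsetProd _ fun j _ => (continuousAt_apply _ o).pow _)
          (Finset.prod_ne_zero_iff.2 fun j _ => pow_ne_zero _ a9)
      obtain ⟨d, d0, hd⟩ := bdd cD
      refine ⟨(c * d) ^ k * K, ?_⟩
      filter_upwards [(tm_cont a1).eventually hK, a6, a7, a8, hd,
        (continuousAt_apply (Fin.castAdd _ B.i₀) o).eventually_ne a9] with z b1 b2 b3 b4 b5 b6 b7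
      have b8 := not_not.1 b7
      have b9 := b1 b8 fun j => C.offG _ (b8.2.2 j)
      simp only [norm_one, Real.one_rpow, Finset.prod_const_one, mul_one, Finset.prod_pow] at b9
      rw [(b2 b8).1, b3 b8 b6, norm_mul, norm_pow, norm_mul, norm_mul, norm_prod, mul_pow,
        mul_left_comm]
      exact mul_le_mul (pow_le_pow_left₀ (by positivity) (mul_le_mul b4 b5 (norm_nonneg _) c0) k) b9
        (by positivity) (by positivity))
  refine ⟨K, c', ?_⟩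
  filter_upwards [h, hQ] with o a1 a2 a3 using a1 (not_not.2 a3) (mt a2.2 a3.2.1)

end pole

section main

variable {p a m : ℕ} (Z : Nm p a m)

theorem hw_mem {r : ℕ} (S : PS r) (q : S.P.X) : 0 ≤ S.hw q ∧ S.hw q ≤ 1 :=
  ⟨div_nonneg (norm_nonneg _) (norm_nonneg _),
    div_le_one_of_le₀ (norm_le_pi_norm _ _) (norm_nonneg _)⟩

/-- the polynomial in the affine coordinates is bounded over `O` -/
theorem ov_bdd (σ : MvPolynomial (Fin (Z.D.v + 1)) ℂ) {y : Z.M.Y.X} (h : Z.Ov y) :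
    ∃ K : ℝ, 0 ≤ K ∧ ∀ᶠ y' in 𝓝 y, y' ∉ Z.D.Q →
      ‖eval (Fin.cons 1 fun j => Z.D.z j y' : Fin (Z.D.v + 1) → ℂ) σ‖ ≤ K := by
  obtain ⟨K, k0, k⟩ := bdd (ind_eval (fun f => ContinuousAt f y) (fun _ => continuousAt_const)
    (fun _ _ => ContinuousAt.add) (fun _ _ => ContinuousAt.mul)
    (fun y' => (Fin.cons 1 (Z.S.aff (Z.φ y')) : Fin (Z.D.v + 1) → ℂ))
    (fun i => Fin.cases continuousAt_const
      (fun j => ((Z.hol.at y).hol (Z.S.aff_hol h.1 j)).cont) i) σ)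
  refine ⟨K, k0, k.mono fun y' k1 k2 => ?_⟩
  rwa [Z.eq y' k2, (Z.S.aff_pt _).2] at k1

/-- the polynomial, measured in the projective space, is a holomorphic function -/
theorem far {σ : MvPolynomial (Fin (Z.D.v + 1)) ℂ} {d : ℕ} (hσ : σ.IsHomogeneous d) {y : Z.M.Y.X}
    (h : ∀ᶠ y' in 𝓝 y, y' ∈ Z.D.Q → eval (Z.S.hx (Z.φ y')) σ * Z.S.hx (Z.φ y') 0 = 0) :
    ∃ (b : Z.M.Y.X → ℂ) (K : ℝ), Hol p b y ∧ 0 ≤ K ∧ ∀ᶠ y' in 𝓝 y, (y' ∈ Z.D.Q → b y' = 0) ∧
      (y' ∉ Z.D.Q → ‖eval (Fin.cons 1 fun j => Z.D.z j y' : Fin (Z.D.v + 1) → ℂ) σ‖ *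
        Z.S.hw (Z.φ y') ^ (d + 1) ≤ K * ‖b y'‖) := by
  obtain ⟨i, hi⟩ := Z.S.lb.cover (Z.φ y)
  have hx : ∀ j, Hol p (fun y' => Z.S.x i (Z.φ y') j) y := fun j =>
    (Z.hol.at y).hol (sec_hol (Z.S.sec j) hi)
  have c1 : ContinuousAt (fun y' => ‖Z.S.x i (Z.φ y')‖⁻¹ ^ (d + 1)) y :=
    ((continuousAt_pi.2 fun j => (hx j).cont).norm.inv₀
      (norm_ne_zero_iff.2 (Z.S.xnz i _ hi))).pow _
  obtain ⟨K, k0, k⟩ := bdd c1
  refine ⟨fun y' => eval (Z.S.x i (Z.φ y')) σ * Z.S.x i (Z.φ y') 0, K,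
    (ind_eval (fun f => Hol p f y) (hol_const · y) (fun _ _ => Hol.add) (fun _ _ => Hol.mul)
      _ hx σ).mul (hx 0), k0, ?_⟩
  filter_upwards [h, k, (Z.hol.at y).cont.eventually (lb_near Z.S.lb hi)] with y' a1 a2 a3
  obtain ⟨t, ht, e⟩ := Z.S.hx_eq a3
  refine ⟨fun b => ?_, fun b => ?_⟩
  · have := a1 b
    rw [e, ev_smul hσ, Pi.smul_apply, smul_eq_mul, mul_mul_mul_comm] at this
    exact (mul_eq_zero.1 this).resolve_left (mul_ne_zero (pow_ne_zero _ ht) ht)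
  · obtain ⟨c, e'⟩ := Z.S.x_pt _ (PS.cons_ne fun j => Z.D.z j y') i (Z.eq y' b ▸ a3)
    rw [← Z.eq y' b] at e'
    have e1 : Z.S.hw (Z.φ y') = ‖c‖ * ‖Z.S.x i (Z.φ y')‖⁻¹ := by
      rw [PS.hw, e, Pi.smul_apply, norm_smul, norm_smul,
        mul_div_mul_left _ _ (norm_ne_zero_iff.2 ht), div_eq_mul_inv, congrFun e' 0]
      simp
    have e2 : ‖eval (Z.S.x i (Z.φ y')) σ * Z.S.x i (Z.φ y') 0‖ =
        ‖eval (Fin.cons 1 fun j => Z.D.z j y' : Fin (Z.D.v + 1) → ℂ) σ‖ * ‖c‖ ^ (d + 1) := by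
      rw [e', ev_smul hσ]
      simp [pow_succ, mul_comm, mul_assoc]
    rw [e1, mul_pow, ← mul_assoc, ← e2, mul_comm]
    exact mul_le_mul_of_nonneg_right ((le_abs_self _).trans a2) (norm_nonneg _)

end main

end Sg

open Sg

theorem sig (hO : OPENZ) (hZ : ZERO) (hG : GROW) (hM : MERT) (hC : CF) (hB : BXB) : SIG := by
  intro p a m Z n hn T g
  have ok := Z.std.ok
  have h1 : Mr p Z.D.Q g := ind_eval (Mr p Z.D.Q)
    (fun c => ⟨fun y _ => hol_const c y, fun y => mer_of_hol (hol_const c y)⟩)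
    (fun _ _ k k' => ⟨fun y b => (k.hol y b).add (k'.hol y b), fun y => mer_add (k.mer y) (k'.mer y)⟩)
    (fun _ _ k k' => ⟨fun y b => (k.hol y b).mul (k'.hol y b), fun y => mer_mul (k.mer y) (k'.mer y)⟩)
    _ (fun i => Fin.cases ⟨fun y _ => hol_const 1 y, fun y => mer_of_hol (hol_const 1 y)⟩
      (fun j => Z.D.zmr j) i) T.σ
  refine ⟨h1, hZ p Z.M.Y _ _ ok.connY Z.D.thinQ
    (fun y => ⟨g, h1.mer y, .of_forall fun y' b => ⟨h1.hol y' b, Iff.rfl⟩⟩) ?_,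
    fun y b => (ov_bdd Z T.σ b).imp fun _ => And.right, fun k F hF hb => ?_⟩
  · obtain ⟨O, o1, o2, -, o3⟩ := hO p a m Z univ isOpen_univ dense_univ
    obtain ⟨c, c1, c2⟩ := ex_ne T.ne T.hom o1 o2
    obtain ⟨x, -, x1, rfl⟩ := o3 c c1
    exact ⟨Z.M.f x, mt (Z.D.sub x) x1, c2⟩
  refine eventually_atTop.1 (eventually_all.2 fun i => ?_)
  obtain ⟨⟨ρ, hρ⟩, h0, -, ⟨-, hQ⟩, -⟩ := hB p a n Z.M Z.C ok _ (T.B i) hn
  have f1 : ((T.B i).γ n 0).1 = Z.M.f (T.B i).x := congrArg Prod.fst h0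
  have c1 : Tendsto (fun o => ((T.B i).γ n o).1) (𝓝 0) (𝓝 (Z.M.f (T.B i).x)) := f1 ▸ hρ.tm.b.cont
  have key : ∀ (K : ℕ) o, ‖Z.C.cf (m * k) (fun e q => g q.1 ^ K * F e q) ((T.B i).γ n)
      (chartAt _ o) o‖ * ‖o (Fin.castAdd _ (T.B i).i₀)‖ ^ (k * (T.B i).om m n) *
        Z.S.hw (Z.φ ((T.B i).γ n o).1) ^ ((K * (T.d + 1) : ℕ) : ℤ) =
      (‖g ((T.B i).γ n o).1‖ * Z.S.hw (Z.φ ((T.B i).γ n o).1) ^ (T.d + 1)) ^ K *
        (‖Z.C.cf (m * k) F ((T.B i).γ n) (chartAt _ o) o‖ *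
          ‖o (Fin.castAdd _ (T.B i).i₀)‖ ^ (k * (T.B i).om m n)) := fun K o => by
    simp only [NS.cf, norm_mul, norm_pow, zpow_natCast]
    ring
  rcases T.dich i with h | h
  · obtain ⟨c, hc⟩ := hb i h
    obtain ⟨d, d0, hd⟩ := ov_bdd Z T.σ h
    refine .of_forall fun K => ⟨d ^ K * c, ?_⟩
    filter_upwards [hc, c1.eventually hd] with o a1 a2 a3
    obtain ⟨b1, b2⟩ := hw_mem Z.S (Z.φ ((T.B i).γ n o).1)
    rw [key]
    exact mul_le_mul (pow_le_pow_left₀ (by positivity) ((mul_le_of_le_one_right (norm_nonneg _)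
      (pow_le_one₀ b1 b2)).trans (a2 a3.2.1)) K) (by simpa using a1 a3) (by positivity)
      (by positivity)
  · obtain ⟨b, d, b1, d0, hd⟩ := far Z T.hom h
    obtain ⟨L, L0, hL⟩ := lip (f := fun o => b ((T.B i).γ n o).1) (Fin.castAdd _ (T.B i).i₀)
      (hρ.tm.b.hol (f1 ▸ b1) _ (at_chart 0)) (by
        filter_upwards [hQ, c1.eventually hd] with o a1 a2 a3 using a2.1 (a1.2 a3))
    obtain ⟨K₁, c, hc⟩ := pole hG hM hC hB ok (T.B i) hn hF
    refine (eventually_ge_atTop K₁).mono fun K hK => ⟨(d * L) ^ K * c, ?_⟩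
    filter_upwards [hc, c1.eventually hd, hL, ((continuousAt_apply (Fin.castAdd _ (T.B i).i₀)
      (0 : Cm (p + n * a))).norm.eventually_lt_const (by simp : _ < (1 : ℝ)))] with o a1 a2 a3 a4 a5
    obtain ⟨b1, -⟩ := hw_mem Z.S (Z.φ ((T.B i).γ n o).1)
    have b2 := (a2.2 a5.2.1).trans (mul_le_mul_of_nonneg_left a3 d0)
    rw [key]
    refine (mul_le_mul (pow_le_pow_left₀ (by positivity) b2 K) (mul_le_of_le_one_right
      (norm_nonneg _) (pow_le_one₀ (norm_nonneg _) a4.le)) (by positivity) (by positivity)).trans ?_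
    rw [← mul_assoc, mul_pow, mul_assoc, mul_comm (_ ^ K) ‖_‖]
    exact mul_le_mul_of_nonneg_left ((mul_le_mul_of_nonneg_left
      (pow_le_pow_of_le_one (norm_nonneg _) a4.le hK) (norm_nonneg _)).trans (a1 a5))
      (by positivity)

end Vale.Agent.P281Z.Gt
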