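import Vale.Agent.P281Z.Gt.SkB
import Vale.Agent.P281Z.Bs.Tr

/-!
# P281Z, block III: the first stage
-/

open scoped Manifold ContDiff Topology ENNReal
open Set Filter MeasureTheory
open Vale.Agent.P272.K Vale.Agent.P285.H281.FD
open Vale.Agent.P277Z (Hol Mer Nz at_chart hol_const)

set_option linter.unusedSectionVars false

noncomputable section

namespace Vale.Agent.P281Z.Gt

namespace S1

theorem en_prod {ι : Type} [Fintype ι] (f : ι → ℂ) : ‖∏ i, f i‖ₑ = ∏ i, ‖f i‖ₑ := by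
  simp only [enorm_eq_nnnorm, nnnorm_prod, ENNReal.ofNNReal_finsetProd]

section loc

variable {n : ℕ} {X : Type} [TopologicalSpace X] [ChartedSpace (Cm n) X]
  [IsManifold 𝓘(ℂ, Cm n) ω X] {u u' : Chart n X → X → ℝ≥0∞} {x : X} {A Q : Set X} {k : ℕ}
  {β : Chart n X → X → ℂ} {g : X → ℂ}

theorem dens_eq {m : ℕ} (hm : 2 ≤ m) (ξ : Chart n X → X → ℂ) (e : Chart n X) (x : X) :
    dens ξ (fun e y => ξ e y ^ (m - 1)) (1 / m) e x = ‖ξ e x‖ₑ ^ (2 / m : ℝ) := by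
  have h0 : (0 : ℝ) < m := by exact_mod_cast (by omega : 0 < m)
  unfold dens
  rcases eq_or_ne (ξ e x) 0 with h | h
  · rw [h, enorm_zero, ENNReal.zero_rpow_of_pos two_pos, zero_mul,
      ENNReal.zero_rpow_of_pos (by positivity)]
  · rw [enorm_pow, ← ENNReal.rpow_natCast, ← ENNReal.rpow_mul,
      ← ENNReal.rpow_add _ _ (enorm_ne_zero.2 h) enorm_ne_top, Nat.cast_sub (by omega)]
    congr 1
    field_simp
    push_cast
    ring

theorem lc_le (h : Lc n u x) (hA : Tn n A x) {C : ℝ≥0∞} (hC : C ≠ ⊤)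
    (k : ∀ᶠ y in 𝓝 x, y ∉ A → ∀ e, u' e y ≤ C * u e y) : Lc n u' x := by
  obtain ⟨a, a1, a2, a3⟩ := h
  obtain ⟨g, g1, g2, g3⟩ := hA
  obtain ⟨K, -, hK⟩ := bdd_near g1.cont.norm
  refine ⟨fun y => a y * g y, a1.mul g1, a2.mul a1 g1 g2, fun η hη e he => ?_⟩
  obtain ⟨U, hU, h1⟩ := a3 η hη e he
  obtain ⟨V, h2, h3, h4⟩ := mem_nhds_iff.1 (inter_mem hU (at_ev he ((k.and g3).and hK)))
  have h5 : C * ENNReal.ofReal K ^ η ≠ ⊤ :=
    ENNReal.mul_ne_top hC (ENNReal.rpow_ne_top_of_nonneg hη.le ENNReal.ofReal_ne_top)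
  refine ⟨V, h3.mem_nhds h4, (setLIntegral_mono' (g := fun z => C * ENNReal.ofReal K ^ η *
    (u e (e.symm z) * ‖a (e.symm z)‖ₑ ^ η)) h3.measurableSet fun z hz => ?_).trans_lt ?_⟩
  · obtain ⟨⟨b1, b2⟩, b3⟩ := (h2 hz).2
    by_cases hz' : e.symm z ∈ A
    · simp [b2 hz', ENNReal.zero_rpow_of_pos hη]
    · beta_reduce
      rw [enorm_mul, ENNReal.mul_rpow_of_nonneg _ _ hη.le]
      calc _ ≤ C * u e (e.symm z) * (‖a (e.symm z)‖ₑ ^ η * ENNReal.ofReal K ^ η) := by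
            gcongr
            · exact b1 hz' e
            · exact (ofReal_norm _).ge.trans (ENNReal.ofReal_le_ofReal b3)
        _ = _ := by ring
  · rw [lintegral_const_mul' _ _ h5]
    exact ENNReal.mul_lt_top h5.lt_top
      ((lintegral_mono_set (h2.trans inter_subset_left)).trans_lt h1)

theorem mr_pow (h : Mr n Q g) (K : ℕ) : Mr n Q fun y => g y ^ K := by
  refine ⟨fun x hx => (h.hol x hx).pow K, fun x => ?_⟩
  induction K with
  | zero => simpa using P277Z.Lo.mer_of_hol (hol_const 1 x)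
  | succ K ih => simpa only [pow_succ] using P277Z.Lo.mer_mul ih (h.mer x)

theorem bf_ml (h : BF n k Q β) (hA : Q ⊆ A) (x : X) : ML n k A β x :=
  .of_forall fun y hy e he => ⟨h.hol e y he fun a => hy (hA a), fun e' he' =>
    h.chg e e' y he he' fun a => hy (hA a)⟩

theorem bf_ne (h : BF n k Q β) {e : Chart n X} (he : At e x) (hx : x ∉ Q) :
    β e x = 0 ↔ β (chartAt (Cm n) x) x = 0 := by
  rw [h.chg e _ x he (at_chart x) hx, mul_eq_zero,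
    or_iff_right (pow_ne_zero _ (jacM_det_ne_zero he (at_chart x)))]

end loc

variable {p a m : ℕ} (Z : Nm p a m) {s : ℕ} {β : Chart p Z.M.Y.X → Z.M.Y.X → ℂ}

theorem npos (hs : 0 < s) : 0 < s * (Z.D.c₀ * Z.D.ρ) :=
  Nat.mul_pos hs (Nat.mul_pos Z.D.pos.2.1 Z.D.pos.1)

theorem rf_pb (hA : ALGF) (s : ℕ) : Z.C.RF (m * 1) (Z.Pb s) := by
  rw [mul_one]
  exact (hA p a _ Z.M Z.C Z.std.ok).2.2.2.2.2.2.1 m s (fun _ => Z.D.P) fun _ => Z.D.rfP

theorem af_bp (hA : ALGF) (s : ℕ) (h : BF p m Z.D.Q β) : Z.C.AF (m * 1) (Z.bp s β) :=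
  (hA p a _ Z.M Z.C Z.std.ok).2.2.2.1 _ β _ (by rwa [mul_one]) (rf_pb Z hA s)

theorem ov_near {y : Z.M.Y.X} (h : Z.Ov y) : ∀ᶠ y' in 𝓝 y, Z.Ov y' :=
  (Z.hol.cont.tendsto y).eventually ((Z.S.hx_near h.1).and
    (Z.S.aff_cont h.1 (Z.D.opn.mem_nhds h.2)))

theorem ov_mem {y : Z.M.Y.X} (h : Z.Ov y) (hy : y ∉ Z.D.Q) : (fun j => Z.D.z j y) ∈ Z.D.O := by
  have := h.2
  rwa [Z.eq y hy, (Z.S.aff_pt _).2] at this

theorem yb_lim {Q : Set Z.M.Y.X} {l : Z.M.κ} (B : Bx Z.M Q l) :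
    Tendsto B.yb (𝓝 0) (𝓝 (Z.M.f B.x)) := by
  obtain ⟨h1, h2⟩ := B.map _ B.mem
  have h3 : Continuous fun b : Cm p => Function.update b B.i₀ (b B.i₀ ^ B.A) :=
    continuous_id.update _ ((continuous_apply _).pow _)
  rw [B.zero] at h2
  exact (B.η.tendsto_symm h1).comp (h2 ▸ h3.tendsto 0)

theorem le_pb (hI : IPC) (hC : ICALC) (hA : ALGF) (hX : BXB) (hs : 0 < s) {l : Z.M.κ}
    (B : Bx Z.M Z.D.Q l) (h : Z.Ov (Z.M.f B.x)) : ∃ r > 0, ∃ K : ℝ, ∀ᶠ b in 𝓝 (0 : Cm p),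
      b B.i₀ ≠ 0 → Z.C.Le (m * 1) (Z.Pb s) (B.yb b) (B.ψ b) r K := by
  have hm : 0 < m := by have := Z.std.two; omega
  obtain ⟨-, -, ⟨r, r0, h1⟩, -⟩ := hX p a _ Z.M Z.C Z.std.ok l B (npos Z hs)
  obtain ⟨K, hK⟩ := hI a (s * (Z.D.c₀ * Z.D.ρ)) (m * 1) r (r / 2) (Z.D.K ^ s) (by omega)
    (half_pos r0) (half_lt_self r0) (ENNReal.pow_lt_top Z.D.fin)
  refine ⟨r / 2, half_pos r0, K, ?_⟩
  filter_upwards [h1, (yb_lim Z B).eventually (ov_near Z h)] with b k1 k2 k3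
  obtain ⟨k4, k5, -⟩ := k1 k3
  refine hK p Z.M Z.C _ _ _ Z.std.ok (rf_pb Z hA s) k4 k5 ?_
  obtain ⟨c1, -, -, -, -, c2, -⟩ := hC p a (Z.D.c₀ * Z.D.ρ) Z.M Z.C Z.std.ok
  have c3 := c2 Unit (fun _ => Z.D.P) univ (fun v => ‖v ()‖ₑ ^ (2 / m : ℝ)) isOpen_univ
    ((measurable_pi_apply _).enorm.pow_const _) fun _ q hq _ => Z.D.rfP.hol q hq
  simp only [indicator_univ] at c3
  have c4 := c1 s (fun _ q => ‖Z.D.P q‖ₑ ^ (2 / m : ℝ)) (fun _ => c3) _ k4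
  simp only [Nm.Pb, mul_one, en_prod, ← ENNReal.prod_rpow_of_nonneg (by positivity :
    (0 : ℝ) ≤ 2 / m)]
  rw [c4, Finset.prod_const, Finset.card_fin]
  exact pow_le_pow_left' (Z.D.intP _ k4 (ov_mem Z k2 k4)).1 s

theorem thin_zero (hZ : ZERO) (h : BF p m Z.D.Q β) (h0 : ∃ y ∉ Z.D.Q, ∃ e', At e' y ∧ β e' y ≠ 0) :
    Thin p (Z.D.Q ∪ {y | β (chartAt (Cm p) y) y = 0}) := by
  obtain ⟨y, h1, e, h2, h3⟩ := h0
  refine hZ p Z.M.Y _ _ Z.std.ok.connY Z.D.thinQ (fun x => ⟨β (chartAt (Cm p) x),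
    h.mer _ x (at_chart x), (at_near (at_chart x)).mono fun y k hy =>
      ⟨h.hol _ y k hy, (bf_ne h k hy).symm⟩⟩) ⟨y, h1, mt (bf_ne h h2 h1).2 h3⟩

end S1

open S1

theorem init1 (hS : SIG) (hB : BBD) (hT : TBB) (hI : IPC) (hC : ICALC) (hA : ALGF) (hX : BXB) :
    INIT1 := by
  intro p a m Z s hs T τ hτ ⟨y, y1, e, y2, y3⟩
  have bf : BF p m Z.D.Q τ := ⟨hτ.hol, hτ.mer, hτ.chg⟩
  obtain ⟨t1, t2⟩ := hT p a m Z τ hτ
  obtain ⟨g1, g2, g3, g4⟩ := hS p a m Z _ (npos Z hs) T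
  obtain ⟨K, hK⟩ := g4 1 _ (af_bp Z hA s bf) fun i hi => by
    have := hB p a m Z _ (npos Z hs) _ (T.B i) 1 τ _ one_pos hi bf (t1 _ _)
      (rf_pb Z hA s) (le_pb Z hI hC hA hX hs _ hi)
    simp only [pow_one] at this
    exact this
  replace hK := hK K le_rfl
  beta_reduce at hK
  generalize hg : (fun y => MvPolynomial.eval (Fin.cons 1 fun j => Z.D.z j y) T.σ) = g at g1
  simp only [congrFun hg] at g2 g3 hK
  refine ⟨fun e y => g y ^ K * τ e y, _, ⟨(hA p a 0 Z.M Z.C Z.std.ok).2.2.2.2.2.2.2.2.2.2.2 _ _ _ bf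
    (mr_pow g1 K), ?_, fun y hy => ?_, fun i hi e he => ?_⟩, fun i => (congrArg _ ?_).mp (hK i)⟩
  · obtain ⟨z, k1, k2, k3⟩ := ((g2.freq y).and_eventually ((at_near y2).and
      ((bf.hol e y y2 y1).ne_near y3))).exists
    exact ⟨z, fun k => k1 (.inl k), e, k2, mul_ne_zero (pow_ne_zero _ fun k => k1 (.inr k)) k3⟩
  · obtain ⟨C, hC⟩ := g3 y hy
    refine lc_le (t2 y) (Z.D.thinQ.nz y) (C := (ENNReal.ofReal C ^ K) ^ (2 / m : ℝ))
      (ENNReal.rpow_ne_top_of_nonneg (by positivity) (ENNReal.pow_ne_top ENNReal.ofReal_ne_top))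
      (hC.mono fun z k hz e => ?_)
    rw [dens_eq Z.std.two, dens_eq Z.std.two, enorm_mul, enorm_pow,
      ENNReal.mul_rpow_of_nonneg _ _ (by positivity)]
    gcongr
    exact (ofReal_norm _).ge.trans (ENNReal.ofReal_le_ofReal (k hz))
  · obtain ⟨C, hC⟩ := g3 _ hi
    obtain ⟨C', hC'⟩ := t1 _ (T.B i) e he
    refine ⟨C ^ K * C', (hC.and hC').mono fun z k hz ht => ?_⟩
    rw [norm_mul, norm_pow, mul_assoc]
    exact mul_le_mul (pow_le_pow_left₀ (norm_nonneg _) (k.1 hz) K) (k.2 hz ht) (by positivity)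
      (pow_nonneg ((norm_nonneg _).trans (k.1 hz)) K)
  · exact funext₂ fun e q => (mul_assoc _ _ _).symm

theorem st1 (hS : STEP) (hL : LV1) (hT : ALT) (hK : KEEPY) (h3 : TRIPLE) (hH : HOLD) (hB : BOXS)
    (hG : ALGB) (hA : ALGF) (hO : OPENZ) (hZ : ZERO) : ST1 := by
  intro p a m Z s hs T β d ⟨W⟩ h hd
  have hm := Z.std.two
  have hn := npos Z hs
  have m0 : (0 : ℝ) < m := by exact_mod_cast (by omega : 0 < m)
  have m1 : ((m - 1 : ℕ) : ℝ) = m - 1 := by rw [Nat.cast_sub (by omega), Nat.cast_one]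
  have m2 : (1 / m : ℝ) * (m * (m - 1) : ℕ) = m - 1 := by rw [Nat.cast_mul, m1]; field_simp
  have m3 : ((1 / m : ℚ) : ℝ) = 1 / m := by push_cast; rfl
  have m4 : (1 / m : ℝ) * (m - 1 : ℕ) < 1 := by
    rw [m1, one_div, inv_mul_lt_iff₀ m0]; linarith
  obtain ⟨a1, Γ, _, σ, c, ⟨g₀⟩, a2, a3, a4⟩ := hT p a m Z s hs ⟨W⟩
  have f1 := af_bp Z hA s h.bf
  have f2 : Z.C.AF (m * (m - 1)) fun e q => Z.bp s β e q ^ (m - 1) := by
    simpa only [mul_one] using (hA p a _ Z.M Z.C Z.std.ok).2.1 _ (m - 1) _ f1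
  have f3 : Z.C.Ne fun e q => Z.bp s β e q ^ (m - 1) := by
    obtain ⟨y, k1, e, k2, k3⟩ := h.ne
    obtain ⟨x, k4, k5⟩ := a1 y k1
    exact ⟨_, k4, e, k2, pow_ne_zero _ (mul_ne_zero k3 k5)⟩
  have z1 := thin_zero Z hZ h.bf h.ne
  have := Z.std.ok.conn
  have z2 := z1.pre_surj Z.std.ok.fibn.hol Z.std.ok.fibn.surj
  obtain ⟨O, o1, o2, o3, o4⟩ := hO p a m Z _ z2.closed.isOpen_compl z2.dense
  obtain ⟨b, b1, b2⟩ := Measure.exists_mem_of_measure_ne_zero_of_ae (o1.measure_ne_zero volume o2)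
    (ae_restrict_of_ae (hS p a m Z _ hn W 1 (m - 1) (1 / m) _ _
      (Rat.cast_pos.1 (m3 ▸ one_div_pos.2 m0))
      (Rat.cast_injective (α := ℝ) (by rw [Rat.cast_mul, m3, Rat.cast_natCast, m2]; simp)) f1 f2 f3
      (m3 ▸ hL p a m Z s hs W β h.bf h.bl)))
  obtain ⟨F, F1, F2, F3⟩ := b2 (o3 b1)
  rw [m3] at F3
  obtain ⟨β', c1, c2⟩ := a4 F (by rwa [mul_one] at F1)
  have kp := hK p a m Z s hs W β β' F Γ σ c _ h.bf c1 F1.toPF a2 a3 c2 F3
  refine ⟨β', ⟨c1, ?_, fun y hy => ?_, fun i hi e he => ?_⟩, fun i => ?_⟩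
  · obtain ⟨x, k1, -, k2⟩ := o4 b b1
    have k3 : Z.M.f x ∉ Z.D.Q := fun k => k1 (.inl k)
    obtain ⟨w, k4, k5⟩ := a1 _ k3
    refine ⟨_, k3, _, at_chart _, left_ne_zero_of_mul (b := Z.Pb s (Z.M.f x, w)) ?_⟩
    refine ((c2 _ k4 _ (at_chart _)).trans ?_).trans_ne (mul_ne_zero (fun k => k1 (.inr k)) k5)
    rw [Finset.sum_congr rfl fun g _ => (show _ = (Fintype.card Γ : ℂ)⁻¹ *
      (β (chartAt _ (Z.M.f x)) (Z.M.f x) * Z.Pb s (Z.M.f x, w)) from by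
        rw [F2 (sel (σ g) (Z.M.f x, w)) ⟨fun j => k4.1 _, k3, fun j => k4.2.2 _⟩ k2 _
          (at_chart (Z.M.f x)), ← a3 g _ k4]
        simp only [Nm.bp, sel]
        ring), Finset.sum_const, Finset.card_univ, nsmul_eq_mul, mul_inv_cancel_left₀]
    exact Nat.cast_ne_zero.2 (Fintype.card_pos_iff.2 ⟨g₀⟩).ne'
  · have := hH p Z.M.Y.X _ β (fun _ _ => 1) β' m 0 (m - 1) 0 (1 / m) (fun _ => 1) y (z1.nz y)
      (by positivity) m4 (by rw [← m2]; simp) (bf_ml h.bf subset_union_left y)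
      (.of_forall fun _ _ _ _ => ⟨hol_const _ _, fun _ _ => by simp⟩) (bf_ml c1 subset_union_left y)
      (.of_forall fun z k e he => by
        simpa using fun k' => absurd ((bf_ne h.bf he fun a => k (.inl a)).1 k') fun a => k (.inr a))
      ⟨1, one_pos, .of_forall fun _ => le_rfl⟩
    simp only [pow_zero, mul_one] at this
    exact this (h.bl y hy) (kp y hy)
  · set B := T.B i
    have e1 := (B.map _ B.mem).1
    have e2 : ∀ᶠ y in 𝓝 (Z.M.f B.x), y ∈ Z.D.Q ↔ B.η y B.i₀ = 0 :=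
      mem_of_superset (B.η.open_source.mem_nhds e1) B.base
    have e3 : ∀ (j : ℕ) e, At e (Z.M.f B.x) → ∃ C : ℝ, ∀ᶠ y in 𝓝 (Z.M.f B.x), y ∉ Z.D.Q →
        (∀ _ : Fin (B.b m), B.η y B.i₀ ≠ 0) →
        ‖β e y ^ j‖ * ∏ _ : Fin (B.b m), ‖B.η y B.i₀‖ ^ (j : ℤ) ≤ C := fun j e he => by
      obtain ⟨C, hC⟩ := h.bb i hi e he
      refine ⟨C ^ j, (hC.and e2).mono fun y k hy _ => ?_⟩
      have k1 := k.1 hy fun _ => mt k.2.2 hy
      simp only [Finset.prod_const, Finset.card_univ, Fintype.card_unique, Fintype.card_fin,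
        pow_one, zpow_natCast, norm_pow] at k1 ⊢
      rw [← pow_mul, mul_comm j, pow_mul, ← mul_pow]
      exact pow_le_pow_left₀ (by positivity) k1 j
    obtain ⟨g, g1, g2⟩ := h3 p Z.M.Y.X (Fin (B.b m)) Z.D.Q β (fun e y => β e y ^ (m - 1)) β' m
      (m * (m - 1)) (1 / m) (fun _ y => B.η y B.i₀) (fun _ => 1) (fun _ => (m - 1 : ℕ)) (fun _ => 1)
      (fun _ => 0) (fun _ => 1) _ (Z.D.thinQ.nz _)
      (.of_forall fun _ => Z.D.thinQ.closed.isOpen_compl.mem_nhds) (by positivity) m2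
      (bf_ml h.bf subset_rfl _) (bf_ml ((hA p a 0 Z.M Z.C Z.std.ok).2.2.2.2.2.2.2.2.2.2.1 _ _ _ h.bf)
        subset_rfl _) (bf_ml c1 subset_rfl _)
      ⟨e, he, ((z1.freq _).and_eventually (at_near he)).mono fun y k => ⟨fun a => k.1 (.inl a),
        pow_ne_zero _ (mt (bf_ne h.bf k.2 fun a => k.1 (.inl a)).1 fun a => k.1 (.inr a))⟩⟩
      (fun _ => ⟨(B.coη.an _ e1).hol _, fun k => Z.D.thinQ.freq _
        ((k.and e2).mono fun _ a => not_not.2 (a.2.2 a.1))⟩)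
      (fun e he => by simpa only [pow_one, Nat.cast_one] using e3 1 e he) (e3 (m - 1))
      (fun _ => by simpa only [Int.cast_natCast, add_zero, Int.cast_one] using m4)
      ⟨1, one_pos, .of_forall fun _ _ => by simp⟩ (by simpa only [mul_one] using kp _ hi) e he
    obtain ⟨C, -, hC⟩ := bdd_near g1.cont.norm
    refine ⟨C, (g2.and hC).mono fun y k hy ht => ?_⟩
    have k1 := k.1 hy fun _ => ht ()
    have k2 := k.2
    simp only [k1, Finset.prod_const, Finset.card_univ, Fintype.card_unique, Fintype.card_fin,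
      pow_one, zpow_natCast, zpow_one, norm_pow, norm_mul] at k2 ⊢
    exact k2
  · obtain ⟨-, g2, g3, g4, -⟩ := hG p a m Z _ hn _ (T.B i)
    refine g4 _ _ _ _ _ le_rfl (g3 1 _ Γ _ σ F F1.toPF (hB p a m Z _ hn W _ (T.B i) 1 (m - 1) (1 / m)
      d (d * (m - 1 : ℕ)) (d - 1) _ _ F (by positivity) (by rw [mul_one]; exact m2) f1.toPF f2
      F1.toPF f3 (h.bd i) (by simpa only [one_mul] using g2 1 d (m - 1) _ (h.bd i)) F3 ?_)) c2
    have k : (m : ℝ) * (Z.D.v + 2) < d := by exact_mod_cast hd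
    push_cast
    rw [m1, show (1 / m : ℝ) * (d * (m - 1)) = d - d / m by field_simp]
    rw [mul_comm, ← lt_div_iff₀ m0] at k
    linarith

end Vale.Agent.P281Z.Gt
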