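import Vale.Agent.P281Z.Gt.SkB
import Vale.Agent.P281Z.Gl.Thn

/-!
# P281Z, block III, part B: one step of the second stage
-/

open scoped Manifold ContDiff Topology ENNReal
open Set Filter MeasureTheory
open Vale.Agent.P272.K Vale.Agent.P285.H281.FD
open Vale.Agent.P277Z (Hol at_chart)

noncomputable section

namespace Vale.Agent.P281Z.Gt

namespace St2

theorem hw_eq {r : ℕ} (S : PS r) {h : S.H.ι} {q : S.P.X} (hq : q ∈ S.H.U h) :
    S.hw q = ‖S.x h q 0‖ / ‖S.x h q‖ := by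
  have k := (S.lb.cover q).choose_spec
  have h1 : S.hx q = S.H.g (S.lb.cover q).choose h q • S.x h q :=
    funext fun a => (S.sec a).change _ _ q k hq
  rw [PS.hw, h1, Pi.smul_apply, norm_smul, norm_smul,
    mul_div_mul_left _ _ (norm_ne_zero_iff.2 (S.lb.ne_zero _ _ q k hq))]

theorem hw_cont {r : ℕ} (S : PS r) : Continuous S.hw := continuous_iff_continuousAt.2 fun q => by
  obtain ⟨h, hq⟩ := S.lb.cover q
  have h1 : ∀ a, ContinuousAt (fun q => S.x h q a) q := fun a =>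
    Hol.cont (n := r) fun e he => ((S.sec a).holo h e q he hq).analyticAt
  refine ((h1 0).norm.div (continuousAt_pi.2 h1).norm (norm_ne_zero_iff.2 (S.xnz h q hq))).congr ?_
  filter_upwards [(S.lb.isOpen h).mem_nhds hq] with y hy using (hw_eq S hy).symm

theorem hw_pos {r : ℕ} (S : PS r) {q : S.P.X} (h : S.hx q 0 ≠ 0) : 0 < S.hw q :=
  div_pos (norm_pos_iff.2 h) (norm_pos_iff.2 fun c => h (congrFun c 0))

/-- the weight is bounded below near the points at a finite distance -/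
theorem hw_low {r : ℕ} (S : PS r) {T : Type} [TopologicalSpace T] {φ : T → S.P.X} {t : T}
    (hφ : ContinuousAt φ t) (h : S.hx (φ t) 0 ≠ 0) (k : ℕ) :
    ∃ κ : ℝ≥0∞, 0 < κ ∧ ∀ᶠ y in 𝓝 t, κ ≤ ENNReal.ofReal (S.hw (φ y)) ^ k := by
  have h1 := hw_pos S h
  refine ⟨ENNReal.ofReal (S.hw (φ t) / 2) ^ k,
    ENNReal.pow_pos (ENNReal.ofReal_pos.2 (half_pos h1)) k, ?_⟩
  filter_upwards [((hw_cont S).continuousAt.comp hφ).eventually (lt_mem_nhds (half_lt_self h1))]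
    with y hy using pow_le_pow_left' (ENNReal.ofReal_le_ofReal hy.le) k

theorem cf_mul {p a n : ℕ} {M : Fb (p + a) p} (C : NS M) {T : Type} [TopologicalSpace T]
    (m k k' u₁ u₂ : ℕ) (F Θ : Chart p M.Y.X → Pt M n → ℂ) (γ : T → Pt M n) :
    C.cf (m * (k * u₁ + k' * u₂)) (fun e q => F e q ^ u₁ * Θ e q ^ u₂) γ =
      fun e t => C.cf (m * k) F γ e t ^ u₁ * C.cf (m * k') Θ γ e t ^ u₂ := by
  funext e t
  simp only [NS.cf]
  ring

theorem ml_of {n k : ℕ} {X : Type} [TopologicalSpace X] [ChartedSpace (Cm n) X] {S A : Set X}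
    {ξ : Chart n X → X → ℂ} (h : MS n S ((Bd.can n X).pow k) ξ) (hA : S ⊆ A) (x : X) :
    ML n k A ξ x := .of_forall fun y hy e he =>
  ⟨h.hol e y he fun c => hy (hA c), fun e' he' => h.chg e e' y he he' fun c => hy (hA c)⟩

end St2

open St2 in
theorem st2 (h1 : STEP) (h2 : RKS) (h3 : BOXS) (h4 : HOLD) (h5 : ALGF) (h6 : ALGB) (h7 : MSCF) :
    ST2 := by
  intro p a m Z n hn T W k' u₁ u₂ ε Θ d d' F hε hu he hΘ hN hB hd hS
  have hM := Z.std.ok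
  obtain ⟨a1, a2, -, -, -, -, -, -, -, a10, -⟩ := h5 p a n Z.M Z.C hM
  obtain ⟨r1, r2⟩ := h2 p a m Z n hn (m * Z.D.i₁) F (fun j => (hS.af j).toPF) hS.rk
  have hA : ∀ j, Z.C.AF (m * (Z.D.i₁ * u₁ + k' * u₂)) fun e q => F j e q ^ u₁ * Θ e q ^ u₂ :=
    fun j => by
      rw [mul_add, ← mul_assoc, ← mul_assoc]
      exact a1 _ _ _ _ (a2 _ u₁ _ (hS.af j)) (a2 _ u₂ _ hΘ)
  have hNe : ∀ j, Z.C.Ne fun e q => F j e q ^ u₁ * Θ e q ^ u₂ := fun j =>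
    a10 _ _ _ _ (a2 _ u₁ _ (hS.af j)) (a2 _ u₂ _ hΘ)
      (let ⟨q, b1, e, b2, b3⟩ := r1 j; ⟨q, b1, e, b2, pow_ne_zero _ b3⟩)
      (let ⟨q, b1, e, b2, b3⟩ := hN; ⟨q, b1, e, b2, pow_ne_zero _ b3⟩) ⟨W⟩
  obtain ⟨c, hc, -, r3⟩ := r2 {c | ∀ j, ∃ F', _ ∧ _ ∧ _} ((ae_all_iff.2 fun j =>
    h1 p a m Z n hn W _ _ ε (F j) _ hε he (hS.af j) (hA j) (hNe j) (hS.lv j)).mono
      fun c h hc j => h j hc)
  choose F' k1 k2 k3 using hc
  have hε' : (0 : ℝ) < ε := by exact_mod_cast hε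
  refine ⟨F', k1, fun j i => ?_, fun j v hv => ?_, r3 F' (fun j => (k1 j).toPF) k2⟩
  · obtain ⟨b1, b2, -⟩ := h6 p a m Z n hn _ (T.B i)
    exact h3 p a m Z n hn W _ (T.B i) _ _ ε d _ _ (F j) _ (F' j) hε' (by exact_mod_cast he)
      (hS.af j).toPF (hA j) (k1 j).toPF (hNe j) (hS.bd j i)
      (b1 _ _ _ _ _ _ (b2 _ _ u₁ _ (hS.bd j i)) (b2 _ _ u₂ _ (hB i))) (k3 j) (by exact_mod_cast hd)
  · have m1 := h7 p a n Z.M Z.C hM W
    have l1 := hS.lv j v hv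
    have l2 := k3 j v
    rw [cf_mul] at l1 l2 ⊢
    refine h4 _ W.V.X _ _ _ _ _ _ u₁ u₂ ε _ v (((m1 _ _ (hA j)).2 (hNe j)).nz v) hε'.le
      (by exact_mod_cast hu) ?_ (ml_of (m1 _ _ (hS.af j)).1 (fun _ => .inl) v)
      (ml_of (m1 _ _ hΘ).1 (fun _ => .inl) v) (ml_of (m1 _ _ (k1 j)).1 (fun _ => .inl) v)
      (.of_forall fun y hy e hy' => ?_)
      (hw_low Z.S (Z.hol.cont.continuousAt.comp (W.tm v).b.cont) hv.1 _) l1 l2
    · have : (ε : ℝ) * (m * (Z.D.i₁ * u₁ + k' * u₂) : ℕ) = (m * Z.D.i₁ : ℕ) - 1 := by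
        exact_mod_cast he
      rw [← this]
      push_cast
      ring
    · rw [← congrFun₂ (cf_mul Z.C m Z.D.i₁ k' u₁ u₂ (F j) Θ W.γ) e y]
      have := not_or.1 hy
      exact mul_ne_zero this.2 (pow_ne_zero _ ((thn p a n Z.M Z.C W hM).2.2.2.1 y
        (not_not.1 this.1) e _ hy' (at_chart _)))

end Vale.Agent.P281Z.Gt
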