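import Vale.Agent.P281Z.Gt.SkB
import Vale.Agent.P281Z.Gl.Loc
import Vale.Agent.P281Z.Gl.Thn
import Vale.Agent.P281Z.Bs.Push
import Vale.Agent.P281Z.Sc.L2
import Vale.Agent.P281Z.Md.Ext
import Vale.Agent.P281Z.Mf.Adj
import Vale.Agent.P277Z.Lo.Jac

/-!
# P281Z, block III, part B: one extension step
-/

open scoped Manifold ContDiff Topology ENNReal Matrix
open Set Filter MeasureTheory
open Vale.Agent.P272.K Vale.Agent.P285.H281.FD
open Vale.Agent.P277Z (Hol Mer Nz gen at_chart hol_const gen_of_nhds)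
open Vale.Agent.P277Z.Slc (LEq)

set_option linter.unusedSectionVars false

noncomputable section

namespace Vale.Agent.P281Z.Gt

namespace StepH

section loc

variable {n k : ℕ} {X : Type} [TopologicalSpace X] [ChartedSpace (Cm n) X]
  [IsManifold 𝓘(ℂ, Cm n) ω X] {A A' : Set X} {x : X}

theorem ms_mono {L : Bd X} {s : L.ι → X → ℂ} (h : MS n A L s) (k : A ⊆ A') : MS n A' L s :=
  ⟨fun a x h1 h2 => h.hol a x h1 fun c => h2 (k c),
    fun a b x h1 h2 h3 => h.chg a b x h1 h2 fun c => h3 (k c), h.mer⟩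

theorem ml_of {ξ : Chart n X → X → ℂ} (h : MS n A ((Bd.can n X).pow k) ξ) (x : X) :
    ML n k A ξ x :=
  .of_forall fun y hy e he => ⟨h.hol e y he hy, fun e' he' => h.chg e e' y he he' hy⟩

theorem li_congr (hA : Thin n A) {u u' : Chart n X → X → ℝ≥0∞} (h : LI n u x)
    (k : ∀ y ∉ A, ∀ e, At e y → u' e y = u e y) : LI n u' x := fun e he =>
  let ⟨_, hU, hN⟩ := Bs.Push.thin_ae hA he
  lint_mono (h e he) (C := 1) ENNReal.one_ne_top hN (by
    filter_upwards [hU, at_ev he (at_near he)] with z k1 k2 k3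
    rw [k _ (k3 k1) e k2, one_mul])

theorem hol_jac {e e' : Chart n X} (he : At e x) (he' : At e' x) :
    Hol n (fun y => (jacM e e' y).det) x :=
  (hol_det fun a b => hol_dfM (f := fun x => x) (holM_id.at x) he he' a b).congr (by
    filter_upwards [at_near he, at_near he'] with y k1 k2
    rw [dfM_id k1 k2])

theorem eq_off (hA : Thin n A) {a b : X → ℂ} (ha : Hol n a x) (hb : Hol n b x)
    (h : ∀ᶠ y in 𝓝 x, y ∉ A → a y = b y) : a x = b x :=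
  tendsto_nhds_unique_of_frequently_eq ha.cont hb.cont
    (((hA.freq x).and_eventually h).mono fun _ c => c.2 c.1)

theorem mer_pow {a : X → ℂ} (h : Mer n a x) (k : ℕ) : Mer n (fun y => a y ^ k) x := by
  induction k with
  | zero => simpa using P277Z.Lo.mer_of_hol (hol_const 1 x)
  | succ k ih => simpa only [pow_succ] using P277Z.Lo.mer_mul ih h

end loc

theorem norm_id {ι : Type} [Fintype ι] (a U : ℂ) (J : ι → ℂ) (P : ι → ℝ) (k : ℕ) :
    ‖a * (U * ∏ j, J j) ^ k‖ * ∏ j, P j = ‖U‖ ^ k * (‖a‖ * ∏ j, (‖J j‖ ^ k * P j)) := by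
  simp only [norm_mul, norm_pow, norm_prod, mul_pow, Finset.prod_pow, Finset.prod_mul_distrib]
  ring

variable {p a m n : ℕ} {Z : Nm p a m}

theorem hx_eq {y : Z.M.Y.X} (hy : y ∉ Z.D.Q) :
    ∃ c : ℂ, c ≠ 0 ∧ Z.S.hx (Z.φ y) = c • (Fin.cons 1 fun j => Z.D.z j y : Cm (Z.D.v + 1)) := by
  have k := (Z.S.lb.cover (Z.φ y)).choose_spec
  rw [PS.hx]
  generalize (Z.S.lb.cover (Z.φ y)).choose = i at k
  rw [Z.eq y hy] at k ⊢
  exact Z.S.x_pt' (Function.ne_iff.2 ⟨0, one_ne_zero⟩) k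

theorem hx_ne {y : Z.M.Y.X} (hy : y ∉ Z.D.Q) : Z.S.hx (Z.φ y) 0 ≠ 0 := by
  obtain ⟨c, h1, h2⟩ := hx_eq hy
  rw [h2]
  exact mul_ne_zero h1 one_ne_zero

theorem aff_eq {y : Z.M.Y.X} (hy : y ∉ Z.D.Q) : Z.S.aff (Z.φ y) = fun j => Z.D.z j y :=
  funext fun j => by
    obtain ⟨c, h1, h2⟩ := hx_eq hy
    rw [PS.aff, h2, smul_ratio h1]
    exact div_one _

theorem hw_low {y : Z.M.Y.X} (hy : y ∉ Z.D.Q) :
    ∃ κ : ℝ, 0 < κ ∧ ∀ᶠ y' in 𝓝 y, κ ≤ Z.S.hw (Z.φ y') := by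
  have h1 : ContinuousAt (fun y => (Fin.cons 1 fun j => Z.D.z j y : Cm (Z.D.v + 1))) y :=
    continuousAt_pi.2 (Fin.cases continuousAt_const fun j => ((Z.D.zmr j).hol y hy).cont)
  obtain ⟨B, hB, h2⟩ := bdd_near h1.norm
  refine ⟨1 / B, by positivity, ?_⟩
  filter_upwards [h2, Z.D.thinQ.closed.isOpen_compl.mem_nhds hy] with y' b c
  obtain ⟨d, h3, h4⟩ := hx_eq c
  rw [PS.hw, h4, Pi.smul_apply, norm_smul, norm_smul, mul_div_mul_left _ _ (norm_ne_zero_iff.2 h3),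
    Fin.cons_zero, norm_one]
  exact one_div_le_one_div_of_le (norm_pos_iff.2 (Function.ne_iff.2 ⟨0, one_ne_zero⟩)) b

theorem ev_fp {q : Pt Z.M n} {P : Pt Z.M n → Prop}
    (h : ∀ᶠ q' in 𝓝[{q | Fp q}] q, q' ∈ Z.C.N n → P q') : ∀ᶠ q' in 𝓝 q, q' ∈ Z.C.N n → P q' :=
  (eventually_nhdsWithin_iff.1 h).mono fun _ a b => a b.1 b

/-- local equations at the points of `q` -/
def Le (ζ : Fin n → Z.M.κ → Z.M.X.X → ℂ) (q : Pt Z.M n) : Prop :=
  ∀ j l, LEq (p + a) (Z.M.G l) (q.2 j) (ζ j l)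

/-- the local equations of the components with a positive coefficient -/
def tt (ζ : Fin n → Z.M.κ → Z.M.X.X → ℂ) (i : Fin n × Z.M.κ) (q : Pt Z.M n) : ℂ :=
  if Z.M.δ i.2 = 0 then 1 else ζ i.1 i.2 (q.2 i.1)

variable {ζ : Fin n → Z.M.κ → Z.M.X.X → ℂ} {W : Z.W n} {v : W.V.X} {z : Z.M.κ → ℕ}

theorem Le.near (h : Le ζ (W.γ v)) : ∀ᶠ y in 𝓝 v, Le ζ (W.γ y) :=
  eventually_all.2 fun j => eventually_all.2 fun l => ((W.tm v).x j).cont.eventually (h j l).near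

theorem Le.hol (h : Le ζ (W.γ v)) (i : Fin n × Z.M.κ) :
    Hol (p + n * a) (fun y => tt ζ i (W.γ y)) v := by
  unfold tt
  split_ifs
  exacts [hol_const _ _, ((W.tm v).x i.1).hol (h _ _).hol]

theorem Le.ne {q : Pt Z.M n} (h : Le ζ q) (hq : q ∈ Z.C.N n) (i : Fin n × Z.M.κ) :
    tt ζ i q ≠ 0 := by
  unfold tt
  split_ifs
  exacts [one_ne_zero, fun c => Z.D.offG _ (hq.2.2 i.1) i.2 ((h _ _).mem.1 c)]

theorem wt_eq (hz : ∀ l, m * Z.M.δ l = z l) (k : ℕ) (q : Pt Z.M n) :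
    ∏ i, ‖tt ζ i q‖ ^ ((k * z i.2 : ℕ) : ℤ) =
      ∏ j, ∏ l, ‖ζ j l (q.2 j)‖ ^ (((m * k : ℕ) : ℝ) * Z.M.δ l) := by
  rw [Fintype.prod_prod_type]
  refine Finset.prod_congr rfl fun j _ => Finset.prod_congr rfl fun l _ => ?_
  unfold tt
  split_ifs with h
  · simp [show Z.M.δ l = 0 from h]
  · have : (m : ℝ) * Z.M.δ l = z l := by exact_mod_cast hz l
    rw [zpow_natCast, ← Real.rpow_natCast]
    congr 1
    push_cast
    rw [← this]
    ring

theorem bn (hC : CF) (hJ : JDV) (hz : ∀ l, m * Z.M.δ l = z l) {k : ℕ}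
    {F : Chart p Z.M.Y.X → Pt Z.M n → ℂ} (hF : Z.C.AF (m * k) F) {A : Set W.V.X}
    (hA : ∀ y ∉ A, W.γ y ∈ Z.C.N n) (hv : (W.γ v).1 ∉ Z.D.Q) (h : Le ζ (W.γ v)) :
    Bn (p + n * a) A (Z.C.cf (m * k) F W.γ) (fun i y => tt ζ i (W.γ y))
      (fun i => (k * z i.2 : ℕ)) v := fun e he => by
  have he' := at_chart (n := p) (W.γ v).1
  obtain ⟨U, u1, -, u3⟩ := hJ p a n Z.M Z.C Z.std.ok W v e _ _ hv he he' fun j => at_chart _
  obtain ⟨K, hK⟩ := hF.bs _ (W.fp v) hv _ he' _ _ ζ (fun j => at_chart _) he' h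
  obtain ⟨B, hB, u4⟩ := bdd_near u1.norm
  refine ⟨B ^ (m * k) * K, ?_⟩
  filter_upwards [(Thn.cont W).continuousAt.eventually hK, u3, u4, at_near he,
    (W.tm v).b.cont.eventually (at_near he')] with y b1 b2 b3 b4 b5 hy _
  have b6 := hA y hy
  have b7 := b1 b6 fun j => Z.D.offG _ (b6.2.2 j)
  rw [((hC p a n Z.M Z.C Z.std.ok W.V.X W.γ y (W.tm y) b6).2.2.2.2 _ F hF.toPF e b4).1 _ b5, b2 b6,
    wt_eq hz, norm_id]
  exact mul_le_mul (pow_le_pow_left₀ (norm_nonneg _) b3 _) b7 (by positivity) (by positivity)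

theorem mer_jn (hA : Thin (p + n * a) {v | W.γ v ∉ Z.C.N n}) {e : Chart (p + n * a) W.V.X}
    {e' : Chart p Z.M.Y.X} (he : At e v) (he' : At e' (W.γ v).1) :
    Mer (p + n * a) (Z.C.jn e' W.γ e) v := by
  refine P277Z.Lo.Jc.jd_mer he (Fin.addCases (fun i => ?_) fun i => ?_)
  · simp only [NS.co, Fin.append_left]
    exact P277Z.Lo.mer_of_hol ((W.tm v).b.hol (hol_chart he' i))
  · simp only [NS.co, Fin.append_right]
    exact mert _ _ _ _ Z.D.S _ (fun s => (W.γ s).2 _) v (Z.D.thinS.1 _) ((Z.D.mr _).mer _)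
      (.of_forall (Z.D.mr _).hol) ((W.tm v).x _)
      ((hA.freq v).mono fun y hy => (not_not.1 hy).2.2 _)

end StepH

open StepH

theorem normal (hT : TRIPLE) (hC : CF) (hM : MSCF) (hJ : JDV) (hV : MERV) (hN : THN) : NORMAL := by
  intro p a m Z n _ W k k' ε F Θ ξ' A' h0 hε hF hΘ hne hA hA' hξ hK
  have ok := Z.std.ok
  have := W.conn
  choose z hz using Z.std.itg
  obtain ⟨t1, -, -, t4, -, -, t7⟩ := hN p a n Z.M Z.C W ok
  have nice : ∀ y ∉ A', W.γ y ∈ Z.C.N n := fun y hy => not_not.1 fun c => hy (hA c)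
  have cf := fun v hv => hC p a n Z.M Z.C ok W.V.X W.γ v (W.tm v) hv
  have off : ∀ y ∉ A', ∀ᶠ y' in 𝓝 y, y' ∉ A' := fun y hy => hA'.closed.isOpen_compl.mem_nhds hy
  have tri : ∀ v, (W.γ v).1 ∉ Z.D.Q → ∀ ζ, Le ζ (W.γ v) → ∀ e, At e v → ∃ g, Hol (p + n * a) g v ∧
      ∀ᶠ y in 𝓝 v, y ∉ A' → g y = ξ' e y * ∏ i, tt ζ i (W.γ y) ^ ((k * z i.2 : ℕ) : ℤ) := by
    intro v hv ζ hζ e he
    obtain ⟨κ, k1, k2⟩ := hw_low hv
    obtain ⟨g, g1, g2⟩ := hT (p + n * a) W.V.X (Fin n × Z.M.κ) A' _ _ ξ' (m * k) (m * k') ε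
      (fun i y => tt ζ i (W.γ y)) (fun i => (k * z i.2 : ℕ)) (fun i => (k' * z i.2 : ℕ))
      (fun i => (k * z i.2 : ℕ)) (fun i => if Z.M.δ i.2 = 0 then -1 else 0) _ v (hA'.nz v)
      (.of_forall off) h0 hε (ml_of (ms_mono (hM p a n Z.M Z.C ok W _ F hF).1 hA) v)
      (ml_of (ms_mono (hM p a n Z.M Z.C ok W _ Θ hΘ).1 hA) v) (ml_of hξ v)
      ⟨e, he, (((hA'.union ((hM p a n Z.M Z.C ok W _ Θ hΘ).2 hne)).freq v).and_eventually
        (at_near he)).mono fun y b => ⟨fun c => b.1 (.inl c), mul_ne_zero (fun c => b.1 (.inr (.inr c)))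
          (pow_ne_zero _ (t4 y (nice y fun c => b.1 (.inl c)) _ _ b.2 (at_chart _)))⟩⟩
      (fun i => ⟨hζ.hol i, fun c => (((hA'.freq v).and_eventually (hζ.near.and c)).exists.elim
        fun y b => b.2.1.ne (nice y b.1) i b.2.2)⟩)
      (bn hC hJ hz hF nice hv hζ) (bn hC hJ hz hΘ nice hv hζ) (fun i => by
        have h1 : (m : ℝ) * Z.M.δ i.2 = z i.2 := by exact_mod_cast hz i.2
        push_cast at hε ⊢
        rw [← h1]
        split_ifs with h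
        · simp [h]
        · have h2 : (0 : ℝ) < Z.M.δ i.2 := by exact_mod_cast (ok.bdry i.2).1.lt_of_ne' h
          nlinarith [congrArg (· * (Z.M.δ i.2 : ℝ)) hε])
      ⟨κ ^ (2 * (Z.D.v + 1)), by positivity, ((W.tm v).b.cont.eventually k2).mono fun y b _ => by
        rw [Finset.prod_eq_one fun i _ => by unfold tt; split_ifs <;> simp, mul_one,
          ENNReal.ofReal_pow k1.le]
        exact pow_le_pow_left' (ENNReal.ofReal_le_ofReal b) _⟩ (hK v) e he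
    exact ⟨g, g1, (g2.and hζ.near).mono fun y b c => b.1 c (b.2.ne (nice y c))⟩
  let ξ : Chart (p + n * a) W.V.X → W.V.X → ℂ := fun e => Md.ext A'ᶜ (ξ' e)
  have x1 : ∀ v ∉ A', ∀ e, At e v → ξ e v = ξ' e v := fun v hv e he =>
    Md.ext_eq (hA'.freq v) (hξ.hol e v he hv).cont (.of_forall fun _ _ => rfl)
  have x2 : ∀ v, W.γ v ∈ Z.C.N n → ∀ e, At e v → Hol (p + n * a) (ξ e) v := fun v hv e he => by
    choose ζ hζ _ using fun j => ok.snc ((W.γ v).2 j)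
    obtain ⟨g, g1, g2⟩ := tri v hv.2.1 ζ hζ e he
    have h1 := g1.div (Hol.prod Finset.univ fun i _ => (Le.hol hζ i).zpow (Le.ne hζ hv i)
      ((k * z i.2 : ℕ) : ℤ)) (Finset.prod_ne_zero_iff.2 fun i _ => zpow_ne_zero _ (Le.ne hζ hv i))
    refine h1.congr (Md.ext_ev (.of_forall hA'.freq) h1 ?_)
    filter_upwards [g2, Le.near hζ] with y b1 b2 hy
    rw [b1 hy, mul_div_cancel_right₀ _ (Finset.prod_ne_zero_iff.2 fun i _ =>
      zpow_ne_zero _ (b2.ne (nice y hy) i))]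
  have x3 : ∀ v, W.γ v ∈ Z.C.N n → ∀ e e₁, At e v → At e₁ v →
      ξ e v = (jacM e e₁ v).det ^ (m * k) * ξ e₁ v := fun v hv e e₁ he he₁ =>
    eq_off hA' (x2 v hv e he) (((hol_jac he he₁).pow _).mul (x2 v hv e₁ he₁)) (by
      filter_upwards [at_near he, at_near he₁] with y b1 b2 hy
      rw [x1 y hy e b1, x1 y hy e₁ b2]
      exact hξ.chg e e₁ y b1 b2 hy)
  let Φ : Chart p Z.M.Y.X → W.V.X → ℂ := fun e' v =>
    ξ (chartAt _ v) v / Z.C.jn e' W.γ (chartAt _ v) v ^ (m * k)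
  have y1 : ∀ v, W.γ v ∈ Z.C.N n → ∀ e e', At e v → At e' (W.γ v).1 →
      Φ e' v * Z.C.jn e' W.γ e v ^ (m * k) = ξ e v := fun v hv e e' he he' => by
    rw [x3 v hv e _ he (at_chart v), (cf v hv).2.2.1 e _ e' he (at_chart v) he', mul_pow,
      mul_left_comm, div_mul_cancel₀ _ (pow_ne_zero _ (t4 v hv _ _ (at_chart v) he'))]
  have y2 : ∀ v, W.γ v ∈ Z.C.N n → ∀ e', At e' (W.γ v).1 → Hol (p + n * a) (Φ e') v :=
    fun v hv e' he' => ((x2 v hv _ (at_chart v)).div (((cf v hv).2.1 _ _ (at_chart v) he').pow _)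
      (pow_ne_zero _ (t4 v hv _ _ (at_chart v) he'))).congr (by
        filter_upwards [(cf v hv).1, at_near (at_chart (n := p + n * a) v),
          (W.tm v).b.cont.eventually (at_near he')] with y b1 b2 b3
        exact (eq_div_of_mul_eq (pow_ne_zero _ (t4 y b1.1 _ _ b2 b3)) (y1 y b1.1 _ _ b2 b3)).symm)
  have hs : ∀ v, (W.γ v).1 ∉ Z.D.Q → Function.invFun W.γ (W.γ v) = v := fun v hv =>
    Thn.inj W hv (Function.invFun_eq ⟨v, rfl⟩)
  have z1 : ∀ e', ∀ q ∈ Z.C.N n, At e' q.1 → HolT (fun q => Φ e' (Function.invFun W.γ q)) q := by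
    intro e' q hq he' d T _ _ _ _ _ g t hg e
    obtain ⟨v, rfl⟩ := (W.bij q hq.1 hq.2.1).exists
    obtain ⟨l, rfl, l2, l3⟩ := Thn.lift W hg hq.2.1 e
    refine (l2.hol (y2 _ hq e' he')).congr ?_
    filter_upwards [l3, hg.b.cont.eventually (Z.D.thinQ.closed.isOpen_compl.mem_nhds
      (show (g t).1 ∉ Z.D.Q from e ▸ hq.2.1))] with s b1 b2
    rw [← b1, hs _ (by rwa [b1])]
  refine ⟨fun e' q => Φ e' (Function.invFun W.γ q), ⟨⟨z1, fun e' e₁ q hq he' he₁ => ?_⟩,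
    fun d T _ _ _ _ _ g t hg hf e' he' => hV p a n Z.M Z.C ok W _ (g t)
      ((continuous_fst.continuousAt.eventually (at_near he')).mono fun q b c => z1 e' q c b)
      (fun v hv => ?_) d T g t hg rfl hf, fun q h1 h2 e' he' c e₂ ζ hc he₂ hζ => ?_⟩,
    fun v hv e he => ?_⟩
  · obtain ⟨v, rfl⟩ := (W.bij q hq.1 hq.2.1).exists
    rw [hs v hq.2.1]
    refine mul_right_cancel₀ (pow_ne_zero (m * k) (t4 v hq _ _ (at_chart v) he')) ?_
    rw [y1 v hq _ _ (at_chart v) he', ← y1 v hq _ _ (at_chart v) he₁,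
      (cf v hq).2.2.2.1 _ e' e₁ (at_chart v) he' he₁]
    ring
  · rw [← hv] at he'
    refine P277Z.Lo.mer_congr (P277Z.Lo.mer_div (hξ.mer _ v (at_chart v))
      (mer_pow (mer_jn t1 (at_chart v) he') (m * k))) ?_
    filter_upwards [hA'.gen v, gen_of_nhds (at_near (at_chart (n := p + n * a) v)),
      gen_of_nhds ((W.tm v).b.cont.eventually (at_near he'))] with y b1 b2 b3
    rw [hs y (nice y b1).2.1, ← x1 y b1 _ b2]
    exact (eq_div_of_mul_eq (pow_ne_zero _ (t4 y (nice y b1) _ _ b2 b3))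
      (y1 y (nice y b1) _ _ b2 b3)).symm
  · obtain ⟨v, rfl⟩ := (W.bij q h1 h2).exists
    have he := at_chart (n := p + n * a) v
    obtain ⟨g, g1, g2⟩ := tri v h2 ζ hζ _ he
    obtain ⟨U, u1, u2, u3⟩ := hJ p a n Z.M Z.C ok W v _ e₂ c h2 he he₂ hc
    obtain ⟨B, -, hB⟩ := bdd_near (f := fun y =>
      ‖(jacM e' e₂ (W.γ y).1).det / U y‖ ^ (m * k) * ‖g y‖)
      (((((W.tm v).b.hol (hol_jac he' he₂)).cont.div u1 u2).norm.pow _).mul g1.cont.norm)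
    refine ⟨B, ev_fp ?_⟩
    rw [← t7 v h2, eventually_map]
    filter_upwards [hB, u3, u1.eventually_ne u2, g1.near, g2.eventually_nhds,
      (at_near he).eventually_nhds, Le.near hζ, (W.tm v).b.cont.eventually (at_near he'),
      (W.tm v).b.cont.eventually (at_near he₂)] with y b1 b2 b3 b4 b5 b6 b7 b8 b9 hy _
    have c1 := b6.self_of_nhds
    have c2 := eq_off hA' b4 ((x2 y hy _ c1).mul (Hol.prod Finset.univ fun i _ =>
      (b7.hol i).zpow (b7.ne hy i) ((k * z i.2 : ℕ) : ℤ))) (by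
        filter_upwards [b5, b6] with s d1 d2 hs
        rw [d1 hs, x1 s hs _ d2])
    refine le_trans (le_of_eq ?_) b1
    refine mul_left_cancel₀ (pow_ne_zero (m * k) (norm_ne_zero_iff.2 b3)) ?_
    rw [← norm_id, ← b2 hy, (cf y hy).2.2.2.1 _ e' e₂ c1 b8 b9, hs y hy.2.1, mul_pow, mul_left_comm,
      y1 y hy _ _ c1 b8, ← wt_eq hz, c2, ← mul_assoc, ← mul_pow, ← norm_mul,
      mul_div_cancel₀ _ b3]
    simp only [norm_mul, norm_pow, norm_prod, norm_zpow, mul_assoc]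
  · rw [← x1 v hv e he, ← y1 v (nice v hv) e _ he (at_chart _), NS.cf, hs v (nice v hv).2.1]

theorem step (hE : EXT1) (hO : NORMAL) (hM : MSCF) (hC : CF) (hN : THN) : STEP := by
  intro p a m Z n hn W k k' ε F Θ h0 hε hF hΘ hne hL
  have ok := Z.std.ok
  have := W.conn
  obtain ⟨t1, t2, -, t4, -⟩ := hN p a n Z.M Z.C W ok
  have cf := fun v hv => hC p a n Z.M Z.C ok W.V.X W.γ v (W.tm v) hv
  have hA := (hM p a n Z.M Z.C ok W _ Θ hΘ).2 hne
  have hs : {v | W.γ v ∉ Z.C.N n} ⊆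
    {v | W.γ v ∉ Z.C.N n ∨ Θ (chartAt (Cm p) (W.γ v).1) (W.γ v) = 0} := fun _ => .inl
  have h1 : 1 ≤ m * k := by
    have : (0 : ℚ) ≤ (m * k : ℕ) - 1 := hε ▸ by positivity
    exact_mod_cast sub_nonneg.1 this
  refine (hE (p + n * a) Z.D.v (m * k) (m * k') W.V Z.S (fun v => Z.φ (W.γ v).1) ε _
    (Z.C.cf (m * k) F W.γ) (Z.C.cf (m * k') Θ W.γ) Z.D.O W.conn W.kah (Z.hol.comp t2)
    (t1.2.nonempty.imp fun v hv => hx_ne (not_not.1 hv).2.1) h1 h0.le hε hA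
    (ms_mono (hM p a n Z.M Z.C ok W _ F hF).1 hs) (ms_mono (hM p a n Z.M Z.C ok W _ Θ hΘ).1 hs)
    (fun e v he hv => mul_ne_zero (fun c => hv (.inr c)) (pow_ne_zero _
      (t4 v (not_not.1 fun c => hv (.inl c)) _ _ he (at_chart _)))) Z.D.opn
    fun v b1 b2 => hL v ⟨b1, b2⟩).mono fun c hc hc' => ?_
  obtain ⟨ξ', A', a1, a2, a3, a4, a5⟩ := hc hc'
  obtain ⟨F', f1, f2⟩ := hO p a m Z n hn W k k' ε F Θ ξ' A' (by exact_mod_cast h0)
    (by exact_mod_cast hε) hF hΘ hne (hs.trans a1) a2 a3 a5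
  refine ⟨F', f1, fun q hq hz e' he' => ?_, fun x h b1 b2 η b3 =>
    li_congr a2 (a5 x h b1 b2 η b3) fun y hy e he => by simp only [dens, f2 y hy e he]⟩
  obtain ⟨v, rfl⟩ := (W.bij q hq.1 hq.2.1).exists
  have he := at_chart (n := p + n * a) v
  have b1 := hx_ne hq.2.1
  have b2 := (aff_eq hq.2.1).trans hz
  have c1 := (cf v hq).2.2.2.2 _ F hF.toPF _ he
  have c2 := (cf v hq).2.2.2.2 _ F' f1.toPF _ he
  refine mul_right_cancel₀ (pow_ne_zero (m * k) (t4 v hq _ _ he he')) ?_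
  rw [← c1.1 e' he', ← c2.1 e' he']
  refine tendsto_nhds_unique_of_frequently_eq c2.2.1.cont c1.2.1.cont
    (((mem_closure_iff_frequently.1 (a4 v b1 b2).1).and_eventually (at_near he)).mono fun y d => ?_)
  rw [f2 y d.1.2 _ d.2]
  exact (a4 y (d.1.1 ▸ b1) (d.1.1 ▸ b2)).2 d.1.2 _ d.2

end Vale.Agent.P281Z.Gt
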