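import Vale.Agent.P281Z.Gt.SkB
import Vale.Agent.P281Z.Sc.L2
import Vale.Agent.P281Z.Mf.Adj

/-!
# P281Z, block III: no poles over the regular values
-/

open scoped Manifold ContDiff Topology ENNReal Matrix
open Set Filter
open Vale.Agent.P272.K Vale.Agent.P285.H281.FD
open Vale.Agent.P277Z (Hol Mer Nz gen at_chart gen_of_nhds)
open Vale.Agent.P277Z.Slc (Ind LEq Snc isLB_can)
open Vale.Agent.P281Z.Md (Bnd bnd_cont gn_of_thin ext_ev ext_eq)

set_option linter.unusedSectionVars false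

noncomputable section

namespace Vale.Agent.P281Z.Gt

namespace Tb

variable {n p : ℕ} {X Y : Type} [TopologicalSpace X] [ChartedSpace (Cm n) X]
  [TopologicalSpace Y] [ChartedSpace (Cm p) Y] [IsManifold 𝓘(ℂ, Cm n) ω X]
  [IsManifold 𝓘(ℂ, Cm p) ω Y] {f : X → Y} {κ : Type} [Fintype κ] {G : κ → Set X} {c : κ → ℝ}
  {m : ℕ} {Q Q₀ : Set Y} {τ : Chart p Y → Y → ℂ} {x : X} {y : Y} {e : Chart n X} {e' : Chart p Y}

theorem minor_ne (hf : HolA n p f x) (hs : Sbm n p f x) (he : At e x) (he' : At e' (f x)) :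
    ∃ I, minor f e e' I x ≠ 0 := by
  have h := (sbm_iff_ind hf he').1 hs
  obtain ⟨I, hI⟩ := (ind_iff_minor h.1 he).1 h
  refine ⟨I, fun k => hI ?_⟩
  rw [← Matrix.det_transpose, ← k, minor]
  congr 1
  ext a b
  exact (df_apply hf he he' _ _).symm

theorem wt_cont {ζ : κ → X → ℂ} (hζ : ∀ l, Hol n (ζ l) x) (h0 : ∀ l, ζ l x ≠ 0) (c : κ → ℝ) :
    ContinuousAt (fun y => ∏ l, ‖ζ l y‖ ^ c l) x :=
  tendsto_finsetProd _ fun l _ =>
    ((hζ l).cont.norm.rpow_const (.inl (norm_ne_zero_iff.2 (h0 l)))).tendsto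

theorem reg_ex [T2Space X] [CompactSpace X] [T1Space Y] (hf : HolM n p f) (hG : Snc n G)
    (h : RegAt n p f G (f x)) : ∃ z ∈ off G, f z = f x := by
  obtain ⟨F, i, hi, hS⟩ := h.fib (d := n - p) (Nat.add_sub_cancel' (h.sbm hf hG rfl).le).symm hf hG
  obtain ⟨x', rfl⟩ := hi.ex (y := x) rfl
  obtain ⟨z, hz⟩ := ((Hyp.of_snc hS).freq x').exists
  exact ⟨i z, hz, hi.fib z⟩

theorem bdd (h : TB n p f G c m Q₀ τ) (hf : HolA n p f x) (hs : Sbm n p f x) (hG : Snc n G)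
    (hx : x ∈ off G) (he' : At e' (f x)) : Bnd Q₀ᶜ (fun y => ‖τ e' y‖) (f x) := by
  have he := at_chart (n := n) x
  obtain ⟨I, hI⟩ := minor_ne hf hs he he'
  obtain ⟨ζ, hζ⟩ := Hyp.of_snc hG x
  have h0 := (off_iff hζ).self_of_nhds.1 hx
  have hb : Bnd (f ⁻¹' Q₀ᶜ) (fun y => ‖τ e' (f y)‖ * ‖minor f _ e' I y‖ ^ m *
      ∏ l, ‖ζ l y‖ ^ c l) x := (h.bd x _ e' he he' ζ hζ I).imp fun C k => by
    filter_upwards [k, (Hyp.of_snc hG).isOpen.mem_nhds hx] with y a b d using a d b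
  have hw : ContinuousAt (fun y => ‖minor f _ e' I y‖ ^ m * ∏ l, ‖ζ l y‖ ^ c l) x :=
    ((hol_minor hf he he' I).cont.norm.pow m).mul (wt_cont (fun l => (hζ l).hol) h0 c)
  have hw0 : ‖minor f _ e' I x‖ ^ m * ∏ l, ‖ζ l x‖ ^ c l ≠ 0 :=
    mul_ne_zero (pow_ne_zero _ (norm_ne_zero_iff.2 hI)) (wt_pos h0 c).ne'
  obtain ⟨C, hC⟩ := hb.mul (bnd_cont (hw.inv₀ hw0))
    (fun y => mul_nonneg (by positivity) (wt_nonneg _ _ _))
    fun y => inv_nonneg.2 (mul_nonneg (by positivity) (wt_nonneg _ _ _))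
  refine ⟨C, (hs.ev hf (hC.and (hw.eventually_ne hw0))).mono ?_⟩
  rintro _ ⟨z, ⟨a, b⟩, rfl⟩ k
  exact (((congrArg (· * _) (mul_assoc _ _ _)).trans (mul_inv_cancel_right₀ b _)).symm.trans_le
    (a k))

/-- the extended form -/
def ex (Q₀ : Set Y) (τ : Chart p Y → Y → ℂ) (e' : Chart p Y) : Y → ℂ := Md.ext Q₀ᶜ (τ e')

theorem ex_eq (h : TB n p f G c m Q₀ τ) (h₀ : Thin p Q₀) (he' : At e' y) (hy : y ∉ Q₀) :
    ∀ᶠ z in 𝓝 y, τ e' z = ex Q₀ τ e' z :=
  ext_ev (.of_forall h₀.freq) (h.hol e' y he' hy) (.of_forall fun _ _ => rfl)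

theorem tb_ex [T2Space X] [CompactSpace X] [T1Space Y] (h : TB n p f G c m Q₀ τ) (h₀ : Thin p Q₀)
    (hf : HolM n p f) (hs : Function.Surjective f) (hG : Snc n G)
    (hQ : ∀ y ∉ Q, RegAt n p f G y) : TB n p f G c m Q (ex Q₀ τ) := by
  have hol : ∀ e y, At e y → y ∉ Q → Hol p (ex Q₀ τ e) y := fun e' y he' hy => by
    obtain ⟨x, rfl⟩ := hs y
    obtain ⟨z, hz, k⟩ := reg_ex hf hG (hQ _ hy)
    rw [← k] at he' hy ⊢
    obtain ⟨H, h1, h2⟩ := Md.riem (gn_of_thin h₀ _)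
      ((at_near he').mono fun w a b => h.hol e' w a b)
      (bdd h (hf.at z) ((hQ _ hy).sbm hf hG rfl) hG hz he')
    exact h1.congr (ext_ev (.of_forall h₀.freq) h1 h2)
  refine ⟨hol, fun e y he => P277Z.Lo.mer_congr (h.mer e y he) ?_, fun e e' y he he' hy => ?_,
    fun x e e' he he' ζ hζ I => ?_⟩
  · filter_upwards [h₀.gen y, gen_of_nhds (at_near he)] with z a b
      using (ex_eq h h₀ b a).self_of_nhds
  · refine ext_eq (H := fun z => (jacM e e' z).det ^ m * ex Q₀ τ e' z) (h₀.freq y)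
      (((lb_hol isLB_can he he').pow m).mul (hol e' y he' hy)).cont ?_
    filter_upwards [at_near he, at_near he'] with z a b k
    rw [← (ex_eq h h₀ b k).self_of_nhds, h.chg e e' z a b k]
  · refine (h.bd x e e' he he' ζ hζ I).imp fun C hC => ?_
    filter_upwards [hC.eventually_nhds, at_near he, hf.cont.continuousAt.eventually (at_near he'),
      eventually_all.2 fun l => (hζ l).near] with y a b d g hy hy'
    have hc : ContinuousAt (fun y => ‖ex Q₀ τ e' (f y)‖ * ‖minor f e e' I y‖ ^ m *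
        ∏ l, ‖ζ l y‖ ^ c l) y :=
      ((hf.hol (hol e' _ d hy)).cont.norm.mul ((hol_minor (hf.at y) b d I).cont.norm.pow m)).mul
        (wt_cont (fun l => (g l).hol) ((off_iff g).self_of_nhds.1 hy') c)
    refine isClosed_Iic.mem_of_frequently_of_tendsto ?_ hc
    refine ((((hQ _ hy).sbm hf hG rfl).freq (hf.at y) (h₀.freq _)).and_eventually
      (a.and (((Hyp.of_snc hG).isOpen.eventually_mem hy').and
        (hf.cont.continuousAt.eventually (at_near d))))).mono fun z k => ?_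
    have := k.2.1 k.1 k.2.2.1
    rwa [(ex_eq h h₀ k.2.2.2 k.1).self_of_nhds] at this

end Tb

open Tb in
theorem tbx : TBX := by
  rintro n p m k M Q hM hQ hR ⟨Q₀, τ, h₀, hτ, x, hx, a, ha, h1, h2⟩
  refine ⟨fun b => ex Q₀ (τ b), fun b => tb_ex (hτ b) h₀ hM.fibn.hol hM.fibn.surj hM.snc hR, ?_⟩
  obtain ⟨y, k1, k2, k3, k4, k5⟩ := ((hQ.freq x).and_eventually
    ((h₀.closed.isOpen_compl.eventually_mem hx).and ((at_near ha).and
      ((((hτ 0).hol a x ha hx).ne_near h1).and h2.near)))).exists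
  have e := fun b => ex_eq (hτ b) h₀ k3 k2
  refine ⟨y, k1, a, k3, fun z => k4 ((e 0).self_of_nhds.trans z), ind_congr k5 fun b => ?_⟩
  filter_upwards [e b.succ, e 0] with z r1 r2
  rw [r1, r2]

end Vale.Agent.P281Z.Gt
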