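import Vale.Agent.P281Z.Gt.SkB

/-!
# P281Z, block III, part B: the weight of the second stage
-/

open scoped Manifold ContDiff Topology ENNReal
open Set Filter
open Vale.Agent.P272.K Vale.Agent.P285.H281.FD
open Vale.Agent.P277Z (Hol Nz at_chart)

noncomputable section

namespace Vale.Agent.P281Z.Gt

namespace ThAux

theorem bf_freq {p k : ℕ} {Y : Mf p} [ConnectedSpace Y.X] {Q : Set Y.X}
    {β : Chart p Y.X → Y.X → ℂ} (hQ : Thin p Q) (hβ : BF p k Q β)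
    (h : ∃ y ∉ Q, ∃ e, At e y ∧ β e y ≠ 0) {y₀ : Y.X} (hy : y₀ ∉ Q) :
    ∃ᶠ y in 𝓝 y₀, ∃ e, At e y ∧ β e y ≠ 0 := fun h0 => by
  obtain ⟨y₁, k1, e₁, k2, k3⟩ := h
  refine k3 ((hQ.preconn.subset_of_closure_inter_subset
    (isOpen_setOfPred_eventually_nhds (p := fun y => ∀ e, At e y → β e y = 0))
    ⟨y₀, hy, h0.mono fun y hy e he => not_not.1 fun c => hy ⟨e, he, c⟩⟩ ?_ k1).self_of_nhds e₁ k2)
  rintro y ⟨l1, l2⟩
  have he := at_chart (n := p) y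
  have l3 : ∀ᶠ y' in 𝓝 y, β (chartAt _ y) y' = 0 := by
    by_contra c
    obtain ⟨y', m1, m2, m3⟩ := ((mem_closure_iff_frequently.1 l1).and_eventually
      ((Nz.near c (hβ.hol _ y he l2)).and (at_near he).eventually_nhds)).exists
    exact m2 ((Eventually.and m1 m3).mono fun z hz => hz.1 _ hz.2)
  filter_upwards [l3, at_near he, hQ.closed.isOpen_compl.mem_nhds l2] with z m1 m2 m3 e m4
  rw [hβ.chg e _ z m4 m2 m3, m1, mul_zero]

theorem hw_pt {r : ℕ} (S : PS r) (c : Cm r) : 0 < S.hw (S.pt (Fin.cons 1 c)) ∧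
    S.hw (S.pt (Fin.cons 1 c)) * ‖(Fin.cons 1 c : Cm (r + 1))‖ = 1 := by
  have h0 : (Fin.cons 1 c : Cm (r + 1)) ≠ 0 := fun h => one_ne_zero (congrFun h 0)
  have h1 := (S.lb.cover (S.pt (Fin.cons 1 c))).choose_spec
  obtain ⟨k, hk⟩ := S.x_pt _ h0 _ h1
  have h2 : 0 < ‖k‖ := norm_pos_iff.2 fun h => S.xnz _ _ h1 (by rw [hk, h, zero_smul])
  have h3 := norm_pos_iff.2 h0
  rw [PS.hw, PS.hx, hk, norm_smul, Pi.smul_apply, Fin.cons_zero, smul_eq_mul, mul_one]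
  exact ⟨by positivity, by field_simp⟩

variable {p a : ℕ} {M : Fb (p + a) p}

theorem pc_mono {y : M.Y.X} {r r' : ℝ} {ψ : Cm a → M.X.X} (h : Pc y r ψ) (hr : r' ≤ r) :
    Pc y r' ψ :=
  have k := Metric.ball_subset_ball (x := (0 : Cm a)) hr
  ⟨fun u hu => h.hol u (k hu), fun u hu => h.fib u (k hu), fun u hu => h.off u (k hu),
    fun u hu => h.imm u (k hu), h.inj.mono k⟩

theorem ex_sec (C : NS M) (hM : M.Ok) {n : ℕ} {q : Pt M n} (hq : q ∈ C.N n) :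
    ∃ g : M.Y.X → Pt M n, Tm p g q.1 ∧ g q.1 = q ∧ (∀ y, (g y).1 = y) ∧
      ∀ᶠ y in 𝓝 q.1, g y ∈ C.N n := by
  obtain ⟨y, x⟩ := q
  choose σ s1 s2 s3 using fun j => ((C.reg _ hq.2.1).sbm hM.fibn.hol hM.snc (hq.1 j)).sec
    (hM.fibn.hol.at _)
  have e : ∀ j, M.f (x j) = y := hq.1
  simp only [e] at s1 s2 s3
  refine ⟨fun z => (z, fun j => σ j z), ⟨holM_id.at _, s2, eventually_all.2 s3⟩,
    congrArg (y, ·) (funext s1), fun _ => rfl, ?_⟩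
  filter_upwards [eventually_all.2 s3, C.thinQ.closed.isOpen_compl.mem_nhds hq.2.1,
    eventually_all.2 fun j => (s2 j).cont.eventually
      (C.thinS.closed.isOpen_compl.mem_nhds ((s1 j).symm ▸ hq.2.2 j))] with z k1 k2 k3
  exact ⟨k1, k2, k3⟩

theorem prod_grp {s n : ℕ} (F : Fin (s * n) → ℝ) :
    ∏ j, F j = ∏ g : Fin s, ∏ j : Fin n, F (finProdFinEquiv (g, j)) := by
  rw [← finProdFinEquiv.prod_comp, Fintype.prod_prod_type]

/-- the estimate on one piece -/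
theorem piece {m : ℕ} (D : AD M m) {t : ℕ} (ht : 0 < t) {y : M.Y.X} (hy : y ∉ D.Q) {r r' A R w : ℝ}
    {ψ : Cm a → M.X.X} (hψ : Pc y r' ψ) {β : ℂ} (hR : 0 ≤ R) (hw : 0 < w)
    (hz : w * ‖(Fin.cons 1 fun j => D.z j y : Cm (D.v + 1))‖ = 1)
    (hA : ∀ K, 0 ≤ K → D.toNS.Le m D.P y ψ r K → ∀ j, D.toNS.Le (m * D.k₁) (D.B j) y ψ r'
      (A * K ^ D.c₁))
    (h : D.toNS.Le (m * 1) (fun q : Pt M (D.c₁ * t * (D.c₀ * D.ρ)) =>
      β * ∏ g : Fin (D.c₁ * t), D.P (grp g q)) y ψ r R)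
    (u : Fin D.n₁ → Cm a) (hu : ∀ j, u j ∈ Metric.ball (0 : Cm a) r') (hS : ∀ j, ψ (u j) ∉ D.S) :
    ‖β‖ * (‖D.B 0 (y, fun j => ψ (u j))‖ * ∏ j, ‖jw D.w ψ (u j)‖ ^ (m * D.k₁)) ^ t ≤
      (w * |A|) ^ t * R := by
  by_cases hβ : β = 0
  · rw [hβ, norm_zero, zero_mul]
    positivity
  have h0 := norm_pos_iff.2 hβ
  have hs : D.c₁ * t ≠ 0 := (Nat.mul_pos D.pos.2.2.2.2.1 ht).ne'
  obtain ⟨K, hK, hK'⟩ : ∃ K : ℝ, 0 ≤ K ∧ K ^ (D.c₁ * t) = R / ‖β‖ :=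
    ⟨_, by positivity, Real.rpow_inv_natCast_pow (by positivity) hs⟩
  have h1 := hA K hK fun v v1 v2 => by
    have k := h (fun j => v (finProdFinEquiv.symm j).2) (fun j => v1 _) fun j => v2 _
    refine le_of_pow_le_pow_left₀ hs hK ?_
    rw [hK', le_div_iff₀ h0]
    refine le_of_eq_of_le ?_ k
    simp only [prod_grp (s := D.c₁ * t), grp, sel, Equiv.symm_apply_apply, Finset.prod_const,
      Finset.card_univ, Fintype.card_fin, norm_mul, norm_pow, mul_one]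
    ring
  set X := ‖D.B 0 (y, fun j => ψ (u j))‖ * ∏ j, ‖jw D.w ψ (u j)‖ ^ (m * D.k₁) with hX
  have hX0 : 0 ≤ X := by positivity
  have h2 : X ≤ w * (|A| * K ^ D.c₁) := by
    have k : ‖(X : ℂ) • (Fin.cons 1 fun j => D.z j y : Cm (D.v + 1))‖ ≤ |A| * K ^ D.c₁ := by
      refine (pi_norm_le_iff_of_nonneg (by positivity)).2 fun j => le_trans (le_of_eq ?_)
        ((h1 j u hu hS).trans (mul_le_mul_of_nonneg_right (le_abs_self A) (by positivity)))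
      rw [Pi.smul_apply, norm_smul, Complex.norm_of_nonneg hX0]
      induction j using Fin.cases with
      | zero => rw [Fin.cons_zero, norm_one, mul_one]
      | succ j =>
        rw [Fin.cons_succ, D.rel j _ ⟨fun i => hψ.fib _ (hu i), hy, hS⟩, norm_mul, hX]
        ring
    rw [norm_smul, Complex.norm_of_nonneg hX0] at k
    calc X = w * (X * _) := by rw [mul_left_comm, hz, mul_one]
      _ ≤ _ := mul_le_mul_of_nonneg_left k hw.le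
  calc _ ≤ ‖β‖ * (w * (|A| * K ^ D.c₁)) ^ t := by gcongr
    _ = _ := by
      rw [← mul_assoc w, mul_pow, ← pow_mul, hK']
      field_simp

theorem fin_est {x w A K : ℝ} {k t ν ν' : ℕ} {d : ℤ} (hx : 0 < x) (hx1 : x ≤ 1) (hw : 0 < w)
    (hA : 0 ≤ A) (hK : 0 ≤ K) (hν : ν ≤ ν') :
    ((w * A) ^ t * (K / (x ^ (1 * ν) * w ^ d))) ^ k ≤
      (A ^ t * K) ^ k / (x ^ (k * ν') * w ^ ((k : ℤ) * (d - t))) := by
  rw [one_mul, mul_comm k, mul_comm (k : ℤ), pow_mul, zpow_mul, zpow_natCast, ← mul_pow (x ^ ν'),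
    ← div_pow, zpow_sub₀ hw.ne', zpow_natCast]
  refine pow_le_pow_left₀ (by positivity) ?_ k
  calc _ = A ^ t * K / (x ^ ν * (w ^ d / w ^ t)) := by
        rw [mul_pow]
        field_simp
    _ ≤ _ := by
        gcongr _ / (?_ * _)
        exact pow_le_pow_of_le_one hx.le hx1 hν

variable {m : ℕ} (Z : Nm p a m) {t : ℕ} {β : Chart p Z.M.Y.X → Z.M.Y.X → ℂ}

theorem th_af (h1 : ALGF) (hβ : BF p m Z.D.Q β) : Z.C.AF (m * (Z.D.k₁ * t)) (Z.th t β) := by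
  obtain ⟨-, -, -, -, -, k1, k2, -⟩ := h1 p a Z.D.n₁ Z.M Z.C Z.std.ok
  obtain ⟨-, -, -, k3, -, -, -, -, k4, -, k5, -⟩ :=
    h1 p a (Z.D.k₁ * t * Z.D.n₁) Z.M Z.C Z.std.ok
  have k6 := k2 _ (Z.D.k₁ * t) _ fun _ => k1 _ t _ (Z.D.rfB 0)
  rw [mul_assoc m] at k6
  refine k4 _ _ _ (k3 _ _ _ (k5 m (Z.D.k₁ * t) β hβ) k6) fun q _ e _ => ?_
  simp only [Nm.th, Finset.prod_mul_distrib, Finset.prod_const, Finset.card_univ,
    Fintype.card_fin]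

theorem bp_pf (h1 : ALGF) (hβ : BF p m Z.D.Q β) (s : ℕ) : Z.C.PF (m * 1) (Z.bp s β) := by
  obtain ⟨-, -, -, -, -, -, k2, -⟩ := h1 p a (Z.D.c₀ * Z.D.ρ) Z.M Z.C Z.std.ok
  rw [mul_one]
  exact ((h1 p a _ Z.M Z.C Z.std.ok).2.2.2.1 _ _ _ hβ (k2 _ _ _ fun _ => Z.D.rfP)).toPF

theorem th_ne (hβ : BF p m Z.D.Q β) (h : ∃ y ∉ Z.D.Q, ∃ e', At e' y ∧ β e' y ≠ 0) :
    Z.C.Ne (Z.th t β) := by
  have hM := Z.std.ok
  obtain ⟨q, q1, q2⟩ := Z.D.neB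
  obtain ⟨g, g1, g2, g3, g4⟩ := ex_sec Z.C hM q1
  have := hM.conn
  have : ConnectedSpace Z.M.Y.X := hM.fibn.surj.connectedSpace hM.fibn.hol.cont
  obtain ⟨y, ⟨e, y1, y2⟩, y3, y4⟩ := ((bf_freq Z.D.thinQ hβ h q1.2.1).and_eventually
    (g4.and (((Z.D.rfB 0).hol q q1 p _ g _ g1 g2).ne_near (g2.symm ▸ q2)))).exists
  rw [← g3 y] at y1 y2
  refine ⟨sel (fun j => (finProdFinEquiv.symm j).2) (g y),
    ⟨fun j => y3.1 _, y3.2.1, fun j => y3.2.2 _⟩, e, y1, ?_⟩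
  refine Finset.prod_ne_zero_iff.2 fun j _ => mul_ne_zero y2 (pow_ne_zero _ ?_)
  simpa only [grp, sel, Equiv.symm_apply_apply] using y4

end ThAux

open ThAux

theorem theta (h1 : ALGF) (h2 : ALGB) (h3 : BXB) : THETA := by
  intro p a m Z t ht T β d hS _
  obtain ⟨p1, p2, p3, p4, p5, -⟩ := Z.D.pos
  have hJ : 0 < Z.D.c₁ * t * (Z.D.c₀ * Z.D.ρ) := by positivity
  have hn : 0 < Z.D.k₁ * t * Z.D.n₁ := by positivity
  have a1 := th_af Z (t := t) h1 hS.bf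
  refine ⟨a1, th_ne Z hS.bf hS.ne, fun i => ?_⟩
  have he := at_chart (n := p) (Z.M.f (T.B i).x)
  obtain ⟨r, hr, K, hK⟩ := ((h2 p a m Z _ hJ _ (T.B i)).2.2.2.2 1 d _ (bp_pf Z h1 hS.bf _) _ he).1
    (hS.bd i)
  obtain ⟨-, -, ⟨r₀, hr₀, hb⟩, -⟩ := h3 p a 1 Z.M Z.C Z.std.ok _ (T.B i) one_pos
  have hr₁ : 0 < min r r₀ := lt_min hr hr₀
  obtain ⟨A, hA⟩ := Z.D.blk _ _ (half_pos hr₁) (half_lt_self hr₁)
  refine ((h2 p a m Z _ hn _ (T.B i)).2.2.2.2 _ _ _ a1.toPF _ he).2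
    ⟨_, half_pos hr₁, (|A| ^ t * |K|) ^ (Z.D.k₁ * t), ?_⟩
  filter_upwards [hK, hb, Metric.ball_mem_nhds _ one_pos] with b k1 k2 k3 hb0 u u1 u2
  obtain ⟨k4, k5, -⟩ := k2 hb0
  obtain ⟨w1, w2⟩ := hw_pt Z.S fun j => Z.D.z j ((T.B i).yb b)
  rw [← Z.eq _ k4] at w1 w2
  have hx := norm_pos_iff.2 hb0
  have k6 := fun g : Fin (Z.D.k₁ * t) => piece Z.D.toAD ht k4
    (pc_mono k5 ((half_le_self hr₁.le).trans (min_le_right _ _)))
    (R := |K| / (‖b (T.B i).i₀‖ ^ (1 * ((T.B i).om m (Z.D.c₁ * t * (Z.D.c₀ * Z.D.ρ)) +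
      m * ((T.B i).A - 1))) * Z.S.hw (Z.φ ((T.B i).yb b)) ^ d)) (by positivity) w1 w2
    (β := β (chartAt _ (Z.M.f (T.B i).x)) ((T.B i).yb b))
    (hA _ k4 _ (pc_mono k5 (min_le_right _ _)))
    (fun v v1 v2 => (k1 hb0 v (fun j => Metric.ball_subset_ball (min_le_left _ _) (v1 j)) v2).trans
      (div_le_div_of_nonneg_right (le_abs_self K) (by positivity)))
    (fun j => u (finProdFinEquiv (g, j))) (fun j => u1 _) fun j => u2 _
  refine le_trans (le_of_eq ?_) ((Finset.prod_le_prod (s := Finset.univ)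
    (fun g _ => by positivity) fun g _ => k6 g).trans ?_)
  · rw [prod_grp, Nm.th, norm_prod, ← Finset.prod_mul_distrib]
    refine Finset.prod_congr rfl fun g _ => ?_
    rw [norm_mul, norm_pow, mul_pow, ← Finset.prod_pow, mul_assoc]
    simp only [← pow_mul, mul_assoc, grp, sel]
  · rw [Finset.prod_const, Finset.card_univ, Fintype.card_fin, ← Nat.cast_mul]
    refine fin_est hx ((norm_le_pi_norm b _).trans (mem_ball_zero_iff.1 k3).le) w1 (abs_nonneg _)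
      (abs_nonneg _) (Nat.add_le_add_right (Nat.add_le_add_right (Nat.mul_le_mul_right _
        (Nat.sub_le_sub_right ?_ 1)) _) _)
    calc _ = Z.D.c₁ * (Z.D.c₀ * Z.D.ρ) * t := by ring
      _ ≤ Z.D.k₁ * Z.D.n₁ * t := Nat.mul_le_mul_right _ Z.D.cnt
      _ = _ := by ring

end Vale.Agent.P281Z.Gt
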