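import Vale.Agent.P281Z.Gt.SkB
import Vale.Agent.P281Z.Pk.L2r
import Vale.Agent.P271.Inst.Null

/-!
# P281Z, block III, part B: the bound for the new form
-/

open scoped Manifold ContDiff Topology ENNReal Matrix
open Set Filter MeasureTheory
open Vale.Agent.P272.K Vale.Agent.P285.H281.FD
open Vale.Agent.P277Z (Hol Nz at_chart hol_const)

noncomputable section

namespace Vale.Agent.P281Z.Gt

namespace Tri

variable {n : ℕ} {X : Type} [TopologicalSpace X] [ChartedSpace (Cm n) X]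
  [IsManifold 𝓘(ℂ, Cm n) ω X] {ι : Type} [Fintype ι] {A : Set X} {ξ : Chart n X → X → ℂ} {k : ℕ}
  {t : ι → X → ℂ} {c : ι → ℤ} {x : X} {e : Chart n X} {g : X → ℂ}

theorem nz_prod (ht : ∀ i, Hol n (t i) x ∧ Nz (t i) x) : Nz (fun y => ∏ i, t i y) x :=
  P277Z.nz_of_gen ((eventually_all.2 fun i => (ht i).2.gen (ht i).1).mono fun _ h =>
    Finset.prod_ne_zero_iff.2 fun i _ => h i)

theorem hol_jac {e' : Chart n X} (he : At e x) (he' : At e' x) :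
    Hol n (fun y => (jacM e e' y).det) x :=
  Hol.of_chart he (jacM_det_holo he he').analyticAt

omit [IsManifold 𝓘(ℂ, Cm n) ω X] in
/-- a density which is bounded off a hypersurface is integrable -/
theorem int_bdd {u : X → ℝ≥0∞} {C : ℝ≥0∞} (he : At e x) (hg : Hol n g x) (h0 : Nz g x)
    (hC : C ≠ ⊤) (hu : ∀ᶠ y in 𝓝 x, g y ≠ 0 → u y ≤ C) :
    ∃ U ∈ 𝓝 (e x), ∫⁻ z in U, u (e.symm z) < ⊤ := by
  obtain ⟨r, hr, h⟩ := P271.Inst.exists_null (hg e he)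
    fun k => h0 ((P277Z.At.ev he (p := fun y => g y = 0)).1 k)
  refine lint_mono (g := fun _ => 1) ⟨Metric.ball (e x) 1, Metric.ball_mem_nhds _ one_pos, by
    simpa using measure_ball_lt_top⟩ hC
    (N := fun z => z ∉ Metric.ball (e x) r ∩ {z | g (e.symm z) = 0}) (compl_mem_ae_iff.2 h) ?_
  filter_upwards [(P277Z.At.ev he (p := fun y => g y ≠ 0 → u y ≤ C)).2 hu,
    Metric.ball_mem_nhds (e x) hr] with z h1 h2 h3
  simpa using h1 fun k => h3 ⟨h2, k⟩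

/-- the bounded function `ξ ∏ t ^ c` extends -/
theorem ext (hg : Hol n g x) (h0 : Nz g x) (hA : ∀ᶠ y in 𝓝 x, y ∈ A → g y = 0)
    (hξ : ML n k A ξ x) (ht : ∀ i, Hol n (t i) x ∧ Nz (t i) x) (hb : Bn n A ξ t c x)
    (he : At e x) : ∃ b, Hol n b x ∧ ∀ᶠ y in 𝓝 x, g y ≠ 0 → (∀ i, t i y ≠ 0) →
      b y = ξ e y * ∏ i, t i y ^ c i := by
  obtain ⟨C, hC⟩ := hb e he
  have hp : Hol n (fun y => ∏ i, t i y) x := Hol.prod _ fun i _ => (ht i).1
  obtain ⟨b, h1, h2⟩ := riem (τ := fun y => g y * ∏ i, t i y)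
    (f := fun y => ξ e y * ∏ i, t i y ^ c i) (C := C) (hg.mul hp) (h0.mul hg hp (nz_prod ht)) (by
      filter_upwards [hA, hξ, hC, at_near he, eventually_all.2 fun i => (ht i).1.near]
        with y m1 m2 m3 m4 m5 m6
      have m7 : y ∉ A := fun k => left_ne_zero_of_mul m6 (m1 k)
      have m8 : ∀ i, t i y ≠ 0 := fun i =>
        Finset.prod_ne_zero_iff.1 (right_ne_zero_of_mul m6) i (Finset.mem_univ i)
      refine ⟨(m2 m7 e m4).1.mul (Hol.prod _ fun i _ => (m5 i).zpow (m8 i) _), ?_⟩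
      simpa only [norm_mul, norm_prod, norm_zpow] using m3 m7 m8)
  exact ⟨b, h1, h2.mono fun y m1 m2 m3 =>
    m1 (mul_ne_zero m2 (Finset.prod_ne_zero_iff.2 fun i _ => m3 i))⟩

theorem prod_exp {τ : ι → ℝ} (h : ∀ i, 0 < τ i) (γ : ι → ℝ) :
    ∏ i, τ i ^ γ i = Real.exp (∑ i, γ i * Real.log (τ i)) := by
  rw [Real.exp_sum]
  exact Finset.prod_congr rfl fun i _ => by rw [Real.rpow_def_of_pos (h i), mul_comm]

theorem calc_real {τ w : ι → ℝ} (h : ∀ i, 0 < τ i) {a Θ κ ε η : ℝ} (hΘ : 0 < Θ) (hκ : 0 < κ)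
    (θ c' : ι → ℤ) :
    (a * ∏ i, τ i ^ c' i) ^ (2 : ℝ) = (κ⁻¹ * (Θ * ∏ i, τ i ^ θ i) ^ (2 * ε - η) *
      ∏ i, τ i ^ (2 * (c' i - (ε * θ i + w i)) - η)) * (a ^ (2 : ℝ) * Θ ^ (-(2 * ε)) *
        (κ * ∏ i, τ i ^ (2 * w i)) * ((Θ * ∏ i, τ i ^ θ i) * ∏ i, τ i) ^ η) := by
  have e1 : ∀ d : ι → ℤ, ∏ i, τ i ^ d i = Real.exp (∑ i, d i * Real.log (τ i)) := fun d => by
    rw [← prod_exp h]
    simp only [Real.rpow_intCast]
  have e2 : ∏ i, τ i = Real.exp (∑ i, Real.log (τ i)) := by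
    simpa using prod_exp h fun _ => 1
  have e3 : ∑ i, (2 * (c' i - (ε * θ i + w i)) - η) * Real.log (τ i) =
      2 * ∑ i, c' i * Real.log (τ i) - 2 * ε * ∑ i, θ i * Real.log (τ i) -
        ∑ i, 2 * w i * Real.log (τ i) - η * ∑ i, Real.log (τ i) := by
    simp only [Finset.mul_sum, ← Finset.sum_sub_distrib]
    exact Finset.sum_congr rfl fun i _ => by ring
  rw [e1, e1, e2, prod_exp h, prod_exp h, e3, ← Real.exp_log hΘ]
  generalize ∑ i, c' i * Real.log (τ i) = S1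
  generalize ∑ i, θ i * Real.log (τ i) = S2
  generalize ∑ i, 2 * w i * Real.log (τ i) = S3
  generalize ∑ i, Real.log (τ i) = S4
  generalize Real.log Θ = L
  simp only [Real.rpow_two, ← Real.exp_add, ← Real.exp_mul]
  have e4 : Real.exp S1 ^ 2 = Real.exp ((L + S2) * (2 * ε - η)) *
      Real.exp (2 * S1 - 2 * ε * S2 - S3 - η * S4) * Real.exp (L * -(2 * ε)) * Real.exp S3 *
      Real.exp ((L + S2 + S4) * η) := by
    simp only [sq, ← Real.exp_add]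
    congr 1
    ring
  rw [mul_pow, e4]
  field_simp

theorem enorm_rpow {z : ℂ} (h : z ≠ 0) (r : ℝ) : ‖z‖ₑ ^ r = ENNReal.ofReal (‖z‖ ^ r) := by
  rw [← ENNReal.ofReal_rpow_of_pos (norm_pos_iff.2 h), ofReal_norm]

theorem enorm_two (z : ℂ) : ‖z‖ₑ ^ (2 : ℝ) = ENNReal.ofReal (‖z‖ ^ (2 : ℝ)) := by
  rw [← ENNReal.ofReal_rpow_of_nonneg (norm_nonneg _) zero_le_two, ofReal_norm]

/-- the coefficient in another chart -/
theorem coef {b : X → ℂ} (hb : Hol n b x) (hA : ∀ᶠ y in 𝓝 x, y ∈ A → g y = 0)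
    (hξ : ML n k A ξ x) (ht : ∀ i, Hol n (t i) x) (h0 : ∀ i, t i x ≠ 0) (he : At e x)
    (h : ∀ᶠ y in 𝓝 x, g y ≠ 0 → (∀ i, t i y ≠ 0) → b y = ξ e y * ∏ i, t i y ^ c i)
    {e₁ : Chart n X} (he₁ : At e₁ x) : ∃ α : X → ℂ, ContinuousAt α x ∧ (b x ≠ 0 → α x ≠ 0) ∧
      ∀ᶠ y in 𝓝 x, g y ≠ 0 → ξ e₁ y = α y := by
  have k1 : ∀ {y}, (∀ i, t i y ≠ 0) → ∏ i, t i y ^ c i ≠ 0 := fun m =>
    Finset.prod_ne_zero_iff.2 fun i _ => zpow_ne_zero _ (m i)
  refine ⟨fun y => (jacM e₁ e y).det ^ k * (b y / ∏ i, t i y ^ c i),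
    (((hol_jac he₁ he).pow k).mul (hb.div (Hol.prod _ fun i _ => (ht i).zpow (h0 i) _)
      (k1 h0))).cont, fun m => mul_ne_zero (pow_ne_zero _ (jacM_det_ne_zero he₁ he))
        (div_ne_zero m (k1 h0)), ?_⟩
  filter_upwards [hA, hξ, h, at_near he, at_near he₁,
    eventually_all.2 fun i => (ht i).ne_near (h0 i)] with y m1 m2 m3 m4 m5 m6 m7
  rw [m3 m7 m6, mul_div_cancel_right₀ _ (k1 m6), ← (m2 (fun k => m7 (m1 k)) e₁ m5).2 e m4]

end Tri

open Tri in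
theorem triple : TRIPLE := by
  intro n W _ _ _ _ _ ι _ A ξ Θ ξ' k k' ε t c θ c' w o x ⟨g, hg, h0, hA⟩ _ hε _ hξ hΘ hξ'
    ⟨e₀, he₀, hfr⟩ ht hb hb' hc ⟨κ, hκ, ho⟩ hK e he
  obtain ⟨B, hB, eB⟩ := ext hg h0 hA hξ ht hb he
  obtain ⟨T, hT, eT⟩ := ext hg h0 hA hΘ ht hb' he
  have hp : Hol n (fun y => ∏ i, t i y) x := Hol.prod _ fun i _ => (ht i).1
  have ht' : ∀ᶠ y in 𝓝 x, ∀ i, Hol n (t i) y := eventually_all.2 fun i => (ht i).1.near
  have k0 : ∀ {y}, ∏ i, t i y ≠ 0 → ∀ i, t i y ≠ 0 := fun m i =>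
    Finset.prod_ne_zero_iff.1 m i (Finset.mem_univ i)
  have hT0 : Nz T x := fun m => by
    obtain ⟨y, ⟨m1, m2⟩, m3, m4, m5, m6, m7, m8⟩ := (hfr.and_eventually (hΘ.and
      ((at_near he).and ((at_near he₀).and (m.eventually_nhds.and (eT.eventually_nhds.and
        ((h0.mul hg hp (nz_prod ht)).near (hg.mul hp)))))))).exists
    have m9 : Θ e y ≠ 0 := by
      rw [(m3 m1 e m4).2 e₀ m5]
      exact mul_ne_zero (pow_ne_zero _ (jacM_det_ne_zero m4 m5)) m2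
    refine m8 ?_
    filter_upwards [m6, m7, (m3 m1 e m4).1.ne_near m9] with z a1 a2 a3
    by_contra a4
    have a5 := k0 (right_ne_zero_of_mul a4)
    exact mul_ne_zero a3 (Finset.prod_ne_zero_iff.2 fun i _ => zpow_ne_zero _ (a5 i))
      ((a2 (left_ne_zero_of_mul a4) a5).symm.trans a1)
  obtain ⟨η, ⟨hη1, hη2⟩, hη⟩ : ∃ η : ℝ, (η < 2 * ε ∧ ∀ i, η < 2 * (c' i - (ε * θ i + w i))) ∧
      0 < η := ((((gt_mem_nhds (by linarith : (0 : ℝ) < 2 * ε)).and (eventually_all.2 fun i =>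
        gt_mem_nhds (by linarith [hc i] : (0 : ℝ) < 2 * (c' i - (ε * θ i + w i))))).filter_mono
          nhdsWithin_le_nhds).and (self_mem_nhdsWithin (s := Ioi (0 : ℝ)))).exists
  have hL := hK (fun y => T y * ∏ i, t i y) (hT.mul hp) (by
    filter_upwards [hg.near, h0.near hg, hA.eventually_nhds, hξ.eventually_nhds,
      hΘ.eventually_nhds, ht', at_near he, hB.near, hT.near, eB.eventually_nhds,
      eT.eventually_nhds] with y m1 m2 m3 m4 m5 m6 m7 m8 m9 m10 m11 m12 e₁ he₁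
    have m13 := k0 (right_ne_zero_of_mul m12)
    obtain ⟨α, a1, -, a3⟩ := coef m8 m3 m4 m6 m13 m7 m10 he₁
    obtain ⟨β, b1, b2, b3⟩ := coef m9 m3 m5 m6 m13 m7 m11 he₁
    have b4 := b2 (left_ne_zero_of_mul m12)
    obtain ⟨C, -, hC⟩ := bdd_near ((a1.norm.rpow_const (p := 2) (.inr zero_le_two)).mul
      (b1.norm.rpow_const (p := -(2 * ε)) (.inl (norm_ne_zero_iff.2 b4))))
    refine int_bdd he₁ m1 m2 (C := ENNReal.ofReal C) ENNReal.ofReal_ne_top ?_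
    filter_upwards [a3, b3, hC, b1.eventually_ne b4] with z c1 c2 c3 c4 c5
    rw [dens, c1 c5, c2 c5, enorm_two, enorm_rpow c4, ← ENNReal.ofReal_mul (by positivity)]
    exact ENNReal.ofReal_le_ofReal c3) η hη e he
  have hF : ContinuousAt (fun y => κ⁻¹ * ‖T y‖ ^ (2 * ε - η) *
      ∏ i, ‖t i y‖ ^ (2 * (c' i - (ε * θ i + w i)) - η)) x :=
    (continuousAt_const.mul (hT.cont.norm.rpow_const (.inr (by linarith)))).mul
      (tendsto_finsetProd _ fun i _ => (ht i).1.cont.norm.rpow_const (.inr (by linarith [hη2 i])))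
  obtain ⟨C, hC0, hC⟩ := bdd_near hF
  have hH : Hol n (fun y => g y * (T y * ∏ i, t i y)) x := hg.mul (hT.mul hp)
  have hH0 : Nz (fun y => g y * (T y * ∏ i, t i y)) x :=
    h0.mul hg (hT.mul hp) (hT0.mul hT hp (nz_prod ht))
  have hu : ∀ᶠ y in 𝓝 x, y ∉ A → (∀ i, t i y ≠ 0) →
      Hol n (fun y => ξ' e y * ∏ i, t i y ^ c' i) y := by
    filter_upwards [hξ', ht', at_near he] with y m1 m2 m3 m4 m5
      using (m1 m4 e m3).1.mul (Hol.prod _ fun i _ => (m2 i).zpow (m5 i) _)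
  obtain ⟨b, hb1, hb2⟩ := Li.riem (u := fun y => ξ' e y * ∏ i, t i y ^ c' i)
    (Li.mono (ψ := fun y => ENNReal.ofReal C *
      (dens ξ' Θ ε e y * o y * ‖T y * ∏ i, t i y‖ₑ ^ η)) ⟨e, he, hL⟩ ENNReal.ofReal_ne_top
      (.of_forall fun _ => le_rfl)) hH hH0 (by
    filter_upwards [hu, hA, eT, ho, hC] with y m1 m2 m3 m4 m5 m6
    have m7 := left_ne_zero_of_mul m6
    have m8 := right_ne_zero_of_mul m6
    have m9 := k0 (right_ne_zero_of_mul m8)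
    have m10 := m3 m7 m9
    have m11 : Θ e y ≠ 0 := left_ne_zero_of_mul (m10 ▸ left_ne_zero_of_mul m8)
    refine ⟨m1 (fun k => m7 (m2 k)) m9, le_trans ?_ (mul_le_mul_right (mul_le_mul_left
      (mul_le_mul_right (m4 m9) _) _) _)⟩
    rw [dens, enorm_two, enorm_two, enorm_rpow m11, enorm_rpow m8,
      ← ENNReal.ofReal_mul (by positivity), ← ENNReal.ofReal_mul (by positivity),
      ← ENNReal.ofReal_mul (by positivity), ← ENNReal.ofReal_mul hC0.le]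
    refine ENNReal.ofReal_le_ofReal (le_trans (le_of_eq ?_)
      (mul_le_mul_of_nonneg_right m5 (by positivity)))
    simp only [m10, norm_mul, norm_prod, norm_zpow]
    exact calc_real (fun i => norm_pos_iff.2 (m9 i)) (norm_pos_iff.2 m11) hκ θ c')
  refine ⟨b, hb1, ?_⟩
  filter_upwards [hu, hb1.near, hb2.eventually_nhds, hH0.near hH] with y m1 m2 m3 m4 m5 m6
  exact tendsto_nhds_unique_of_frequently_eq m2.cont (m1 m5 m6).cont
    (((not_eventually.1 m4).and_eventually m3).mono fun z k => k.2 k.1)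

end Vale.Agent.P281Z.Gt
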