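import Vale.Agent.P281Z.Gt.Glue
import Vale.Agent.P281Z.Gt.Algb
import Vale.Agent.P281Z.Gt.Algf
import Vale.Agent.P281Z.Gt.Alt
import Vale.Agent.P281Z.Gt.Box
import Vale.Agent.P281Z.Gt.Boxs
import Vale.Agent.P281Z.Gt.Bxb
import Vale.Agent.P281Z.Gt.Cf
import Vale.Agent.P281Z.Gt.Final
import Vale.Agent.P281Z.Gt.Hold
import Vale.Agent.P281Z.Gt.Init2
import Vale.Agent.P281Z.Gt.Keepb
import Vale.Agent.P281Z.Gt.Keepy
import Vale.Agent.P281Z.Gt.Mscf
import Vale.Agent.P281Z.Gt.Rks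
import Vale.Agent.P281Z.Gt.Sig
import Vale.Agent.P281Z.Gt.St1
import Vale.Agent.P281Z.Gt.St2
import Vale.Agent.P281Z.Gt.Step
import Vale.Agent.P281Z.Gt.Tbx
import Vale.Agent.P281Z.Gt.Theta
import Vale.Agent.P281Z.Gt.Triple
import Vale.Agent.P281Z.Gl.All
import Vale.Agent.P281Z.Gi.I1
import Vale.Agent.P281Z.Gi.Ipr
import Vale.Agent.P281Z.Gi.Msm
import Vale.Agent.P281Z.Gt.Ipc

/-!
# P281Z, block III, part B: the theorems
-/

namespace Vale.Agent.P281Z.Gt

theorem partB (hE : EXT1) (hT : TBB) : PARTB :=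
  have h1 := Gi.i1
  have hC := Gi.icalc_of (Gi.ipr_of Gi.msm)
  have hP := ipc
  have hM := mscf cf zero mert
  have hF := algf cf mert hM
  have hB := algb cf bxb
  have hS := sig openz zero grow mert cf bxb
  have hX := boxs triple keepb' bxb cf hM
  have hZ := step hE (normal triple cf hM jdv (merv grow) thn) hM cf thn
  partB_of pw tbx (bsex dom remR) (init1 hS (bbd hB hF) hT hP hC hF bxb)
    (st1 hZ (lv1 h1 hC cf thn) (alt ldesc thn hF) (keepy h1 hC cf thn) triple hold hX hB hF openz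
      zero) (theta hF hB bxb) (init2 hS (bbd hB hF) hP hC h1 hF cf thn bxb)
    (st2 hZ rks hX hold hF hB hM) (final hB bxb hT) hB

end Vale.Agent.P281Z.Gt
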