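import Vale.Agent.P281Z.Gt.SkB
import Vale.Agent.P281Z.Mf.An

/-!
# P281Z, block III, part B: Jacobian determinants (lemmas for BXB)
-/

open scoped Manifold ContDiff Topology
open Set Filter
open Vale.Agent.P272.K Vale.Agent.P285.H281.FD
open Vale.Agent.P277Z (Hol at_chart)

noncomputable section

namespace Vale.Agent.P281Z.Gt

namespace BxH

section det

variable {E F : Type} [NormedAddCommGroup E] [NormedSpace ℂ E] [FiniteDimensional ℂ E]
  [NormedAddCommGroup F] [NormedSpace ℂ F] [FiniteDimensional ℂ F]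

/-- the Jacobian determinant -/
abbrev D (f : E → E) (x : E) : ℂ := LinearMap.det (fderiv ℂ f x : E →ₗ[ℂ] E)

omit [FiniteDimensional ℂ E] in
theorem D_congr {f g : E → E} {x : E} (h : ∀ᶠ z in 𝓝 x, f z = g z) : D f x = D g x := by
  rw [D, D, EventuallyEq.fderiv_eq h]

omit [FiniteDimensional ℂ E] in
theorem D_comp {f g : E → E} {x : E} (hg : DifferentiableAt ℂ g (f x))
    (hf : DifferentiableAt ℂ f x) : D (fun z => g (f z)) x = D g (f x) * D f x := by
  rw [D, fderiv_fun_comp x hg hf, ← LinearMap.det_comp]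
  rfl

omit [FiniteDimensional ℂ E] in
theorem D_id (x : E) : D (fun z => z) x = 1 := by
  rw [D, fderiv_fun_id]
  exact LinearMap.det_id

omit [FiniteDimensional ℂ E] in
theorem D_ne {f g : E → E} {x : E} (hg : DifferentiableAt ℂ g (f x))
    (hf : DifferentiableAt ℂ f x) (h : ∀ᶠ z in 𝓝 x, g (f z) = z) : D f x ≠ 0 :=
  right_ne_zero_of_mul_eq_one ((D_comp hg hf).symm.trans ((D_congr h).trans (D_id x)))

theorem D_cont {f : E → E} {x : E} (h : AnalyticAt ℂ f x) : ContinuousAt (D f) x := by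
  have := FiniteDimensional.complete ℂ E
  exact ContinuousLinearMap.continuous_det.continuousAt.comp h.fderiv.continuousAt

omit [FiniteDimensional ℂ E] [FiniteDimensional ℂ F] in
theorem D_conj (T : E ≃L[ℂ] F) {g : F → F} {x : E} (hg : DifferentiableAt ℂ g (T x)) :
    D (fun z => T.symm (g (T z))) x = D g (T x) := by
  have h : HasFDerivAt (fun z => T.symm (g (T z))) ((T.symm : F →L[ℂ] E).comp
      ((fderiv ℂ g (T x)).comp (T : E →L[ℂ] F))) x :=
    T.symm.hasFDerivAt.comp x (hg.hasFDerivAt.comp x T.hasFDerivAt)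
  rw [D, h.fderiv]
  exact LinearMap.det_conj (fderiv ℂ g (T x) : F →ₗ[ℂ] F) T.symm.toLinearEquiv

theorem det_tri (A : E →ₗ[ℂ] E) (B : E × F →ₗ[ℂ] F) :
    LinearMap.det (LinearMap.prod (A ∘ₗ LinearMap.fst ℂ E F) B) =
      LinearMap.det A * LinearMap.det (B ∘ₗ LinearMap.inr ℂ E F) := by
  let b := Module.finBasis ℂ E
  let b' := Module.finBasis ℂ F
  rw [← LinearMap.det_toMatrix (b.prod b'), ← LinearMap.det_toMatrix b, ← LinearMap.det_toMatrix b',
    ← Matrix.det_fromBlocks_zero₁₂ _ (LinearMap.toMatrix b b' (B ∘ₗ LinearMap.inl ℂ E F))]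
  congr 1
  ext (i | i) (j | j) <;> simp [LinearMap.toMatrix_apply]

theorem D_tri {α : E → E} {β : E × F → F} {b : E} {u : F} (hα : DifferentiableAt ℂ α b)
    (hβ : DifferentiableAt ℂ β (b, u)) :
    D (fun v : E × F => (α v.1, β v)) (b, u) = D α b * D (fun u => β (b, u)) u := by
  have h1 : HasFDerivAt (fun v : E × F => (α v.1, β v))
      (((fderiv ℂ α b).comp (ContinuousLinearMap.fst ℂ E F)).prod (fderiv ℂ β (b, u))) (b, u) :=
    (HasFDerivAt.comp (f := Prod.fst) (b, u) hα.hasFDerivAt hasFDerivAt_fst).prodMk hβ.hasFDerivAt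
  have h2 : HasFDerivAt (fun u => β (b, u))
      ((fderiv ℂ β (b, u)).comp (ContinuousLinearMap.inr ℂ E F)) u :=
    hβ.hasFDerivAt.comp u (hasFDerivAt_prodMk_right b u)
  rw [D, D, D, h1.fderiv, h2.fderiv]
  exact det_tri _ _

theorem D_blk {ι : Type} [Fintype ι] {φ : ι → E → E} {u : ι → E}
    (h : ∀ j, DifferentiableAt ℂ (φ j) (u j)) :
    D (fun (v : ι → E) j => φ j (v j)) u = ∏ j, D (φ j) (u j) := by
  have : HasFDerivAt (fun (v : ι → E) j => φ j (v j)) (ContinuousLinearMap.pi fun j =>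
      (fderiv ℂ (φ j) (u j)).comp (ContinuousLinearMap.proj j)) u :=
    hasFDerivAt_pi.2 fun j => (h j).hasFDerivAt.comp u
      (ContinuousLinearMap.proj (R := ℂ) (φ := fun _ : ι => E) j).hasFDerivAt
  rw [D, this.fderiv]
  exact ContinuousLinearMap.det_pi _

end det

theorem D_pow (A : ℕ) (z : ℂ) : D (fun z : ℂ => z ^ A) z = A * z ^ (A - 1) := by
  rw [D, (hasDerivAt_pow A z).hasFDerivAt.fderiv]
  exact ContinuousLinearMap.det_toSpanSingleton _

variable {p : ℕ}

/-- the power map in one coordinate -/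
def pw (i : Fin p) (A : ℕ) (b : Cm p) : Cm p := Function.update b i (b i ^ A)

theorem pw_eq (i : Fin p) (A : ℕ) :
    pw i A = fun b c => (fun c (z : ℂ) => z ^ if c = i then A else 1) c (b c) := by
  funext b c
  by_cases h : c = i
  · subst h
    simp [pw]
  · simp [pw, h]

theorem pw_an (i : Fin p) (A : ℕ) (b : Cm p) : AnalyticAt ℂ (pw i A) b := by
  rw [pw_eq]
  exact AnalyticAt.pi fun c =>
    ((ContinuousLinearMap.proj (R := ℂ) (φ := fun _ : Fin p => ℂ) c).analyticAt b).fun_pow _

theorem D_pw (i : Fin p) (A : ℕ) (b : Cm p) : D (pw i A) b = A * b i ^ (A - 1) := by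
  rw [pw_eq, D_blk (φ := fun c (z : ℂ) => z ^ if c = i then A else 1) fun _ => by fun_prop,
    Finset.prod_eq_single i (fun c _ h => by rw [D_pow]; simp [h]) (by simp), D_pow, if_pos rfl]

theorem pw_zero (i : Fin p) {A : ℕ} (h : 0 < A) : pw i A 0 = 0 := by
  simp [pw, h.ne']

theorem pw_inj (i : Fin p) {A : ℕ} (h : 0 < A) {b : Cm p} (hb : b i ≠ 0) :
    ∀ᶠ b' in 𝓝 b, pw i A b' = pw i A b → b' = b := by
  have h1 := (hasDerivAt_pow A (b i)).eventually_ne (c := b i ^ A)
    (mul_ne_zero (Nat.cast_ne_zero.2 h.ne') (pow_ne_zero _ hb))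
  filter_upwards [(continuous_apply i).continuousAt.eventually
    (eventually_nhdsWithin_iff.1 h1)] with b' h2 h3
  funext c
  by_cases hc : c = i
  · subst hc
    by_contra h4
    exact h2 h4 (by simpa [pw] using congrFun h3 c)
  · simpa [pw, hc] using congrFun h3 c

/-- the splitting of the coordinates of the total space -/
def T1 (p a : ℕ) : Cm (p + a) ≃L[ℂ] Cm p × Cm a := LinearEquiv.toContinuousLinearEquiv
  { toFun := fun o => (fun c => o (Fin.castAdd _ c), fun i => o (Fin.natAdd p i))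
    invFun := fun v => Fin.append v.1 v.2
    map_add' := fun _ _ => rfl
    map_smul' := fun _ _ => rfl
    left_inv := fun _ => Fin.append_castAdd_natAdd
    right_inv := fun _ => Prod.ext (funext fun _ => Fin.append_left _ _ _)
      (funext fun _ => Fin.append_right _ _ _) }

/-- the splitting of the coordinates of the fibre power -/
def Tw (p n a : ℕ) : Cm (p + n * a) ≃L[ℂ] Cm p × (Fin n → Cm a) :=
  LinearEquiv.toContinuousLinearEquiv
  { toFun := fun o => (fun c => o (Fin.castAdd _ c),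
      fun j i => o (Fin.natAdd p (finProdFinEquiv (j, i))))
    invFun := fun v => Fin.append v.1 fun k =>
      v.2 (finProdFinEquiv.symm k).1 (finProdFinEquiv.symm k).2
    map_add' := fun _ _ => rfl
    map_smul' := fun _ _ => rfl
    left_inv := fun o => by
      simp only [Prod.mk.eta, Equiv.apply_symm_apply]
      exact Fin.append_castAdd_natAdd
    right_inv := fun _ => by
      simp only [Fin.append_left, Fin.append_right, Equiv.symm_apply_apply] }

section model

variable {k : ℕ} {E : Type} [NormedAddCommGroup E] [NormedSpace ℂ E]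

theorem anV_model {F : Cm k → E} {o : Cm k} (h : AnalyticAt ℂ F o) : AnV k F o :=
  (anV_chart (at_chart o)).cmp (G := F) h

theorem holA_model {T : Type} [TopologicalSpace T] [ChartedSpace (Cm k) T]
    [IsManifold 𝓘(ℂ, Cm k) ω T] {F : T → Cm p} {t : T} (h : AnV k F t) : HolA k p F t :=
  .of_an h.cont (at_chart t) (at_chart _) (h _ (at_chart t))

theorem anV_comp {T X : Type} [TopologicalSpace T] [ChartedSpace (Cm k) T]
    [IsManifold 𝓘(ℂ, Cm k) ω T] [TopologicalSpace X] [ChartedSpace (Cm p) X]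
    [IsManifold 𝓘(ℂ, Cm p) ω X] {g : T → X} {F : X → E} {t : T} (hg : HolA k p g t)
    (h : AnV p F (g t)) : AnV k (fun s => F (g s)) t := fun e he => by
  have hc := at_chart (n := p) (g t)
  refine ((hg.anV hc).cmp (h _ hc) e he).congr ?_
  filter_upwards [at_ev he (hg.cont.eventually (at_near hc))] with z hz
  rw [hz.left_inv]

end model

end BxH

end Vale.Agent.P281Z.Gt
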