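import Vale.Agent.P281Z.Gt.SkT
import Vale.Agent.P281Z.Mf.Loc

/-!
# P281Z, block III, part B: definitions
-/

open scoped Manifold ContDiff Topology ENNReal Matrix
open Set Filter MeasureTheory
open Vale.Agent.P272.K Vale.Agent.P285.H281.FD
open Vale.Agent.P277Z (Hol Mer Nz gen jd)
open Vale.Agent.P277Z.Slc (lin Ind LEq Snc ForW)

noncomputable section

namespace Vale.Agent.P281Z.Gt

section one

variable (n : ℕ) {X : Type} [TopologicalSpace X] [ChartedSpace (Cm n) X]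

/-- `Keep` at one point -/
def KeepAt (u u' : Chart n X → X → ℝ≥0∞) (x : X) : Prop :=
  ∀ h, Hol n h x → (∀ᶠ y in 𝓝 x, h y ≠ 0 → LI n u y) →
    ∀ η : ℝ, 0 < η → LI n (fun e y => u' e y * ‖h y‖ₑ ^ η) x

/-- near `x` the set `A` is contained in a hypersurface -/
def Tn (A : Set X) (x : X) : Prop := ∃ g, Hol n g x ∧ Nz g x ∧ ∀ᶠ y in 𝓝 x, y ∈ A → g y = 0

/-- near `x`, `ξ` is a holomorphic `k`-form off `A` -/
def ML (k : ℕ) (A : Set X) (ξ : Chart n X → X → ℂ) (x : X) : Prop :=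
  ∀ᶠ y in 𝓝 x, y ∉ A → ∀ e, At e y → Hol n (ξ e) y ∧
    ∀ e', At e' y → ξ e y = (jacM e e' y).det ^ k * ξ e' y

/-- `ξ ∏ t ^ c` is bounded near `x` -/
def Bn {ι : Type} [Fintype ι] (A : Set X) (ξ : Chart n X → X → ℂ) (t : ι → X → ℂ) (c : ι → ℤ)
    (x : X) : Prop :=
  ∀ e, At e x → ∃ C : ℝ, ∀ᶠ y in 𝓝 x, y ∉ A → (∀ i, t i y ≠ 0) →
    ‖ξ e y‖ * ∏ i, ‖t i y‖ ^ c i ≤ C

/-- a meromorphic `k`-form which is holomorphic off `Q` -/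
structure BF (k : ℕ) (Q : Set X) (β : Chart n X → X → ℂ) : Prop where
  hol : ∀ e y, At e y → y ∉ Q → Hol n (β e) y
  mer : ∀ e y, At e y → Mer n (β e) y
  chg : ∀ e e' y, At e y → At e' y → y ∉ Q → β e y = (jacM e e' y).det ^ k * β e' y

end one

section ns

variable {p a : ℕ} {M : Fb (p + a) p} {n : ℕ}

/-- a `k`-form on the fibre power, meromorphic, with poles at most `k Δ` over the complement of
`Q` -/
structure NS.AF (C : NS M) (k : ℕ) (F : Chart p M.Y.X → Pt M n → ℂ) : Prop extends C.PF k F where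
  mer : ForW fun d T _ _ => ∀ (γ : T → Pt M n) (t : T), Tm d γ t → (∃ᶠ s in 𝓝 t, γ s ∈ C.N n) →
    ∀ e', At e' (γ t).1 → Mer d (fun s => F e' (γ s)) t
  bs : ∀ q, Fp q → q.1 ∉ C.Q → ∀ e', At e' q.1 → C.Bq k (F e') (𝓝 q) q

/-- `F` is not zero -/
def NS.Ne (C : NS M) (F : Chart p M.Y.X → Pt M n → ℂ) : Prop :=
  ∃ q ∈ C.N n, ∃ e', At e' q.1 ∧ F e' q ≠ 0

/-- the ratios of the `F i` have rank `a` along a fibre of the diagonal -/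
def NS.RK (C : NS M) (F : Fin (a + 1) → Chart p M.Y.X → Pt M n → ℂ) : Prop :=
  ∃ x ∉ C.S, ∃ e e', At e x ∧ At e' (M.f x) ∧ F 0 e' (dg n x) ≠ 0 ∧
    jdw (fun i x' => F (Fin.succ i) e' (dg n x') / F 0 e' (dg n x')) e e' x ≠ 0

/-- `γ` parametrizes a branch of the fibre power, `ρ` is a retraction -/
structure Br (Q : Set M.Y.X) {T : Type} [TopologicalSpace T] [ChartedSpace (Cm (p + n * a)) T]
    (γ : T → Pt M n) (t : T) (ρ : Pt M n → T) : Prop where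
  tm : Tm (p + n * a) γ t
  inv : ∀ᶠ s in 𝓝 t, ρ (γ s) = s
  hol : ForW fun k T' _ _ => ∀ (g : T' → Pt M n) (t' : T'), Tm k g t' → g t' = γ t →
    HolA k (p + n * a) (fun s => ρ (g s)) t'
  off : ∃ᶠ s in 𝓝 t, (γ s).1 ∉ Q

variable (M) in
/-- `f` has rank at least `p - 1` somewhere on `G l` -/
def Rp (l : M.κ) : Prop :=
  ∃ x ∈ M.G l, ∃ (ζ : M.X.X → ℂ) (φ : Fin (p - 1) → M.Y.X → ℂ), LEq (p + a) (M.G l) x ζ ∧
    (∀ i, Hol p (φ i) (M.f x)) ∧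
    Ind (p + a) (Sum.elim (fun _ : Unit => ζ) fun i z => φ i (M.f z)) x

variable (M) in
/-- sections of `N (K + Δ)`, with no condition along the components of small rank -/
def KapO (j : ℕ) : Prop :=
  ∃ N, 0 < N ∧ ∃ s : Fin (j + 1) → Chart (p + a) M.X.X → M.X.X → ℂ,
    (∀ b, SecP (p + a) (p + a) id {x | ∀ l, x ∈ M.G l → Rp M l} ((Bd.can (p + a) M.X.X).pow N) M.G
      (fun l => N * M.δ l) (s b)) ∧ Rk (p + a) (off M.G) ((Bd.can (p + a) M.X.X).pow N) s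

variable (M) in
/-- coordinates at a point of `G l` in which `f = (t₀ ^ A, t₁, ...)`, `G = {t₀ = 0}` -/
structure Bx (Q : Set M.Y.X) (l : M.κ) where
  x : M.X.X
  A : ℕ
  i₀ : Fin p
  Θ : OpenPartialHomeomorph M.X.X (Cm p × Cm a)
  η : OpenPartialHomeomorph M.Y.X (Cm p)
  pos : 0 < A
  coΘ : Co (p + a) Θ
  coη : Co p η
  mem : x ∈ Θ.source
  zero : Θ x = 0
  map : ∀ x' ∈ Θ.source, M.f x' ∈ η.source ∧
    η (M.f x') = Function.update (Θ x').1 i₀ ((Θ x').1 i₀ ^ A)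
  div : ∀ x' ∈ Θ.source, ∀ l', x' ∈ M.G l' ↔ l' = l ∧ (Θ x').1 i₀ = 0
  base : ∀ y ∈ η.source, y ∈ Q ↔ η y i₀ = 0

namespace Bx

variable {Q : Set M.Y.X} {l : M.κ} (B : Bx M Q l)

/-- the point of the base -/
def yb (b : Cm p) : M.Y.X := B.η.symm (Function.update b B.i₀ (b B.i₀ ^ B.A))

/-- the pieces of the fibres -/
def ψ (b : Cm p) (u : Cm a) : M.X.X := B.Θ.symm (b, u)

/-- the diagonal branch of the fibre power -/
def γ (n : ℕ) (o : Cm (p + n * a)) : Pt M n :=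
  (B.yb fun c => o (Fin.castAdd _ c), fun j =>
    B.ψ (fun c => o (Fin.castAdd _ c)) fun i => o (Fin.natAdd p (finProdFinEquiv (j, i))))

/-- the order of the poles allowed on the base -/
def b (m : ℕ) : ℕ := (m * (B.A - 1) + ⌊m * M.δ l⌋₊) / B.A

/-- the order of the poles allowed on the branch -/
def om (m n : ℕ) : ℕ := (n - 1) * ((m * (B.A - 1) + ⌊m * M.δ l⌋₊) % B.A) + ⌊m * M.δ l⌋₊

/-- the bound on the base -/
def BB (m : ℕ) (β : Chart p M.Y.X → M.Y.X → ℂ) : Prop :=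
  Bn p Q β (fun (_ : Unit) y => B.η y B.i₀) (fun _ => B.b m) (M.f B.x)

end Bx

end ns

/-- a neat model with flat data -/
structure Nm (p a m : ℕ) : Type 1 where
  M : Fb (p + a) p
  std : Std M m
  D : FD M m
  S : PS D.v
  φ : M.Y.X → S.P.X
  hol : HolM p D.v φ
  eq : ∀ y ∉ D.Q, φ y = S.pt (Fin.cons 1 fun j => D.z j y)
  r : ℕ
  E : Fin r → Set M.Y.X
  snc : Snc p E
  connE : ∀ j, IsConnected (E j)
  memQ : ∀ y, y ∉ D.Q ↔ y ∈ off E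
  pre : ∀ x ∈ off M.G, M.f x ∉ D.Q
  connG : ∀ l, IsConnected (M.G l)

namespace Nm

variable {p a m : ℕ} (Z : Nm p a m) {n : ℕ}

/-- the nice structure -/
abbrev C : NS Z.M := Z.D.toAD.toNS

/-- models of the fibre powers -/
abbrev W (n : ℕ) : Type 1 := Pw Z.M n (p + n * a) Z.D.Q

/-- the points of the base over `O` -/
def Ov (y : Z.M.Y.X) : Prop := Z.S.hx (Z.φ y) 0 ≠ 0 ∧ Z.S.aff (Z.φ y) ∈ Z.D.O

/-- the conclusion of one step -/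
def KV (W : Z.W n) (k k' : ℕ) (ε : ℝ) (F Θ F' : Chart p Z.M.Y.X → Pt Z.M n → ℂ) : Prop :=
  Keep (p + n * a) (dens (Z.C.cf k F W.γ) (Z.C.cf k' Θ W.γ) ε) fun e v =>
    dens (Z.C.cf k F' W.γ) (Z.C.cf k' Θ W.γ) ε e v *
      ENNReal.ofReal (Z.S.hw (Z.φ (W.γ v).1)) ^ (2 * (Z.D.v + 1) : ℕ)

/-- log canonical over `O` -/
def LV (W : Z.W n) (k k' : ℕ) (ε : ℝ) (F Θ : Chart p Z.M.Y.X → Pt Z.M n → ℂ) : Prop :=
  ∀ v, Z.Ov (W.γ v).1 → Lc (p + n * a) (dens (Z.C.cf k F W.γ) (Z.C.cf k' Θ W.γ) ε) v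

/-- log canonical over `O`, on the base -/
def BL (β : Chart p Z.M.Y.X → Z.M.Y.X → ℂ) : Prop :=
  ∀ y, Z.Ov y → Lc p (dens β (fun e y => β e y ^ (m - 1)) (1 / m)) y

/-- the bound on the diagonal branch, for a form of weight `m k` and of degree `d` -/
def BdB {l : Z.M.κ} (B : Bx Z.M Z.D.Q l) (k : ℕ) (d : ℤ) (F : Chart p Z.M.Y.X → Pt Z.M n → ℂ) :
    Prop :=
  ∃ K : ℝ, ∀ᶠ o in 𝓝 (0 : Cm (p + n * a)), B.γ n o ∈ Z.C.N n →
    ‖Z.C.cf (m * k) F (B.γ n) (chartAt _ o) o‖ * ‖o (Fin.castAdd _ B.i₀)‖ ^ (k * B.om m n) *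
      Z.S.hw (Z.φ (B.γ n o).1) ^ d ≤ K

/-- a system of boxes -/
structure Bs : Type 1 where
  ι : Type
  [fin : Finite ι]
  lb : ι → Z.M.κ
  B : ∀ i, Bx Z.M Z.D.Q (lb i)
  all : ∀ l, Rp Z.M l → (∀ x ∈ Z.M.G l, Z.M.f x ∈ Z.D.Q) → ∃ i, lb i = l
  σ : MvPolynomial (Fin (Z.D.v + 1)) ℂ
  d : ℕ
  ne : σ ≠ 0
  hom : σ.IsHomogeneous d
  dich : ∀ i, Z.Ov (Z.M.f (B i).x) ∨ ∀ᶠ y in 𝓝 (Z.M.f (B i).x), y ∈ Z.D.Q →
    MvPolynomial.eval (Z.S.hx (Z.φ y)) σ * Z.S.hx (Z.φ y) 0 = 0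

attribute [instance] Bs.fin

/-- `P` on each of the `s` groups -/
def Pb (s : ℕ) (q : Pt Z.M (s * (Z.D.c₀ * Z.D.ρ))) : ℂ := ∏ g : Fin s, Z.D.P (grp g q)

/-- `β P ... P` -/
def bp (s : ℕ) (β : Chart p Z.M.Y.X → Z.M.Y.X → ℂ) (e' : Chart p Z.M.Y.X)
    (q : Pt Z.M (s * (Z.D.c₀ * Z.D.ρ))) : ℂ := β e' q.1 * Z.Pb s q

/-- the weight of the second stage -/
def th (t : ℕ) (β : Chart p Z.M.Y.X → Z.M.Y.X → ℂ) (e' : Chart p Z.M.Y.X)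
    (q : Pt Z.M (Z.D.k₁ * t * Z.D.n₁)) : ℂ :=
  ∏ g : Fin (Z.D.k₁ * t), β e' q.1 * Z.D.B 0 (grp g q) ^ t

variable {Z}

/-- the part of the invariant of the first stage which lives on the base -/
structure S0 (T : Z.Bs) (β : Chart p Z.M.Y.X → Z.M.Y.X → ℂ) : Prop where
  bf : BF p m Z.D.Q β
  ne : ∃ y ∉ Z.D.Q, ∃ e', At e' y ∧ β e' y ≠ 0
  bl : Z.BL β
  bb : ∀ i, Z.Ov (Z.M.f (T.B i).x) → (T.B i).BB m β

/-- the invariant of the first stage -/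
structure S1 (T : Z.Bs) (s : ℕ) (d : ℤ) (β : Chart p Z.M.Y.X → Z.M.Y.X → ℂ) : Prop
    extends S0 T β where
  bd : ∀ i, Z.BdB (T.B i) 1 d (Z.bp s β)

/-- the invariant of the second stage -/
structure S2 (T : Z.Bs) (W : Z.W n) (k' u₁ u₂ : ℕ) (ε : ℝ) (Θ : Chart p Z.M.Y.X → Pt Z.M n → ℂ)
    (d : ℤ) (F : Fin (a + 1) → Chart p Z.M.Y.X → Pt Z.M n → ℂ) : Prop where
  af : ∀ j, Z.C.AF (m * Z.D.i₁) (F j)
  bd : ∀ j i, Z.BdB (T.B i) Z.D.i₁ d (F j)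
  lv : ∀ j, Z.LV W (m * Z.D.i₁) (m * (Z.D.i₁ * u₁ + k' * u₂)) ε (F j)
    fun e' q => F j e' q ^ u₁ * Θ e' q ^ u₂
  rk : Z.C.RK F

end Nm

end Vale.Agent.P281Z.Gt
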