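import Vale.Agent.P281Z.Gt.SkB

/-!
# P281Z, block III: the assembly
-/

open scoped Manifold ContDiff Topology ENNReal Matrix
open Set Filter MeasureTheory
open Vale.Agent.P272.K Vale.Agent.P285.H281.FD

noncomputable section

namespace Vale.Agent.P281Z.Gt

theorem exists_den (x y : ℚ) (hx : 0 ≤ x) (hy : 0 ≤ y) :
    ∃ (ε : ℚ) (u₁ u₂ : ℕ), 0 < ε ∧ ε * u₁ = x ∧ ε * u₂ = y := by
  have h1 : (0 : ℚ) < x.den := by exact_mod_cast x.den_pos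
  have h2 : (0 : ℚ) < y.den := by exact_mod_cast y.den_pos
  have k1 : ((x.num.toNat : ℕ) : ℚ) = x * x.den := by
    rw [Rat.mul_den_eq_num, ← Int.cast_natCast, Int.toNat_of_nonneg (Rat.num_nonneg.2 hx)]
  have k2 : ((y.num.toNat : ℕ) : ℚ) = y * y.den := by
    rw [Rat.mul_den_eq_num, ← Int.cast_natCast, Int.toNat_of_nonneg (Rat.num_nonneg.2 hy)]
  refine ⟨1 / (x.den * y.den), x.num.toNat * y.den, y.num.toNat * x.den, by positivity, ?_, ?_⟩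
  · rw [Nat.cast_mul, k1]; field_simp
  · rw [Nat.cast_mul, k2]; field_simp

theorem descend {α : Type} (P : ℤ → α → Prop) (d₀ : ℤ) (mono : ∀ d x, d ≤ d₀ → P d x → P d₀ x)
    (step : ∀ d x, d₀ < d → P d x → ∃ x', P (d - 1) x') (d : ℤ) (x : α) (h : P d x) :
    ∃ x', P d₀ x' := by
  obtain ⟨j, hj⟩ : ∃ j : ℕ, d ≤ d₀ + j := ⟨(d - d₀).toNat, by omega⟩
  induction j generalizing d x with
  | zero => exact ⟨x, mono d x (by simpa using hj) h⟩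
  | succ j ih =>
    rcases le_or_gt d d₀ with k | k
    · exact ⟨x, mono d x k h⟩
    · obtain ⟨x', h'⟩ := step d x k h
      exact ih _ x' h' (by push_cast at hj; omega)

theorem partB_of (hPW : PW) (hTBX : TBX) (hBS : BSEX) (hI1 : INIT1) (hS1 : ST1) (hTH : THETA)
    (hI2 : INIT2) (hS2 : ST2) (hF : FINAL) (hA : ALGB) : PARTB := by
  intro p a m k Z hτ
  have hW : ∀ n, Nonempty (Z.W n) := fun n => hPW p a n Z.M Z.D.Q Z.std.ok Z.std.kahX Z.std.kahY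
    Z.D.thinQ fun y hy => ⟨Z.D.reg y hy, Z.D.conn y hy⟩
  obtain ⟨τ, hτ1, hτ2⟩ := hTBX _ p m k Z.M Z.D.Q Z.std.ok Z.D.thinQ Z.D.reg hτ
  obtain ⟨T⟩ := hBS p a m Z
  obtain ⟨p1, p2, p3, p4, p5, p6⟩ := Z.D.pos
  obtain ⟨e1, e2⟩ := Z.D.eta
  have hm : 0 < m := by have := Z.std.two; omega
  obtain ⟨t, ht⟩ := exists_nat_gt ((m * (Z.D.v + 2) + (Z.D.v + 2) / Z.D.η + 2 : ℚ))
  have q0 : (0 : ℚ) ≤ (Z.D.v + 2) / Z.D.η := by positivity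
  have q1 : (0 : ℚ) ≤ m * (Z.D.v + 2) := by positivity
  have ht2 : 2 ≤ t := by
    have : (2 : ℚ) < t := by linarith
    exact_mod_cast this.le
  have hs : 0 < Z.D.c₁ * t := by positivity
  obtain ⟨β₀, d₀, h₀⟩ := hI1 p a m Z _ hs T (τ 0) (hτ1 0)
    (let ⟨y, h1, e, h2, h3, _⟩ := hτ2; ⟨y, h1, e, h2, h3⟩)
  obtain ⟨β, hβ⟩ := descend (fun d β => Nm.S1 T (Z.D.c₁ * t) d β) (m * (Z.D.v + 2))
    (fun d β hd h => ⟨h.toS0, fun i => (hA p a m Z _ (by positivity) _ (T.B i)).2.2.2.1 _ _ _ _ _ hd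
      (h.bd i) fun _ _ _ _ => rfl⟩) (fun d β hd h => hS1 p a m Z _ hs T β d (hW _) h hd) d₀ β₀ h₀
  obtain ⟨t1, t2, t3⟩ := hTH p a m Z t (by omega) T β _ hβ (hW _)
  have m0 : (0 : ℚ) < m * Z.D.i₁ := by positivity
  have t0 : (0 : ℚ) < t := by positivity
  set c : ℚ := (1 + Z.D.η * (m * Z.D.k₁)) / (m * Z.D.i₁) with hc
  have c0 : 0 < c := by positivity
  obtain ⟨ε, u₁, u₂, k0, k1, k2⟩ := exists_den (1 - c) (Z.D.η / t)
    (sub_nonneg.2 ((div_le_one m0).2 e2)) (by positivity)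
  obtain ⟨W⟩ := hW (Z.D.k₁ * t * Z.D.n₁)
  have hn : 0 < Z.D.k₁ * t * Z.D.n₁ := by positivity
  obtain ⟨F₀, d₁, h₁⟩ := hI2 p a m Z t (by omega) T β W u₁ u₂ ε hβ.toS0 (by exact_mod_cast k0)
    (by rw [hc] at k1; exact_mod_cast k1) (by exact_mod_cast k2)
  obtain ⟨F, hF'⟩ := descend
    (fun d F => Nm.S2 T W (Z.D.k₁ * t) u₁ u₂ ε (Z.th t β) d F) 0
    (fun d F hd h => ⟨h.af, fun j i => (hA p a m Z _ hn _ (T.B i)).2.2.2.1 _ _ _ _ _ hd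
      (h.bd j i) fun _ _ _ _ => rfl, h.lv, h.rk⟩)
    (fun d F hd h => hS2 p a m Z _ hn T W _ u₁ u₂ ε _ d _ F k0 (by linarith) (by
      push_cast
      have : ε * (m * (Z.D.i₁ * u₁ + Z.D.k₁ * t * u₂)) =
          m * Z.D.i₁ * (ε * u₁) + m * Z.D.k₁ * t * (ε * u₂) := by ring
      rw [this, k1, k2, hc]
      field_simp
      ring) t1 t2 t3 (by
      push_cast
      have h1 : ε * (d * u₁ + Z.D.k₁ * t * (m * (Z.D.v + 2) - t) * u₂) =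
          d * (ε * u₁) + Z.D.k₁ * t * (m * (Z.D.v + 2) - t) * (ε * u₂) := by ring
      have h2 : (Z.D.k₁ : ℚ) * t * (m * (Z.D.v + 2) - t) * (Z.D.η / t) =
          -(Z.D.k₁ * (Z.D.η * (t - m * (Z.D.v + 2)))) := by
        field_simp
        ring
      have h3 : (Z.D.v + 2 : ℚ) < Z.D.η * (t - m * (Z.D.v + 2)) := by
        rw [← div_lt_iff₀' e1]
        linarith
      have h4 : (1 : ℚ) ≤ Z.D.k₁ := by exact_mod_cast p4
      have h5 : (0 : ℚ) < d := by exact_mod_cast hd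
      have h6 : (0 : ℚ) ≤ Z.D.v + 2 := by positivity
      rw [h1, k1, k2, h2]
      nlinarith [mul_pos h5 c0, mul_le_mul_of_nonneg_right h4 (h6.trans h3.le)]) h) d₁ F₀ h₁
  refine hF p a m Z _ hn T _ k F τ ?_ p6 hF'.af hF'.bd hF'.rk hτ1 hτ2
  calc 2 ≤ 1 * t * 1 := by omega
    _ ≤ _ := Nat.mul_le_mul (Nat.mul_le_mul_right _ p4) p3

theorem iii_of (h1 : PICK) (h2 : AZ) (h3 : VBF) (h4 : PARTA) (h5 : PARTI) (h6 : NMEX) (h7 : PARTB)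
    (h8 : MODM) (h9 : MODK) (h10 : MODEL) : III := by
  intro w p a M hw hM hX hY hv hF k hk
  subst hw
  rcases Nat.eq_zero_or_pos a with rfl | ha
  · simpa using h2 p k M hM hk
  obtain ⟨m, k1, k2, k3⟩ := h1 _ p a a k M hM hX hY hv hF hk
  obtain ⟨M₀, u₀, v₀, Q₀, ρ, a1, a2, ⟨R⟩⟩ := h3 _ p m M k1
  have b1 := h8 _ p M₀ M u₀ v₀ hM a1.ok a2.sq m
  obtain ⟨D, hD⟩ := h4 p a m ρ M₀ a1 ha (b1.1 a a k2) R
  obtain ⟨D'⟩ := h5 p a m M₀ D a1 hD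
  obtain ⟨M', Z, c1, ⟨u', v', c2⟩, u, v, c3, c4⟩ := h6 p a m M₀ a1 D'
  obtain ⟨N, n1, s, n2, x, n3, n4⟩ := h7 p a m k Z ((h8 _ p Z.M M' u v c1 Z.std.ok c3 m).2 k
    ((h8 _ p M' M₀ u' v' a1.ok c1 c2 m).2 k (b1.2 k k3)))
  refine (h10 _ p M₀ M u₀ v₀ hM a1.ok a2.sq).kap _ ((h10 _ p M' M₀ u' v' a1.ok c1 c2).kap _
    (h9 _ p Z.M M' u v c1 Z.std.ok c3 _ ⟨N, n1, s, fun b => ⟨fun e y hy => (n2 b).hol e y (c4 y hy),
      fun e e' y hy => (n2 b).chg e e' y (c4 y hy), fun e y hy => (n2 b).bd e y (c4 y hy)⟩,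
      x, ⟨by_contra fun h => ?_, n3⟩, n4⟩))
  obtain ⟨l, -, hl⟩ := c3.log.exc x h
  exact n3 l hl

end Vale.Agent.P281Z.Gt
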