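import Vale.Agent.P281Z.Gt.Keepb
import Vale.Agent.P281Z.Gi.Area
import Vale.Agent.P281Z.Gl.Pw

/-!
# P281Z, block III, part B: fibre integrals and local integrability on a model
-/

open scoped Manifold ContDiff Topology ENNReal
open Set Filter MeasureTheory
open Vale.Agent.P272.K
open Vale.Agent.P277Z (Hol at_chart)
open Vale.Agent.P298.H707 (Fib lintegral_fib measurable_fib)

noncomputable section

namespace Vale.Agent.P281Z.Gt

namespace I1A

variable {p a n : ℕ}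

/-- the coordinates of the fibre power -/
def ap (b : Cm p) (o : Fin n → Cm a) : Cm (p + n * a) :=
  Fin.append b fun k => o (finProdFinEquiv.symm k).1 (finProdFinEquiv.symm k).2

variable (p a n) in
/-- the splitting of the coordinates -/
def sp : Cm (p + n * a) ≃ₗ[ℝ] Cm p × (Fin n → Cm a) where
  toFun t := (fun c => t (Fin.castAdd _ c), fun j i => t (Fin.natAdd p (finProdFinEquiv (j, i))))
  invFun q := ap q.1 q.2
  map_add' _ _ := rfl
  map_smul' _ _ := rfl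
  left_inv t := funext fun i => i.addCases (fun _ => Fin.append_left _ _ _) fun k =>
    (Fin.append_right _ _ _).trans (congrArg (fun k => t (Fin.natAdd p k))
      (finProdFinEquiv.apply_symm_apply k))
  right_inv q := by simp only [ap, Fin.append_left, Fin.append_right, Equiv.symm_apply_apply]

theorem ap_inj {b b' : Cm p} {o o' : Fin n → Cm a} (h : ap b o = ap b' o') : b = b' ∧ o = o' :=
  Prod.ext_iff.1 ((sp p a n).symm.injective (a₁ := (b, o)) (a₂ := (b', o')) h)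

variable (p a n) in
/-- the theorem of Tonelli, up to a constant -/
theorem tonelli : ∃ c : ℝ≥0∞, c ≠ 0 ∧ c ≠ ⊤ ∧ ∀ G : Cm (p + n * a) → ℝ≥0∞,
    c * ∫⁻ t, G t ≤ ∫⁻ b, ∫⁻ o, G (ap b o) ∧
      (Measurable G → ∫⁻ b, ∫⁻ o, G (ap b o) = c * ∫⁻ t, G t) := by
  have : (volume : Measure (Fin n → Cm a)).IsAddHaarMeasure := Measure.pi.isAddHaarMeasure _
  let L := (sp p a n).symm.toContinuousLinearEquiv
  let μ : Measure (Cm p × (Fin n → Cm a)) := Measure.prod volume volume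
  have : μ.IsAddHaarMeasure := Measure.prod.instIsAddHaarMeasure _ _
  have : (μ.map L).IsAddHaarMeasure := L.isAddHaarMeasure_map μ
  have k : ∀ G : Cm (p + n * a) → ℝ≥0∞, ∫⁻ q, G (L q) ∂μ =
      (Measure.addHaarScalarFactor (μ.map L) volume : ℝ≥0∞) * ∫⁻ t, G t := fun G =>
    (lintegral_map_equiv G L.toHomeomorph.toMeasurableEquiv).symm.trans
      ((congrArg (lintegral · G) (Measure.isAddLeftInvariant_eq_smul (μ.map L) volume)).trans
        (lintegral_smul_measure _ G))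
  refine ⟨_, ENNReal.coe_ne_zero.2 (Measure.addHaarScalarFactor_pos_of_isAddHaarMeasure
    (μ.map L) volume).ne', ENNReal.coe_ne_top, fun G => ⟨k G ▸ lintegral_prod_le _, fun h => ?_⟩⟩
  exact (lintegral_prod _ (h.comp L.continuous.measurable).aemeasurable).symm.trans (k G)

variable {M : Fb (p + a) p} {C : NS M} (W : Pw M n (p + n * a) C.Q) {u : Pt M n → ℝ≥0∞}
  {e' : Chart p M.Y.X} {e : Chart (p + n * a) W.V.X} {O : Set (Cm (p + n * a))}

theorem co_eq {q : Pt M n} {b : Cm p} {o : Fin n → Cm a} (h : C.co e' q = ap b o) :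
    e' q.1 = b ∧ ∀ j i, C.w i (q.2 j) = o j i :=
  have k := ap_inj (o := fun j i => C.w i (q.2 j)) h
  ⟨k.1, fun j i => congrFun (congrFun k.2 j) i⟩

/-- the area formula on a piece of a chart -/
theorem piece (hM : M.Ok) (hu : C.Ms u) (he : e ∈ atlas (Cm (p + n * a)) W.V.X) (hO : IsOpen O)
    (h : ∀ z ∈ O, z ∈ e.target ∧ At e' (W.γ (e.symm z)).1) :
    ∃ S : Cm (p + n * a) → ℝ≥0∞, Measurable S ∧ (∀ t, S t = ∑' z : {z // (z ∈ O ∧
      W.γ (e.symm z) ∈ C.N n) ∧ C.co e' (W.γ (e.symm z)) = t}, u (W.γ (e.symm z))) ∧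
      ∫⁻ t, S t = ∫⁻ z in {z | z ∈ O ∧ W.γ (e.symm z) ∈ C.N n},
        u (W.γ (e.symm z)) * ‖C.jn e' W.γ e (e.symm z)‖ₑ ^ 2 := by
  classical
  set A := {z | z ∈ O ∧ W.γ (e.symm z) ∈ C.N n}
  set X := fun z => C.co e' (W.γ (e.symm z))
  have hc : ContinuousOn e.symm O := e.continuousOn_symm.mono fun z hz => (h z hz).1
  have hA : IsOpen A := hc.isOpen_inter_preimage hO (t := {v | W.γ v ∈ C.N n}) (by
    simpa only [compl_ofPred, not_not] using (thn p a n M C W hM).1.closed.isOpen_compl)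
  have h1 : ∀ z ∈ A, AnalyticAt ℂ X z ∧ LinearMap.det (fderiv ℂ X z).toLinearMap =
      C.jn e' W.γ e (e.symm z) ∧ C.jn e' W.γ e (e.symm z) ≠ 0 := fun z hz => by
    have k := At.of_target he (h z hz.1).1
    have k' := e.right_inv (h z hz.1).1
    exact ⟨k' ▸ .pi fun i => Kb.hol_co (W.tm _) hz.2 (h z hz.1).2 i e k,
      by rw [NS.jn, P277Z.jd, k'], Thn.jn W hM.fibn.hol hz.2 k (h z hz.1).2⟩
  have h2 : ContDiffOn ℝ 1 X A := fun z hz =>
    ((h1 z hz).1.contDiffAt.restrict_scalars ℝ).contDiffWithinAt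
  have h3 : ∀ z ∈ A, (fderiv ℝ X z).det ≠ 0 := fun z hz => by
    rw [Gi.detR_fderiv (h1 z hz).1.differentiableAt, (h1 z hz).2.1]
    exact pow_ne_zero _ (norm_ne_zero_iff.2 (h1 z hz).2.2)
  borelize (Pt M n)
  obtain ⟨x₀⟩ := hM.conn.toNonempty
  let F := fun z => (C.N n).indicator u (O.piecewise (fun z => W.γ (e.symm z)) (fun _ => dg n x₀) z)
  have hF : Measurable F := Measurable.comp hu (((Thn.cont W).comp_continuousOn
    hc).measurable_piecewise continuousOn_const hO.measurableSet)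
  have h4 : ∀ z ∈ A, F z = u (W.γ (e.symm z)) := fun z hz => by
    simp only [F, piecewise_eq_of_mem _ _ _ hz.1, indicator_of_mem hz.2]
  refine ⟨_, measurable_fib hA h2 hF, fun t => ?_, (lintegral_fib volume hA h2 hF).trans ?_⟩
  · rw [show Fib A X t = {z | z ∈ A ∧ X z = t} from
      Set.ext fun z => ⟨fun k => ⟨k.1, k.2.1⟩, fun k => ⟨k.1, k.2, h3 z k.1⟩⟩]
    exact tsum_congr fun z => h4 z z.2.1
  · rw [show {z | z ∈ A ∧ (fderiv ℝ X z).det ≠ 0} = A from
      Set.ext fun z => ⟨fun k => k.1, fun k => ⟨k, h3 z k⟩⟩]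
    exact setLIntegral_congr_fun hA.measurableSet fun z hz => by
      rw [Gi.detE_fderiv (h1 z hz).1.differentiableAt, (h1 z hz).2.1, h4 z hz, mul_comm]

theorem mpr (hM : M.Ok) (hu : C.Ms u) {v : W.V.X} (he' : At e' (W.γ v).1) (he : At e v)
    (h : ∃ U ∈ 𝓝 (e' (W.γ v).1), ∫⁻ b in U, C.I u (e'.symm b) < ⊤) :
    ∃ U ∈ 𝓝 (e v), ∫⁻ z in U, u (W.γ (e.symm z)) * ‖C.jn e' W.γ e (e.symm z)‖ₑ ^ 2 < ⊤ := by
  obtain ⟨U, hU, h⟩ := h
  obtain ⟨c, c0, -, hc⟩ := tonelli p a n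
  have hb := W.hol.cont.continuousAt (x := v)
  obtain ⟨O, h1, h2, h3⟩ := eventually_nhds_iff.1 (Eventually.and
    (e.open_target.mem_nhds (e.map_source he.2)) (at_ev he ((hb.eventually (at_near he')).and
      (hb.eventually ((e'.continuousAt he'.2).eventually_mem (interior_mem_nhds.2 hU))))))
  obtain ⟨S, -, k2, k3⟩ := piece W hM hu he.1 h2 fun z hz => ⟨(h1 z hz).1, (h1 z hz).2.1⟩
  obtain ⟨U', k4, k5⟩ := Kb.nice_ae (W.tm v)
    (((thn p a n M C W hM).1.freq v).mono fun _ => not_not.1) he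
  refine ⟨O ∩ U', inter_mem (h2.mem_nhds h3) k4, (lintegral_mono_set' (k5.mono
    fun z a b => ⟨b.1, a b.2⟩)).trans_lt (k3 ▸ ENNReal.lt_top_of_mul_ne_top_right
      (((hc S).1.trans ?_).trans_lt ((lintegral_mono_set interior_subset).trans_lt h)).ne c0)⟩
  rw [← lintegral_indicator isOpen_interior.measurableSet]
  refine lintegral_mono fun b => ?_
  have k6 : ∀ o (z : {z // (z ∈ O ∧ W.γ (e.symm z) ∈ C.N n) ∧
      C.co e' (W.γ (e.symm z)) = ap b o}), b ∈ interior U ∧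
        W.γ (e.symm z) = (e'.symm b, (W.γ (e.symm z)).2) := fun o z =>
    ⟨(co_eq z.2.2).1 ▸ (h1 _ z.2.1.1).2.2, Prod.ext ((h1 _ z.2.1.1).2.1.left_inv.symm.trans
      (congrArg e'.symm (co_eq z.2.2).1)) rfl⟩
  by_cases hb : b ∈ interior U
  · rw [indicator_of_mem hb]
    refine lintegral_mono fun o => (k2 _).trans_le ((ENNReal.tsum_le_tsum fun z =>
      (congrArg u (k6 o z).2).le).trans (ENNReal.tsum_comp_le_tsum_of_injective
        (f := fun z => ⟨(W.γ (e.symm z.1)).2, (k6 o z).2 ▸ z.2.1.2, (co_eq z.2.2).2⟩)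
        (fun z z' k => ?_) fun x : {x : Fin n → M.X.X //
          (e'.symm b, x) ∈ C.N n ∧ ∀ j i, C.w i (x j) = o j i} => u (e'.symm b, x)))
    refine Subtype.ext (e.symm.injOn (h1 _ z.2.1.1).1 (h1 _ z'.2.1.1).1
      (Thn.inj W z'.2.1.2.2.1 ?_))
    rw [(k6 o z).2, (k6 o z').2]
    exact congrArg (Prod.mk _) (congrArg Subtype.val k)
  · refine (lintegral_congr fun o => ?_).trans_le (lintegral_zero.trans_le zero_le)
    exact (k2 _).trans (ENNReal.tsum_eq_zero.2 fun z => (hb (k6 o z).1).elim)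

theorem mp (hM : M.Ok) (hu : C.Ms u) {y : M.Y.X} (he' : At e' y)
    (h : ∀ v, (W.γ v).1 = y → ∀ e, At e v → ∃ U ∈ 𝓝 (e v),
      ∫⁻ z in U, u (W.γ (e.symm z)) * ‖C.jn e' W.γ e (e.symm z)‖ₑ ^ 2 < ⊤) :
    ∃ U ∈ 𝓝 (e' y), ∫⁻ b in U, C.I u (e'.symm b) < ⊤ := by
  classical
  obtain ⟨c, -, c1, hc⟩ := tonelli p a n
  have key : ∀ v, (W.γ v).1 = y → ∃ (e : Chart (p + n * a) W.V.X) (O : Set (Cm (p + n * a)))
      (S : Cm (p + n * a) → ℝ≥0∞), (∀ᶠ v' in 𝓝 v, At e v' ∧ e v' ∈ O) ∧ Measurable S ∧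
      (∀ t, S t = ∑' z : {z // (z ∈ O ∧ W.γ (e.symm z) ∈ C.N n) ∧
        C.co e' (W.γ (e.symm z)) = t}, u (W.γ (e.symm z))) ∧ ∫⁻ t, S t < ⊤ := fun v hv => by
    have he := at_chart (n := p + n * a) v
    obtain ⟨U, hU, k⟩ := h v hv _ he
    obtain ⟨O, h1, h2, h3⟩ := eventually_nhds_iff.1 (Eventually.and
      ((chartAt _ v).open_target.mem_nhds ((chartAt _ v).map_source he.2)) ((at_ev he
        (W.hol.cont.continuousAt.eventually (at_near (hv.symm ▸ he')))).and hU))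
    obtain ⟨S, k1, k2, k3⟩ := piece W hM hu he.1 h2 fun z hz => ⟨(h1 z hz).1, (h1 z hz).2.1⟩
    exact ⟨_, O, S, (at_near he).and (((chartAt _ v).continuousAt he.2).eventually
      (h2.mem_nhds h3)), k1, k2,
      k3 ▸ (lintegral_mono_set fun z hz => (h1 z hz.1).2.2).trans_lt k⟩
  choose e O S h1 h2 h3 h4 using key
  obtain ⟨T, hT⟩ := (isClosed_singleton.preimage W.hol.cont).isCompact.elim_nhds_subcover_nhdsSet'
    (fun v hv => {v' | At (e v hv) v' ∧ e v hv v' ∈ O v hv}) h1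
  obtain ⟨U, k1, k2, k3⟩ := eventually_nhds_iff.1 (Eventually.and
    (e'.open_target.mem_nhds (e'.map_source he'.2)) (at_ev he'
      (W.hol.cont.isClosedMap.eventually_nhds_fiber y (mem_nhdsSet_iff_forall.1 hT))))
  have hS : Measurable fun t => ∑ v ∈ T, S v.1 v.2 t :=
    Finset.measurable_sum _ fun v _ => h2 v.1 v.2
  refine ⟨U, k2.mem_nhds k3, ((setLIntegral_mono' k2.measurableSet fun b hb => ?_).trans
    (setLIntegral_le_lintegral _ _)).trans_lt (((hc _).2 hS).trans_lt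
      (ENNReal.mul_lt_top c1.lt_top ?_))⟩
  · refine lintegral_mono fun o => ?_
    have k4 : ∀ x : {x : Fin n → M.X.X // (e'.symm b, x) ∈ C.N n ∧ ∀ j i, C.w i (x j) = o j i},
        ∃ z : Σ v : T, {z // (z ∈ O v.1.1 v.1.2 ∧ W.γ ((e v.1.1 v.1.2).symm z) ∈ C.N n) ∧
          C.co e' (W.γ ((e v.1.1 v.1.2).symm z)) = ap b o},
        W.γ ((e z.1.1.1 z.1.1.2).symm z.2) = (e'.symm b, x.1) := fun x => by
      obtain ⟨v', k, -⟩ := W.bij _ x.2.1.1 x.2.1.2.1
      obtain ⟨v, hv, a1, a2⟩ := mem_iUnion₂.1 ((k1 b hb).2 v' (congrArg Prod.fst k))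
      have k' := (congrArg W.γ a1.left_inv).trans k
      refine ⟨⟨⟨v, hv⟩, _, ⟨a2, k' ▸ x.2.1⟩, ?_⟩, k'⟩
      rw [k']
      exact congrArg₂ ap (e'.right_inv (k1 b hb).1) (funext₂ x.2.2)
    choose z hz using k4
    refine ((ENNReal.tsum_le_tsum fun x => (congrArg u (hz x)).ge).trans
      (ENNReal.tsum_comp_le_tsum_of_injective (f := z) (fun x x' k => Subtype.ext
        (congrArg Prod.snd ((hz x).symm.trans (k ▸ hz x'))))
        fun z => u (W.γ ((e z.1.1.1 z.1.1.2).symm z.2)))).trans_eq ?_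
    rw [ENNReal.tsum_sigma', tsum_fintype, ← Finset.sum_coe_sort T]
    exact Finset.sum_congr rfl fun v _ => (h3 _ _ _).symm
  · rw [lintegral_finsetSum _ fun v _ => h2 v.1 v.2]
    exact ENNReal.sum_lt_top.2 fun v _ => h4 v.1 v.2

end I1A

/-- **I1** -/
theorem i1 : I1 := fun _ _ _ _ _ hM W _ _ _ he' hu =>
  ⟨I1A.mp W hM hu he', fun h _ hv _ he => by
    subst hv
    exact I1A.mpr W hM hu he' he h⟩

end Vale.Agent.P281Z.Gt
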