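import Vale.Agent.P281Z.Gi.Sk2
import Vale.Agent.P281Z.Gi.Sh

/-!
# P281Z, block III: the calculus of the fibre integrals
-/

open scoped Manifold ContDiff Topology ENNReal
open Set Filter MeasureTheory
open Vale.Agent.P272.K Vale.Agent.P285.H281.FD
open Vale.Agent.P281Z.Gi

noncomputable section

namespace Vale.Agent.P281Z.Gt

namespace Ic

variable {p a n : ℕ} {M : Fb (p + a) p} (C : NS M)

/-- the nice points form a locally closed set -/
theorem N_eq (hM : M.Ok) : ∃ A U : Set (Pt M n), IsClosed A ∧ IsOpen U ∧ C.N n = A ∩ U := by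
  refine ⟨⋂ j, {q | M.f (q.2 j) = q.1}, Prod.fst ⁻¹' C.Qᶜ ∩ ⋂ j, (fun q => q.2 j) ⁻¹' C.Sᶜ,
    isClosed_iInter fun j => isClosed_eq
      (hM.fibn.hol.cont.comp ((continuous_apply j).comp continuous_snd)) continuous_fst,
    (C.thinQ.closed.isOpen_compl.preimage continuous_fst).inter (isOpen_iInter_of_finite fun j =>
      C.thinS.closed.isOpen_compl.preimage ((continuous_apply j).comp continuous_snd)), ?_⟩
  ext q
  simp [NS.N, Fp]

theorem sel_mem {n' : ℕ} (σ : Fin n' → Fin n) {q : Pt M n} (h : q ∈ C.N n) : sel σ q ∈ C.N n' :=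
  ⟨fun j => h.1 (σ j), h.2.1, fun j => h.2.2 (σ j)⟩

theorem meas_N (hM : M.Ok) : @MeasurableSet _ (borel _) (C.N n) := by
  borelize (Pt M n)
  obtain ⟨A, U, h1, h2, h3⟩ := N_eq (n := n) C hM
  exact h3 ▸ h1.measurableSet.inter h2.measurableSet

end Ic

open Ic in
theorem icalc_of (hm : MSM) (hi : IPR) : ICALC := by
  intro p a n M C hM
  refine ⟨(hi p a n M C hM).1, (hi p a n M C hM).2, fun u u' h _ y => ?_, fun u c h y => ?_,
    fun u u' y h => lintegral_mono fun o => ENNReal.tsum_le_tsum fun x => h _ x.2.1,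
    fun ι _ F O Φ hO hΦ hF => ?_, fun n' σ u h => ?_⟩
  · rw [I_eq, I_eq, I_eq, ← lintegral_add_left ((hm p a n M C hM u h).2 y)]
    exact lintegral_congr fun o => ENNReal.tsum_add
  · rw [I_eq, I_eq, ← lintegral_const_mul _ ((hm p a n M C hM u h).2 y)]
    exact lintegral_congr fun o => ENNReal.tsum_mul_left (a := c y)
  · classical
    have h1 := meas_N (n := n) C hM
    unfold NS.Ms
    borelize (Pt M n)
    have h2 : MeasurableSet (C.N n ∩ Prod.fst ⁻¹' O) :=
      h1.inter (hO.preimage continuous_fst).measurableSet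
    have h3 : ContinuousOn (fun q i => F i q) (C.N n ∩ Prod.fst ⁻¹' O) :=
      continuousOn_pi.2 fun i q hq =>
        (Gi.cont p a n M C (F i) hM q hq.1 (hF i q hq.1 hq.2)).mono inter_subset_left
    have h4 := (hΦ.comp (h3.measurable_piecewise (g := 0) continuousOn_const h2)).indicator h2
    refine (congrArg Measurable (funext fun q => ?_)).mp h4
    by_cases k : q ∈ C.N n
    · by_cases k' : q.1 ∈ O
      · have k2 : q ∈ C.N n ∩ Prod.fst ⁻¹' O := ⟨k, k'⟩
        rw [indicator_of_mem k2, indicator_of_mem k, indicator_of_mem k', Function.comp_apply,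
          piecewise_eq_of_mem _ _ _ k2]
      · rw [indicator_of_notMem fun k2 => k' k2.2, indicator_of_mem k, indicator_of_notMem k']
    · rw [indicator_of_notMem fun k2 => k k2.1, indicator_of_notMem k]
  · have h1 := meas_N (n := n) C hM
    have h2 : Continuous (sel σ : Pt M n → Pt M n') :=
      continuous_fst.prodMk (continuous_pi fun j => (continuous_apply _).comp continuous_snd)
    unfold NS.Ms at h ⊢
    let _ := borel (Pt M n)
    let _ := borel (Pt M n')
    refine (congrArg Measurable (funext fun q => ?_)).mp ((h.comp h2.borel_measurable).indicator h1)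
    by_cases k : q ∈ C.N n
    · rw [indicator_of_mem k, indicator_of_mem k, Function.comp_apply,
        indicator_of_mem (sel_mem C σ k)]
    · rw [indicator_of_notMem k, indicator_of_notMem k]

end Vale.Agent.P281Z.Gt
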