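import Vale.Agent.P281Z.Gt.Defs
import Vale.Agent.P281Z.An.Defs

/-!
# P281Z, block III: the tools (statements)
-/

open scoped Manifold ContDiff Topology ENNReal Matrix
open Set Filter MeasureTheory
open Vale.Agent.P272.K Vale.Agent.P285.H281.FD
open Vale.Agent.P277Z (Hol Mer Nz gen jd)
open Vale.Agent.P277Z.Slc (lin Ind LEq Snc ForW)
open Vale.Agent.P281Z.Ana (AnAt)

noncomputable section

namespace Vale.Agent.P281Z.Gt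

/-- **GROW**: the poles of a meromorphic function are killed by a power of `h` -/
def GROW : Prop := ForW fun n W _ _ => ∀ (g h : W → ℂ) (x : W), Mer n g x → Hol n h x → Nz h x →
  (∀ᶠ y in 𝓝 x, h y ≠ 0 → Hol n g y) →
  ∃ (K : ℕ) (g' : W → ℂ), Hol n g' x ∧ ∀ᶠ y in 𝓝 x, h y ≠ 0 → g' y = h y ^ K * g y

/-- **MERT**: composition of a meromorphic function with a holomorphic germ -/
def MERT : Prop := ForW fun n W _ _ => ForW fun k T _ _ =>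
  ∀ (S : Set W) (g : W → ℂ) (γ : T → W) (t : T), AnAt n S (γ t) → Mer n g (γ t) →
    (∀ᶠ y in 𝓝 (γ t), y ∉ S → Hol n g y) → HolA k n γ t → (∃ᶠ s in 𝓝 t, γ s ∉ S) →
    Mer k (fun s => g (γ s)) t

/-- **ZERO**: zeros of meromorphic sections -/
def ZERO : Prop := ∀ (n : ℕ) (V : Mf n) (S Z : Set V.X), ConnectedSpace V.X → Thin n S →
  (∀ x, ∃ g, Mer n g x ∧ ∀ᶠ y in 𝓝 x, y ∉ S → Hol n g y ∧ (y ∈ Z ↔ g y = 0)) →
  (∃ x ∉ S, x ∉ Z) → Thin n (S ∪ Z)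

/-- **VERT**: a thin set is nowhere dense in the general fibres -/
def VERT : Prop := ∀ (n p : ℕ) (V : Mf n) (Y : Mf p) (f : V.X → Y.X) (S : Set V.X), HolM n p f →
  Thin n S → ∃ Q, Thin p Q ∧ ∀ x, f x ∉ Q → x ∈ closure {x' | f x' = f x ∧ x' ∉ S}

/-- `f` is a covering with `d` sheets over the complement of `Q` -/
def Cvg (n : ℕ) {X Y : Type} [TopologicalSpace X] [ChartedSpace (Cm n) X] [TopologicalSpace Y]
    [ChartedSpace (Cm n) Y] (f : X → Y) (Q : Set Y) (d : ℕ) : Prop :=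
  ∀ y ∉ Q, ∃ σ : Fin d → Y → X, (∀ i, HolA n n (σ i) y) ∧ ∀ᶠ y' in 𝓝 y,
    Function.Injective (fun i => σ i y') ∧ range (fun i => σ i y') = f ⁻¹' {y'}

/-- **COV**: maps between manifolds of the same dimension -/
def COV : Prop := ∀ (n : ℕ) (V Y : Mf n) (f : V.X → Y.X) (S : Set V.X), HolM n n f →
  ConnectedSpace Y.X → Thin n S → ∃ (Q : Set Y.X) (d : ℕ), Thin n Q ∧ f '' S ⊆ Q ∧
    (∀ x, f x ∉ Q → Imm n n f x) ∧ Cvg n f Q d ∧ IsCoveringMapOn f Qᶜ ∧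
    ((∃ x, Imm n n f x) → 0 < d)

/-- **NORM**: norms and traces of meromorphic functions -/
def NORM : Prop := ∀ (n d : ℕ) (V Y : Mf n) (f : V.X → Y.X) (Q : Set Y.X) (g : V.X → ℂ) (y : Y.X),
  HolM n n f → Thin n Q → Dense (f ⁻¹' Q)ᶜ → Cvg n f Q d → (∀ x, f x = y → Mer n g x) →
  (∀ᶠ y' in 𝓝 y, y' ∉ Q → ∀ x, f x = y' → Hol n g x) →
  Mer n (fun y' => ∏ᶠ x ∈ f ⁻¹' {y'}, g x) y ∧ Mer n (fun y' => ∑ᶠ x ∈ f ⁻¹' {y'}, g x) y ∧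
    ∀ᶠ y' in 𝓝 y, y' ∉ Q → Hol n (fun y'' => ∏ᶠ x ∈ f ⁻¹' {y''}, g x) y' ∧
      Hol n (fun y'' => ∑ᶠ x ∈ f ⁻¹' {y''}, g x) y'

/-- **LDESC**: a function whose pull back is meromorphic is meromorphic -/
def LDESC : Prop := ∀ (n p : ℕ) (V : Mf n) (Y : Mf p) (f : V.X → Y.X) (Q : Set Y.X) (g : Y.X → ℂ)
  (y : Y.X), HolM n p f → Function.Surjective f → Thin p Q → Dense (f ⁻¹' Q)ᶜ →
  (∀ᶠ y' in 𝓝 y, y' ∉ Q → Hol p g y') → (∀ x, f x = y → Mer n (fun x' => g (f x')) x) → Mer p g y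

/-- **MERF**: the indeterminacy of meromorphic functions can be resolved -/
def MERF : Prop := ∀ (n r : ℕ) (V : Mf n) (S : Set V.X) (g : Fin r → V.X → ℂ) (P : PS r),
  Thin n S → (∀ i, Mr n S (g i)) → ∃ (V' : Mf n) (π : V'.X → V.X) (φ : V'.X → P.P.X),
    Modif n π S ∧ HolM n r φ ∧ (V.Kah → V'.Kah) ∧
    ∀ x, π x ∉ S → φ x = P.pt (Fin.cons 1 fun i => g i (π x))

/-- **PW**: models of the fibre powers -/
def PW : Prop := ∀ (p a n : ℕ) (M : Fb (p + a) p) (Q : Set M.Y.X), M.Ok → M.X.Kah → M.Y.Kah →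
  Thin p Q → (∀ y ∉ Q, RegAt (p + a) p M.f M.G y ∧ IsConnected (M.f ⁻¹' {y})) →
  Nonempty (Pw M n (p + n * a) Q)

/-- **THN**: the nice points of a model -/
def THN : Prop := ∀ (p a n : ℕ) (M : Fb (p + a) p) (C : NS M) (W : Pw M n (p + n * a) C.Q), M.Ok →
  Thin (p + n * a) {v | W.γ v ∉ C.N n} ∧ HolM (p + n * a) p (fun v => (W.γ v).1) ∧
    Function.Surjective (fun v => (W.γ v).1) ∧
    (∀ v, W.γ v ∈ C.N n → ∀ e e', At e v → At e' (W.γ v).1 → C.jn e' W.γ e v ≠ 0) ∧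
    (∀ v, (W.γ v).1 ∉ C.Q → Sbm (p + n * a) p (fun v => (W.γ v).1) v ∧
      v ∈ closure {v' | (W.γ v').1 = (W.γ v).1 ∧ W.γ v' ∈ C.N n}) ∧
    (∀ y ∉ C.Q, IsConnected {v | (W.γ v).1 = y ∧ W.γ v ∈ C.N n}) ∧
    ∀ v, (W.γ v).1 ∉ C.Q → map W.γ (𝓝 v) = 𝓝[{q | Fp q}] (W.γ v)

/-- **DOM**: a thin subset of a projective space is contained in a hypersurface -/
def DOM : Prop := ∀ (r : ℕ) (P : PS r) (B : Set P.P.X), Thin r B →
  ∃ (σ : MvPolynomial (Fin (r + 1)) ℂ) (d : ℕ), σ ≠ 0 ∧ σ.IsHomogeneous d ∧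
    ∀ q ∈ B, MvPolynomial.eval (P.hx q) σ = 0

/-- **SIEG**: the theorem of Siegel -/
def SIEG : Prop := ∀ (n : ℕ) (V : Mf n) (S : Set V.X) (g : Fin (n + 1) → V.X → ℂ), Thin n S →
  (∀ i, Mr n S (g i)) → ∃ σ : MvPolynomial (Fin (n + 1)) ℂ, σ ≠ 0 ∧
    ∀ x ∉ S, MvPolynomial.eval (fun i => g i x) σ = 0

/-- **CONST**: sums over the sheets of a covering are constant -/
def CONST : Prop := ∀ (T X E : Type) [TopologicalSpace T] [TopologicalSpace X] [TopologicalSpace E]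
  [MeasurableSpace E] (μ : Measure E) (N : Set (T × X)) (W : T × X → E) (B : Set (T × E))
  (F : T × X → ℝ≥0∞) (t₀ t₁ : T), IsCoveringMapOn (fun q : N => (q.1.1, W q.1)) Bᶜ →
  (∀ q ∈ N, (q.1, W q) ∉ B → ∀ᶠ q' in 𝓝[N] q, W q' = W q → F q' = F q) →
  (∀ᵐ o ∂μ, JoinedIn {t | (t, o) ∉ B} t₀ t₁) →
  ∫⁻ o, ∑' x : {x // (t₀, x) ∈ N ∧ W (t₀, x) = o}, F (t₀, x) ∂μ =
    ∫⁻ o, ∑' x : {x // (t₁, x) ∈ N ∧ W (t₁, x) = o}, F (t₁, x) ∂μ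

/-- **AREA**: the area formula for a local isomorphism -/
def AREA : Prop := ∀ (k : ℕ) (U : Set (Cm k)) (W : Cm k → Cm k) (F : Cm k → ℝ≥0∞), IsOpen U →
  (∀ z ∈ U, AnalyticAt ℂ W z ∧ LinearMap.det (fderiv ℂ W z : Cm k →ₗ[ℂ] Cm k) ≠ 0) →
  Measurable F → ∫⁻ o, ∑' z : {z // z ∈ U ∧ W z = o}, F z =
    ∫⁻ z in U, F z * ‖LinearMap.det (fderiv ℂ W z : Cm k →ₗ[ℂ] Cm k)‖ₑ ^ 2

end Vale.Agent.P281Z.Gt
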