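import Vale.Agent.P281Z.Gt.SkB
import Vale.Agent.P281Z.Gt.SkT

/-!
# P281Z, block III, part B: neat models with flat data
-/

open scoped Manifold ContDiff Topology
open Set Filter
open Vale.Agent.P272.K
open Vale.Agent.P277Z (at_chart)
open Vale.Agent.P277Z.Slc (Snc)

noncomputable section

namespace Vale.Agent.P281Z.Gt

/-- over a regular value the image of a component is a neighbourhood -/
theorem Nmex.img {n p : ℕ} {V : Mf n} {Y : Mf p} {f : V.X → Y.X} {κ : Type} [Fintype κ]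
    {G : κ → Set V.X} {x : V.X} {l : κ} (h : RegAt n p f G (f x)) (hf : HolM n p f) (hG : Snc n G)
    (hx : x ∈ G l) : ∀ᶠ z in 𝓝 (f x), z ∈ f '' G l := by
  classical
  obtain ⟨ζ, hζ⟩ := Hyp.of_snc hG x
  have he := at_chart (n := p) (f x)
  set e := chartAt (Cm p) (f x)
  have hi := h x rfl e he ζ hζ
  obtain ⟨Θ, -, h1, h2, h3⟩ := exists_co hi (Nat.add_sub_cancel' (ind_le hi))
    ((hζ l).1.and (hf.cont.continuousAt.eventually (e.open_source.mem_nhds he.2)))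
  have h4 : ContinuousAt (fun z => ((Sum.elim (fun _ => 0) (e z), (Θ x).2) :
      ({l // x ∈ G l} ⊕ Fin p → ℂ) × _)) (f x) := by
    refine ContinuousAt.prodMk (continuousAt_pi.2 ?_) continuousAt_const
    rintro (a | a)
    exacts [continuousAt_const, (continuous_apply a).continuousAt.comp (e.continuousAt he.2)]
  have h5 : (Sum.elim (fun _ => 0) (e (f x)), (Θ x).2) = Θ x := by
    refine Prod.ext ((funext ?_).trans (h3 x h1).symm) rfl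
    rintro (a | a)
    exacts [((hζ a).1.self_of_nhds.2 a.2).symm, rfl]
  filter_upwards [h4.eventually (h5 ▸ Θ.open_target.mem_nhds (Θ.map_source h1)),
    e.open_source.mem_nhds he.2] with z k1 k2
  have k3 := Θ.map_target k1
  have k4 := h3 _ k3
  rw [Θ.right_inv k1] at k4
  exact ⟨_, (h2 k3).1.1 (congrFun k4 (.inl ⟨l, hx⟩)).symm,
    e.injOn (h2 k3).2 k2 (funext fun a => (congrFun k4 (.inr a)).symm)⟩

theorem nmex (h1 : MERF) (h2 : BCV) (h3 : GEN) (h4 : TRF) (h5 : Nt.NEATF) (h6 : Pb.PSEX) :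
    NMEX := by
  classical
  intro p a m M hM D
  obtain ⟨P⟩ := h6 D.v
  obtain ⟨Y', π, φ, k1, k2, k3, k4⟩ := h1 p D.v M.Y D.Q D.z P D.thinQ D.zmr
  obtain ⟨X', f', κ', _, G', δ', u, Q₁, hM', hv⟩ := h2 _ p m M Y' π _ hM k1 (k3 hM.kahY)
  obtain ⟨Q₂, t2, r2⟩ := h3 _ p X' Y' f' κ' G' hM'.ok.fibn.hol hM'.ok.snc
  choose S hS hS' using hM'.vert
  have tS : Thin p (⋃ l : {l // δ' l = 1}, S l.1 l.2) := Thin.iUnion fun l => hS l.1 l.2
  have tQ := ((hv.thin.union (k1.pre_thin D.thinQ)).union t2).union tS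
  obtain ⟨D', e', hD'⟩ := h4 p a m _ M u π Q₁ D _ hM hM' hv tQ
    (fun y hy => ⟨fun k => hy (.inl (.inl (.inl k))), fun k => hy (.inl (.inl (.inr k))),
      r2 y fun k => hy (.inl (.inr k))⟩)
    fun l hl x hx => .inr (mem_iUnion.2 ⟨⟨l, hl⟩, hS' l hl ⟨x, hx, rfl⟩⟩)
  obtain ⟨S', φ', k5, k6⟩ := hD' P φ k2 fun y hy => k4 y fun k => hy (.inl (.inl (.inr k)))
  obtain ⟨M₁, u₁, v₁, r, E, a1, a2, a3, a4, -, -, a5, a6, a7, a8, a9, a10, a11, a12⟩ :=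
    h5 _ p _ _ hM'.ok tQ
  have hM₁ : Std M₁ m := ⟨a1, a3 hM'.kahX, a4 hM'.kahY, a12 hM'.vert, fun l => by
    rcases a6 l with k | k | ⟨l', k⟩ <;> rw [k]
    exacts [⟨m, mul_one _⟩, ⟨0, by simp⟩, hM'.itg l'], hM.two⟩
  have tE := snc_thin_off a7
  obtain ⟨B, hB⟩ := a2.mv
  obtain ⟨D₁, e₁, hD₁⟩ := h4 p a m M₁ _ u₁ v₁ (off E)ᶜ D' _ hM' hM₁
    ⟨a2, tE, fun y hy => ⟨(a9 y (not_not.1 hy)).2.1, (a9 y (not_not.1 hy)).2.2.2⟩⟩ tE
    (fun y hy => ⟨hy, e' ▸ (a9 y (not_not.1 hy)).1, (a9 y (not_not.1 hy)).2.2.1⟩)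
    fun l hl x hx k => by
      obtain ⟨T, t1, t2⟩ := hM₁.vert l hl
      obtain ⟨z, z1, z2⟩ := ((t1.freq _).and_eventually
        (Nmex.img (a9 _ k).2.2.1 a1.fibn.hol a1.snc hx)).exists
      exact z1 (t2 z2)
  obtain ⟨S₁, φ₁, k7, k8⟩ := hD₁ S' (fun y => φ' (v₁ y)) (k5.comp hB.hol)
    fun y hy => k6 _ (a9 y (not_not.1 hy)).1
  exact ⟨_, ⟨M₁, hM₁, D₁, S₁, φ₁, k7, e₁ ▸ k8, r, E, a7, a8, fun y => by rw [e₁]; exact not_not,
    fun x hx => by rw [e₁]; exact not_not.2 (a10 x hx), a5⟩, hM'.ok, ⟨u, π, hv.sq⟩, u₁, v₁, a2,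
    fun x hx l hl => (a11 l).resolve_left fun k => k.1 x hl hx⟩

end Vale.Agent.P281Z.Gt
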