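import Vale.Agent.P281Z.Gt.SkB
import Vale.Agent.P281Z.Sc.Sy

/-!
# P281Z, block III, part B: the rank condition
-/

open scoped Manifold ContDiff Topology
open Set Filter MeasureTheory
open Vale.Agent.P272.K Vale.Agent.P285.H281.FD
open Vale.Agent.P277Z (Hol at_chart jd hol_const)
open Vale.Agent.P277Z.Slc (Ind dd)

noncomputable section

namespace Vale.Agent.P281Z.Gt

namespace RkH

section gen

variable {n : ℕ} {X : Type} [TopologicalSpace X] [ChartedSpace (Cm n) X]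
  [IsManifold 𝓘(ℂ, Cm n) ω X] {x : X}

/-- the identity theorem for the rank of ratios -/
theorem ind_loc {α : Type} [Fintype α] {u : α → X → ℂ} {w : X → ℂ} (hu : ∀ b, Hol n (u b) x)
    (hw : Hol n w x) {P : X → Prop}
    (hP : ∀ᶠ z in 𝓝 x, P z ↔ w z ≠ 0 ∧ Ind n (fun b y => u b y / w y) z)
    (k : ∃ᶠ y in 𝓝 x, ∀ᶠ z in 𝓝 y, ¬ P z) : ∀ᶠ z in 𝓝 x, ¬ P z := by
  classical
  have he := at_chart (n := n) x
  set e := chartAt (Cm n) x
  let D : (α → Fin n) → X → ℂ := fun τ y => w y * (Matrix.of fun k (b : α) =>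
    w y * dd (u b) e y (Pi.single (τ k) 1) - u b y * dd w e y (Pi.single (τ k) 1)).det
  have h2 : ∀ᶠ y in 𝓝 x, P y ↔ ∃ τ, D τ y ≠ 0 := by
    filter_upwards [hP, eventually_all.2 fun b => (hu b).near, hw.near, at_near he]
      with y k1 k4 k2 k3
    have k5 : w y ≠ 0 → (Ind n (fun b y => u b y / w y) y ↔ ∃ τ, D τ y ≠ 0) := fun k6 => by
      rw [ind_iff_minor (fun b => (k4 _).div k2 k6) k3]
      refine exists_congr fun τ => ?_
      simp only [dd_div (k4 _) k2 k6 k3]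
      have k7 : ∀ (r : ℂ) (A : α → α → ℂ), (Matrix.of fun k b => r * A k b).det =
          (∏ _k : α, r) * (Matrix.of A).det :=
        fun r A => Matrix.det_mul_column (fun _ => r) (Matrix.of A)
      rw [k7, mul_ne_zero_iff, mul_ne_zero_iff]
      exact and_congr_left fun _ => iff_of_true
        (Finset.prod_ne_zero_iff.2 fun _ _ => inv_ne_zero (pow_ne_zero 2 k6)) k6
    exact k1.trans ⟨fun k => (k5 k.1).1 k.2,
      fun ⟨τ, k⟩ => ⟨left_ne_zero_of_mul k, (k5 (left_ne_zero_of_mul k)).2 ⟨τ, k⟩⟩⟩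
  have h3 : ∀ τ, ∀ᶠ y in 𝓝 x, D τ y = 0 := fun τ => hol_id
    (hw.mul (hol_det' fun k b => (hw.mul (hol_dd (hu _) he _)).sub ((hu _).mul (hol_dd hw he _))))
    ((k.and_eventually h2.eventually_nhds).mono fun y hy => (hy.1.and hy.2).mono fun z hz =>
      by_contra fun e => hz.1 (hz.2.2 ⟨τ, e⟩))
  filter_upwards [h2, eventually_all.2 h3] with y k1 k2 k3 using (k1.1 k3).elim fun τ k => k (k2 τ)

theorem jd_iff {h : Fin n → X → ℂ} {e : Chart n X} (he : At e x) (hh : ∀ i, Hol n (h i) x) :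
    jd h e x ≠ 0 ↔ Ind n h x := by
  rw [jd, fderiv_pi fun i => (hh i e he).differentiableAt, Ne,
    LinearMap.det_eq_zero_iff_ker_ne_bot, not_not, LinearMap.ker_eq_bot,
    LinearMap.injective_iff_surjective]
  exact ⟨fun k => Ind.of_chart hh he ((P277Z.Slc.ind_iff_surj _).2 k),
    fun k => (P277Z.Slc.ind_iff_surj _).1 (k.2 e he)⟩

omit [IsManifold 𝓘(ℂ, Cm n) ω X] in
theorem ind_app {p a : ℕ} {u : Fin p → X → ℂ} {w : Fin a → X → ℂ} :
    Ind n (Fin.append u w) x ↔ Ind n (Sum.elim w u) x := by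
  have e : ∀ b, Fin.append u w (finSumFinEquiv (Sum.swap b)) = Sum.elim w u b := by
    rintro (b | b) <;> simp
  let σ := (Equiv.sumComm (Fin a) (Fin p)).trans finSumFinEquiv
  refine ⟨fun k => funext e ▸ k.comp σ σ.injective, fun k => ?_⟩
  rw [show Fin.append u w = fun i => Sum.elim w u (σ.symm i) from
    funext fun i => (congrArg _ (σ.apply_symm_apply i)).symm.trans (e _)]
  exact k.comp _ σ.symm.injective

end gen

variable {p a n k : ℕ} {M : Fb (p + a) p} {C : NS M} {x : M.X.X} {e' e₁ : Chart p M.Y.X}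
  {F F' : Fin (a + 1) → Chart p M.Y.X → Pt M n → ℂ}

theorem dg_mem (hx : x ∉ C.S) : dg n x ∈ C.N n :=
  ⟨fun _ => rfl, fun k => hx (C.sub x k), fun _ => hx⟩

theorem hol_dg (hM : M.Ok) {G : Chart p M.Y.X → Pt M n → ℂ} (h : C.PF k G) (hx : x ∉ C.S)
    (he : At e' (M.f x)) : Hol (p + a) (fun y => G e' (dg n y)) x :=
  h.hol e' _ (dg_mem hx) he _ _ (dg n) x
    ⟨hM.fibn.hol.at x, fun _ => holM_id.at x, .of_forall fun _ _ => rfl⟩ rfl

variable (F e' x) in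
/-- the rank condition at a point -/
def P : Prop := F 0 e' (dg n x) ≠ 0 ∧ Ind (p + a) (Sum.elim
  (fun (i : Fin a) y => F i.succ e' (dg n y) / F 0 e' (dg n y)) fun c y => e' (M.f y) c) x

theorem rk_ex (hM : M.Ok) (h : ∀ j, C.PF k (F j)) :
    C.RK F ↔ ∃ x ∉ C.S, ∃ e', At e' (M.f x) ∧ P x e' F := by
  have k : ∀ x ∉ C.S, ∀ e e', At e x → At e' (M.f x) → F 0 e' (dg n x) ≠ 0 →
      (jdw (fun i x' => F (Fin.succ i) e' (dg n x') / F 0 e' (dg n x')) e e' x ≠ 0 ↔ _) :=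
    fun x hx e e' he he' h0 => (jd_iff he (Fin.addCases
      (fun c => by simpa only [Fin.append_left] using hM.fibn.hol.hol (hol_chart he' c))
      fun c => by
        simpa only [Fin.append_right] using
          (hol_dg hM (h _) hx he').div (hol_dg hM (h 0) hx he') h0)).trans ind_app
  exact ⟨fun ⟨x, hx, e, e', a, b, c, d⟩ => ⟨x, hx, e', b, c, (k x hx e e' a b c).1 d⟩,
    fun ⟨x, hx, e', b, c, d⟩ => ⟨x, hx, _, e', at_chart x, b, c, (k x hx _ e' (at_chart x) b c).2 d⟩⟩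

theorem P.tr (hM : M.Ok) (h : ∀ j, C.PF k (F' j)) (hx : x ∉ C.S) (he : At e' (M.f x))
    (he₁ : At e₁ (M.f x)) (hP : P x e' F) (hF : ∀ y ∉ C.S, M.f y = M.f x →
      ∃ t : ℂ, t ≠ 0 ∧ ∀ j, F' j e₁ (dg n y) = t * F j e' (dg n y)) : P x e₁ F' := by
  have hf := hM.fibn.hol
  have hs : ∀ y, M.f y = M.f x → Sbm (p + a) p M.f y := fun y =>
    (C.reg _ (dg_mem (n := 0) hx).2.1).sbm hf hM.snc
  obtain ⟨V, i, hi⟩ := fib_emb rfl hf hs
  obtain ⟨s, rfl⟩ := hi.ex (y := x) rfl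
  obtain ⟨t, t1, t2⟩ := hF _ hx rfl
  have h0 : F' 0 e₁ (dg n (i s)) ≠ 0 := t2 0 ▸ mul_ne_zero t1 hP.1
  refine ⟨h0, hi.ind_fib hf (hs _ rfl) (fun _ => (hol_dg hM (h _) hx he₁).div
    (hol_dg hM (h 0) hx he₁) h0) he₁ (ind_congr (hi.fib_ind hf he hP.2) fun b => ?_)⟩
  filter_upwards [hi.hol.cont.continuousAt.eventually (C.thinS.closed.isOpen_compl.mem_nhds hx)]
    with s' hs'
  obtain ⟨t, t1, t2⟩ := hF _ hs' (hi.fib s')
  rw [t2, t2, mul_div_mul_left _ _ t1]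

end RkH

open RkH

/-- **OPENZ** -/
theorem openz : OPENZ := by
  intro p a m Z U h1 h2
  have hM := Z.std.ok
  have := hM.conn
  have := hM.fibn.connY
  have hQ := Z.D.thinQ
  have hz : ∀ y ∉ Z.D.Q, ∀ j, Hol p (Z.D.z j) y := fun y hy j => (Z.D.zmr j).hol y hy
  have h3 : Dense {y | Ind p Z.D.z y} := dense_closure.1 (hQ.2.mono (dense_of_loc hQ.preconn
    (fun y hy => ind_loc (hz y hy) (hol_const 1 y) (.of_forall fun _ => by simp)) Z.D.zind))
  have h4 : IsOpen {y | y ∉ Z.D.Q ∧ (fun j => Z.D.z j y) ∈ Z.D.O} :=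
    isOpen_iff_mem_nhds.2 fun y hy => (eventually_mem_set.2 (hQ.closed.isOpen_compl.mem_nhds hy.1)).and
      ((continuousAt_pi.2 fun j => (hz y hy.1 j).cont).eventually (Z.D.opn.mem_nhds hy.2))
  have h5 : IsOpen {y | Ind p Z.D.z y} := isOpen_iff_mem_nhds.2 fun y hy => hy.near
  obtain ⟨y, k1, k2⟩ := h3.exists_mem_open h4 Z.D.zO
  obtain ⟨x, rfl⟩ := hM.fibn.surj y
  obtain ⟨x, ⟨k3, k4⟩, k5, k6, k7⟩ := (h2.inter_of_isOpen_left Z.D.thinS.2 h1).exists_mem_open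
    ((h5.inter h4).preimage hM.fibn.hol.cont) ⟨x, k1, k2⟩
  have k8 := ((Z.D.reg _ k6).sbm hM.fibn.hol hM.snc rfl).ind (hM.fibn.hol.at x) k5
  have k9 : HolA (p + a) Z.D.v (fun x j => Z.D.z j (Z.M.f x)) x :=
    .of_hol (continuousAt_pi.2 fun j => (k8.1 j).cont) (at_chart _) k8.1
  have k10 := ((sbm_iff_ind k9 (at_chart _)).2 k8).ev k9
    (((h1.inter Z.D.thinS.closed.isOpen_compl).mem_nhds ⟨k3, k4⟩ :))
  exact ⟨interior {c | c ∈ Z.D.O ∧ ∃ x ∈ U, x ∉ Z.D.S ∧ (fun j => Z.D.z j (Z.M.f x)) = c},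
    isOpen_interior, ⟨_, mem_interior_iff_mem_nhds.2 ((eventually_mem_set.2 (Z.D.opn.mem_nhds k7)).and
      (k10.mono fun _ ⟨x, b, c⟩ => ⟨x, b.1, b.2, c⟩))⟩, fun _ h => (interior_subset h).1,
    fun _ h => (interior_subset h).2⟩

/-- **RKS** -/
theorem rks : RKS := by
  intro p a m Z n _ k F hF h
  have hM := Z.std.ok
  have := hM.conn
  have hf := hM.fibn.hol
  have hS := Z.D.thinS
  rw [rk_ex hM hF] at h
  have h1 : ∀ x ∉ Z.D.S, ∀ e' : Chart p Z.M.Y.X, At e' (Z.M.f x) →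
      ∀ᶠ y in 𝓝 x, y ∉ Z.D.S ∧ At e' (Z.M.f y) :=
    fun x hx e' he => (eventually_mem_set.2 (hS.closed.isOpen_compl.mem_nhds hx)).and
      (hf.cont.continuousAt.eventually (at_near he))
  refine ⟨fun j => ?_, fun T hT => ?_⟩
  · obtain ⟨x, hx, e', he, k1, k2⟩ := h
    refine Fin.cases ⟨_, dg_mem hx, e', he, k1⟩ (fun i => by_contra fun k3 => ?_) j
    refine (k2.2 _ (at_chart x)).ne_zero (.inl i) ((P277Z.Slc.dd_congr (b := fun _ => 0)
      ((h1 x hx e' he).mono fun y hy => div_eq_zero_iff.2 (.inl (by_contra fun k4 =>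
        k3 ⟨_, dg_mem hy.1, e', hy.2, k4⟩))) (at_chart x)).trans (by simp [dd]))
  obtain ⟨O, k1, k2, k3, k4⟩ := openz p a m Z {x | x ∉ Z.D.S ∧ ∃ e', At e' (Z.M.f x) ∧ P x e' F}
    (isOpen_iff_mem_nhds.2 fun x ⟨hx, e', he, b, c⟩ => by
      filter_upwards [h1 x hx e' he, (hol_dg hM (hF 0) hx he).ne_near b, c.near] with y u v w
        using ⟨u.1, e', u.2, v, w⟩)
    (dense_closure.1 (hS.2.mono (dense_of_loc hS.preconn (fun x hx => by
      have he := at_chart (n := p) (Z.M.f x)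
      set e' := chartAt (Cm p) (Z.M.f x)
      have w := hol_dg hM (hF 0) hx he
      refine ind_loc (u := Sum.elim (fun (i : Fin a) y => F i.succ e' (dg n y))
        fun c y => F 0 e' (dg n y) * e' (Z.M.f y) c) (Sum.rec (fun _ => hol_dg hM (hF _) hx he)
          fun c => w.mul (hf.hol (hol_chart he c))) w ?_
      filter_upwards [h1 x hx e' he, w.near] with y u v
      have c : F 0 e' (dg n y) ≠ 0 → ∀ b, ∀ᶠ z in 𝓝 y, Sum.elim
          (fun (i : Fin a) y => F i.succ e' (dg n y) / F 0 e' (dg n y))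
            (fun c y => e' (Z.M.f y) c) b z = Sum.elim (fun (i : Fin a) y => F i.succ e' (dg n y))
          (fun c y => F 0 e' (dg n y) * e' (Z.M.f y) c) b z / F 0 e' (dg n z) := by
        rintro c (b | b)
        · exact .of_forall fun _ => rfl
        · exact (v.ne_near c).mono fun z hz => (mul_div_cancel_left₀ _ hz).symm
      refine ⟨fun ⟨_, e₁, b, d⟩ => ?_, fun d => ⟨u.1, e', u.2, d.1,
        ind_congr d.2 fun b => (c d.1 b).mono fun _ => Eq.symm⟩⟩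
      have d' := d.tr hM hF u.1 b u.2 fun z hz l => ⟨_, pow_ne_zero k
        (jacM_det_ne_zero (l ▸ u.2 : At e' (Z.M.f z)) (l ▸ b)),
        fun j => (hF j).chg e' e₁ _ (dg_mem hz) (l ▸ u.2 : At e' (Z.M.f z)) (l ▸ b : At e₁ (Z.M.f z))⟩
      exact ⟨d'.1, ind_congr d'.2 (c d'.1)⟩) (h.imp fun _ b => ⟨b.1, b⟩))))
  obtain ⟨c, c1, c2⟩ := Measure.exists_mem_of_measure_ne_zero_of_ae
    (k1.measure_pos volume k2).ne' (ae_restrict_of_ae hT)
  obtain ⟨x, ⟨hx, e', he, b⟩, -, d⟩ := k4 c c1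
  exact ⟨c, c2 (k3 c1), k3 c1, fun F' hF' l => (rk_ex hM hF').2 ⟨x, hx, e', he,
    b.tr hM hF' hx he he fun z hz u => ⟨1, one_ne_zero, fun j => by
      rw [one_mul]
      exact l j _ (dg_mem hz) (by rw [← d]; exact congrArg (fun y j => Z.D.z j y) u) e'
        (u ▸ he : At e' (Z.M.f z))⟩⟩⟩

end Vale.Agent.P281Z.Gt
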