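import Vale.Agent.P281Z.Gt.SkB
import Vale.Agent.P281Z.U1.Detx
import Vale.Agent.P281Z.Md.Ext
import Vale.Agent.P281Z.Gi.Sh
import Vale.Agent.P271.H879.Null

/-!
# P281Z, block III: the nice structure of a model
-/

open scoped Manifold ContDiff Topology ENNReal
open Set Filter Function MeasureTheory
open Vale.Agent.P272.K Vale.Agent.P285.H281.FD
open Vale.Agent.P277Z (Hol Mer Nz gen at_chart nz_of_gen gen_of_open gen_near gen_frequently)
open Vale.Agent.P277Z.Slc (LEq Snc)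
open Vale.Agent.P277Z.Hir (Cpb)
open Vale.Agent.P281Z.U1.Detx (dW jdw_eq at_refl)

set_option linter.unusedSectionVars false

noncomputable section

namespace Vale.Agent.P281Z.Gt

namespace Trf

section cpb

variable {T : Type} {l : Filter T} {f g f' g' : T → ℝ}

theorem cpb_mul (h : Cpb l f g) (h' : Cpb l f' g') (f0 : ∀ t, 0 ≤ f t) (g0 : ∀ t, 0 ≤ g t)
    (f0' : ∀ t, 0 ≤ f' t) (g0' : ∀ t, 0 ≤ g' t) :
    Cpb l (fun t => f t * f' t) fun t => g t * g' t :=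
  let ⟨C, hC, a⟩ := h
  let ⟨C', hC', a'⟩ := h'
  ⟨C * C', mul_pos hC hC', (a.and a').mono fun t b =>
    ⟨mul_mul_mul_comm C _ C' _ ▸ mul_le_mul b.1.1 b.2.1 (f0' t) (mul_nonneg hC.le (g0 t)),
      mul_mul_mul_comm C _ C' _ ▸ mul_le_mul b.1.2 b.2.2 (g0' t) (mul_nonneg hC.le (f0 t))⟩⟩

theorem cpb_pow (h : Cpb l f g) (f0 : ∀ t, 0 ≤ f t) (g0 : ∀ t, 0 ≤ g t) (k : ℕ) :
    Cpb l (fun t => f t ^ k) fun t => g t ^ k :=
  let ⟨C, hC, a⟩ := h
  ⟨C ^ k, pow_pos hC k, a.mono fun t b =>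
    ⟨mul_pow C _ k ▸ pow_le_pow_left₀ (f0 t) b.1 k, mul_pow C _ k ▸ pow_le_pow_left₀ (g0 t) b.2 k⟩⟩

theorem cpb_of {a b : ℝ} (ha : Tendsto f' l (𝓝 a)) (hb : Tendsto g' l (𝓝 b)) (a0 : 0 < a)
    (b0 : 0 < b) (f0 : ∀ t, 0 ≤ f t) (g0 : ∀ t, 0 ≤ g t) (e : ∀ᶠ t in l, f t * f' t = g t * g' t) :
    Cpb l f g := by
  refine ⟨b / a + a / b + 1, by positivity, ?_⟩
  filter_upwards [e, ha.eventually_const_lt a0, hb.eventually_const_lt b0,
    (hb.div ha a0.ne').eventually_lt_const (lt_add_one _),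
    (ha.div hb b0.ne').eventually_lt_const (lt_add_one _)] with t k1 k2 k3 k4 k5
  have k6 : f t = g' t / f' t * g t := by field_simp; linarith
  have k7 : g t = f' t / g' t * f t := by field_simp; linarith
  exact ⟨k6.trans_le (mul_le_mul_of_nonneg_right (by linarith [div_pos a0 b0, Pi.div_apply g' f' t])
    (g0 t)), k7.trans_le (mul_le_mul_of_nonneg_right
      (by linarith [div_pos b0 a0, Pi.div_apply f' g' t]) (f0 t))⟩

end cpb

section man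

variable {n : ℕ} {X X₁ : Type} [TopologicalSpace X] [ChartedSpace (Cm n) X]
  [IsManifold 𝓘(ℂ, Cm n) ω X] [TopologicalSpace X₁] [ChartedSpace (Cm n) X₁]
  [IsManifold 𝓘(ℂ, Cm n) ω X₁]

theorem gen_pull {u : X₁ → X} {B : Set X} (h : Modif n u B) {y : X₁} {P : X → Prop}
    (k : ∀ᶠ z in gen {u y}, P z) : ∀ᶠ z in gen {y}, P (u z) := by
  refine gen_of_open ((h.hol.cont.continuousAt.eventually (gen_near k)).eventually_nhds.mono
    fun z a => frequently_frequently_nhds.1 (((mem_closure_iff_frequently.1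
      (h.2.dense z)).and_eventually a).mono fun w b => ?_))
  exact ((h.sbm b.1).freq (h.hol.at w) (gen_frequently b.2)).mono fun _ c =>
    h.hol.cont.continuousAt.eventually c

theorem mr_pull {u : X₁ → X} {B S : Set X} {S₁ : Set X₁} (h : Modif n u B) {g : X → ℂ}
    (hg : Mr n S g) (k : ∀ x ∉ S₁, u x ∉ S) : Mr n S₁ fun x => g (u x) :=
  ⟨fun x hx => h.hol.hol (hg.hol _ (k x hx)), fun x =>
    let ⟨_, _, a1, a2, a3, a4⟩ := hg.mer (u x)
    ⟨_, _, h.hol.hol a1, h.hol.hol a2, nz_of_gen (gen_pull h (Nz.gen a3 a2)), gen_pull h a4⟩⟩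

/-- the image of a thin set is null -/
theorem null_img [SecondCountableTopology X] {A D : Set X} (hA : Thin n A) {W : X → Cm n}
    (hW : ∀ z ∈ D, AnV n W z) : volume (W '' (A ∩ D)) = 0 := by
  have key : ∀ z ∈ A ∩ D, ∃ N ∈ 𝓝[A ∩ D] z, volume (W '' N) = 0 := fun z hz => by
    obtain ⟨g, h1, h2, h3⟩ := hA.nz z
    have he := at_chart (n := n) z
    generalize chartAt (Cm n) z = e at he
    obtain ⟨r, hr, hB⟩ := Metric.eventually_nhds_iff_ball.1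
      ((h1 e he).eventually_analyticAt.and (hW z hz.2 e he).eventually_analyticAt)
    have h4 : ∀ᶠ y in 𝓝 z, At e y ∧ e y ∈ Metric.ball (e z) r :=
      (at_near he).and ((e.continuousAt he.2).eventually (Metric.ball_mem_nhds _ hr))
    obtain ⟨y₀, k0, k1⟩ := ((not_eventually.1 h2).and_eventually h4).exists
    refine ⟨{y | (At e y ∧ e y ∈ Metric.ball (e z) r) ∧ g y = 0}, ?_, measure_mono_null ?_
      (addHaar_image_eq_zero_of_differentiableOn_of_addHaar_eq_zero volume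
        (f := fun t => W (e.symm t)) (fun t ht => ((hB t ht.1).2.differentiableAt.restrictScalars
          ℝ).differentiableWithinAt) (P271.H879.null_zeros volume (f := fun t => g (e.symm t))
            (fun t ht => (hB t ht).1.differentiableAt.differentiableWithinAt) k1.2
            (by rwa [k1.1.left_inv])))⟩
    · filter_upwards [self_mem_nhdsWithin, nhdsWithin_le_nhds h3, nhdsWithin_le_nhds h4]
        with y a b c using ⟨c, b a.1⟩
    · rintro _ ⟨y, ⟨⟨a, b⟩, c⟩, rfl⟩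
      exact ⟨e y, ⟨b, by rwa [a.left_inv]⟩, congrArg W a.left_inv⟩
  choose! N h1 h2 using key
  obtain ⟨t, k1, k2, k3⟩ := TopologicalSpace.countable_cover_nhdsWithin h1
  refine measure_mono_null ((image_mono k3).trans (image_iUnion₂ _ _).le)
    ((measure_biUnion_null_iff k2).2 fun z hz => h2 z (k1 hz))

end man

variable {p a n : ℕ} {M₁ M : Fb (p + a) p}

/-- the weight of the bounds -/
def wt (w : Fin a → M.X.X → ℂ) (k : ℕ) (e : Chart (p + a) M.X.X) (e' : Chart p M.Y.X)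
    (ζ : M.κ → M.X.X → ℂ) (x : M.X.X) : ℝ :=
  ‖jdw w e e' x‖ ^ k * ∏ l, ‖ζ l x‖ ^ ((k : ℝ) * M.δ l)

theorem wt_eq (w : Fin a → M.X.X → ℂ) (k : ℕ) (e : Chart (p + a) M.X.X) (e' : Chart p M.Y.X)
    (ζ : M.κ → M.X.X → ℂ) (x : M.X.X) :
    wt w k e e' ζ x = (‖jdw w e e' x‖ * ∏ l, ‖ζ l x‖ ^ (M.δ l : ℝ)) ^ k := by
  simp only [wt, mul_pow, ← Finset.prod_pow, mul_comm (k : ℝ), Real.rpow_mul (norm_nonneg _),
    Real.rpow_natCast]

theorem wt_nn {w : Fin a → M.X.X → ℂ} {k : ℕ} {e : Chart (p + a) M.X.X} {e' : Chart p M.Y.X}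
    {ζ : M.κ → M.X.X → ℂ} {x : M.X.X} : 0 ≤ wt w k e e' ζ x := by
  unfold wt
  positivity

theorem wt_cont (hM : M.Ok) (C : NS M) (k : ℕ) {e : Chart (p + a) M.X.X} {e' : Chart p M.Y.X}
    {ζ : M.κ → M.X.X → ℂ} {x : M.X.X} (hx : x ∉ C.S) (he : At e x) (he' : At e' (M.f x))
    (hζ : ∀ l, LEq (p + a) (M.G l) x (ζ l)) :
    ContinuousAt (wt C.w k e e' ζ) x ∧ 0 < wt C.w k e e' ζ x := by
  have h : ∀ l, ‖ζ l x‖ ≠ 0 := fun l => norm_ne_zero_iff.2 (mt (hζ l).mem.1 (C.offG x hx l))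
  exact ⟨((U1.Detx.hol (hM.fibn.hol.at x) (fun i => (C.mr i).hol x hx) he he').cont.norm.pow k).mul
    (tendsto_finsetProd _ fun l _ => (hζ l).hol.cont.norm.rpow_const (.inl (h l))),
    mul_pos (pow_pos (norm_pos_iff.2 (C.et x hx e e' he he')) k) (Finset.prod_pos fun l _ =>
      Real.rpow_pos_of_pos ((norm_nonneg _).lt_of_ne' (h l)) _)⟩

/-- the hypotheses -/
structure H (C : NS M) (u : M₁.X.X → M.X.X) (v : M₁.Y.X → M.Y.X) (Q : Set M₁.Y.X) : Prop where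
  ok : M.Ok
  ok₁ : M₁.Ok
  sq : M₁.Sq M u v
  thin : Thin p Q
  imv : ∀ y ∉ Q, Imm p p v y
  imu : ∀ x, M₁.f x ∉ Q → Imm (p + a) (p + a) u x
  nQ : ∀ y ∉ Q, v y ∉ C.Q
  reg : ∀ y ∉ Q, RegAt (p + a) p M₁.f M₁.G y
  klt : ∀ l, M₁.δ l = 1 → ∀ x ∈ M₁.G l, M₁.f x ∈ Q

/-- the map between the fibre powers -/
def pl (u : M₁.X.X → M.X.X) (v : M₁.Y.X → M.Y.X) (q : Pt M₁ n) : Pt M n :=
  (v q.1, fun j => u (q.2 j))

/-- the bad set -/
def bad (C : NS M) (u : M₁.X.X → M.X.X) (Q : Set M₁.Y.X) : Set M₁.X.X :=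
  u ⁻¹' C.S ∪ (M₁.f ⁻¹' Q ∪ (off M₁.G)ᶜ)

namespace H

variable {C : NS M} {u : M₁.X.X → M.X.X} {v : M₁.Y.X → M.Y.X} {Q : Set M₁.Y.X} (h : H C u v Q)
  {x : M₁.X.X} {y : M₁.Y.X}

include h

theorem hu : HolM (p + a) (p + a) u := h.sq.mu.elim fun _ k => k.hol

theorem hv : HolM p p v := h.sq.mv.elim fun _ k => k.hol

theorem inj (hx : M₁.f x ∉ Q) {x' : M₁.X.X} (k : u x' = u x) : x' = x :=
  h.sq.mu.elim fun _ c => c.inj_imm (h.imu x hx) k

theorem lift (hy : y ∉ Q) {x : M.X.X} (hx : M.f x = v y) : ∃ x', u x' = x ∧ M₁.f x' = y := by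
  obtain ⟨_, c⟩ := h.sq.mu
  obtain ⟨_, d⟩ := h.sq.mv
  obtain ⟨x', rfl⟩ := c.surj x
  exact ⟨x', rfl, d.inj_imm (h.imv y hy) ((h.sq.comm x').symm.trans hx)⟩

theorem base {y₀ : M.Y.X} {P : M.Y.X → Prop} (k : ∀ᶠ y in 𝓝 y₀, P y) : ∃ y ∉ Q, P (v y) := by
  obtain ⟨_, d⟩ := h.sq.mv
  obtain ⟨y', a, b⟩ := ((mem_closure_iff_frequently.1
    (d.dense_img h.thin.2 y₀)).and_eventually k).exists
  obtain ⟨y, rfl⟩ := d.surj y'
  exact ⟨y, fun c => a ⟨y, c, rfl⟩, b⟩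

theorem thinS : Thin (p + a) (bad C u Q) :=
  have := h.ok₁.conn
  h.sq.mu.elim fun _ c => (c.pre_thin C.thinS).union
    ((h.thin.pre_surj h.ok₁.fibn.hol h.ok₁.fibn.surj).union (snc_thin_off h.ok₁.snc))

theorem fibre (hy : y ∉ Q) : ∃ (F : Mf a) (i : F.X → M₁.X.X), Nonempty F.X ∧
    Emb a (p + a) i (M₁.f ⁻¹' {y}) ∧ Emb a (p + a) (fun z => u (i z)) (M.f ⁻¹' {v y}) ∧
    Thin a (i ⁻¹' bad C u Q) := by
  obtain ⟨F, i, hi, hS⟩ := (h.reg y hy).fib rfl h.ok₁.fibn.hol h.ok₁.snc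
  have := h.ok₁.conn
  have := hi.conn.2 (h.ok₁.fibn.conn_all y)
  have h1 : ∀ z, M₁.f (i z) ∉ Q := fun z => (hi.fib z).symm ▸ hy
  have h2 : ∀ x, M.f x = v y → ∃ z, u (i z) = x := fun x hx =>
    let ⟨_, a, b⟩ := h.lift hy hx
    let ⟨z, c⟩ := hi.ex b
    ⟨z, c ▸ a⟩
  refine ⟨F, i, inferInstance, hi, ⟨h.hu.comp hi.hol, fun z z' k => hi.inj (h.inj (h1 z') k),
    fun z => .comp (h.hu.at _) (hi.hol.at z) (h.imu _ (h1 z)) (hi.imm z),
    subset_antisymm (range_subset_iff.2 fun z => (h.sq.comm _).trans (congrArg v (hi.fib z))) h2⟩,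
    Thin.union (A := (fun z => u (i z)) ⁻¹' C.S) (B := i ⁻¹' (M₁.f ⁻¹' Q ∪ (off M₁.G)ᶜ))
      (.pre_of_ex C.thinS.an (h.hu.comp hi.hol) ?_) ?_⟩
  · obtain ⟨x, hx⟩ := (C.conn _ (h.nQ y hy)).nonempty
    obtain ⟨x', a, b⟩ := closure_nonempty_iff.1 ⟨x, C.fib x (hx.symm ▸ h.nQ y hy)⟩
    obtain ⟨z, rfl⟩ := h2 x' (a.trans hx)
    exact ⟨z, b⟩
  · exact (congrArg (Thin a) (Set.ext fun z => (or_iff_right (h1 z)).symm)).mp (snc_thin_off hS)

theorem jd {e₁ : Chart (p + a) M₁.X.X} {e₁' : Chart p M₁.Y.X} {e : Chart (p + a) M.X.X}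
    {e' : Chart p M.Y.X} (hx : u x ∉ C.S) (he₁ : At e₁ x) (he₁' : At e₁' (M₁.f x))
    (he : At e (u x)) (he' : At e' (M.f (u x))) :
    jdw (fun i x => C.w i (u x)) e₁ e₁' x * (dfM v e₁' e' (M₁.f x)).det =
      jdw C.w e e' (u x) * (dfM u e₁ e x).det := by
  have h1 := fun i => (C.mr i).hol _ hx
  have h2 : dW (fun i x => C.w i (u x)) e₁ x = dW C.w e (u x) * dfM u e₁ e x :=
    dfM_comp (g := fun y i => C.w i y) (Thn.holA_cm h1) (h.hu.at x) he₁ he (at_refl _)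
  rw [jdw_eq (h.ok₁.fibn.hol.at x) (fun i => h.hu.hol (h1 i)) he₁ he₁',
    jdw_eq (h.ok.fibn.hol.at _) h1 he he', mul_comm, ← detR_left, ← detR_mul, h2,
    ← dfM_comp (h.hv.at _) (h.ok₁.fibn.hol.at x) he₁ he₁' (h.sq.comm x ▸ he'),
    ← dfM_comp (h.ok.fibn.hol.at _) (h.hu.at x) he₁ he he', funext h.sq.comm]

/-- the nice structure of the model -/
def ns : NS M₁ where
  Q := Q
  S := bad C u Q
  w i x := C.w i (u x)
  thinQ := h.thin
  thinS := h.thinS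
  reg := h.reg
  conn y _ := have := h.ok₁.conn; h.ok₁.fibn.conn_all y
  sub _ k := .inr (.inl k)
  klt := h.klt
  offG _ k := not_not.1 fun c => k (.inr (.inr c))
  mr i := h.sq.mu.elim fun _ c => mr_pull c (C.mr i) fun _ k d => k (.inl d)
  et x k _ _ he he' := left_ne_zero_of_mul (h.jd (fun d => k (.inl d)) he he' (at_chart _)
    (at_chart _) ▸ mul_ne_zero (C.et _ (fun d => k (.inl d)) _ _ (at_chart _) (at_chart _))
      ((imm_iff_det (h.hu.at x) he (at_chart _)).1 (h.imu x fun d => k (.inr (.inl d)))))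
  fib x k := by
    obtain ⟨F, i, -, hi, -, h1⟩ := h.fibre k
    obtain ⟨z, rfl⟩ := hi.ex (rfl : x ∈ M₁.f ⁻¹' {M₁.f x})
    exact map_mem_closure hi.hol.cont (h1.2 z) fun z' hz => ⟨hi.fib z', hz⟩

theorem cmp {e₁ : Chart (p + a) M₁.X.X} {e₁' : Chart p M₁.Y.X} {e : Chart (p + a) M.X.X}
    {e' : Chart p M.Y.X} {ζ₁ : M₁.κ → M₁.X.X → ℂ} {ζ : M.κ → M.X.X → ℂ} (hx : M₁.f x ∉ Q)
    (he₁ : At e₁ x) (he₁' : At e₁' (M₁.f x)) (he : At e (u x)) (he' : At e' (M.f (u x)))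
    (hζ₁ : ∀ l, LEq (p + a) (M₁.G l) x (ζ₁ l)) (hζ : ∀ l, LEq (p + a) (M.G l) (u x) (ζ l)) (k : ℕ) :
    Cpb (𝓝 x ⊓ 𝓟 h.ns.Sᶜ) (fun x => wt C.w k e e' ζ (u x)) (wt h.ns.w k e₁ e₁' ζ₁) := by
  have hf := h.ok₁.fibn.hol.cont.continuousAt (x := x)
  have h0 : At e' (v (M₁.f x)) := h.sq.comm x ▸ he'
  obtain ⟨K, hK, h1⟩ := h.sq.log.iso x (h.imu x hx) ζ ζ₁ hζ hζ₁
  simp only [funext (wt_eq h.ns.w k e₁ e₁' ζ₁), wt_eq]
  refine cpb_pow (cpb_mul (cpb_of (f' := fun x => ‖(dfM u e₁ e x).det‖)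
    (g' := fun x => ‖(dfM v e₁' e' (M₁.f x)).det‖)
    ((hol_det fun a b => hol_dfM (h.hu.at x) he₁ he a b).cont.norm.mono_left inf_le_left)
    (((hol_det fun a b => hol_dfM (h.hv.at _) he₁' h0 a b).cont.comp hf).norm.mono_left inf_le_left)
    (norm_pos_iff.2 ((imm_iff_det (h.hu.at x) he₁ he).1 (h.imu x hx)))
    (norm_pos_iff.2 ((imm_iff_det (h.hv.at _) he₁' h0).1 (h.imv _ hx))) (fun _ => norm_nonneg _)
    (fun _ => norm_nonneg _) (eventually_inf_principal.2 ?_)) ⟨K, hK, h1.filter_mono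
      (inf_le_inf_left _ (principal_mono.2 h.ns.offG))⟩ (fun _ => norm_nonneg _)
      (fun _ => norm_nonneg _) (fun _ => by positivity) fun _ => by positivity)
    (fun _ => by positivity) (fun _ => by positivity) k
  filter_upwards [at_near he₁, hf.eventually (at_near he₁'), h.hu.cont.continuousAt.eventually
    (at_near he), (h.ok.fibn.hol.comp h.hu).cont.continuousAt.eventually (at_near he')]
    with z a1 a2 a3 a4 a5
  rw [← norm_mul, ← norm_mul, ← h.jd (fun d => a5 (.inl d)) a1 a2 a3 a4]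
  rfl

end H

end Trf

end Vale.Agent.P281Z.Gt
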